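import Crest.Agent.R121.Defs

/-! Row 121: a minimax theorem for means. -/

set_option autoImplicit false

open scoped ComplexOrder InnerProductSpace ComplexConjugate

namespace Crest.Agent.R121

open Crest.Agent.R095 (Tr lt)
open Crest.Agent.R124

variable {X Y : Type*}

lemma minimax_ex_prod {Ω Ω' : Type*} [Fintype Ω] [Fintype Ω'] (f : Ω × Ω' → ℝ) :
    ex f = ex fun ω => ex fun ω' => f (ω, ω') := by
  simp only [ex_def, Fintype.card_prod, Fintype.sum_prod_type, ← Finset.smul_sum, smul_smul,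
    Nat.cast_mul, mul_inv]

lemma minimax_ex_ite {N k : ℕ} (hk : k ≤ N) (u v : ℝ) :
    ex (fun i : Fin N => if (i : ℕ) < k then u else v) = (N : ℝ)⁻¹ * (k * u + (N - k) * v) := by
  rw [ex_def, Fintype.card_fin, smul_eq_mul,
    Fin.sum_univ_eq_sum_range (fun i => if i < k then u else v) N, ← Nat.add_sub_cancel' hk,
    Finset.sum_range_add, Finset.sum_congr rfl fun i hi => if_pos (Finset.mem_range.1 hi),
    Finset.sum_congr rfl fun i _ => if_neg (by omega)]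
  simp

/-- mixing two uniform averages -/
lemma minimax_mix (φ : X → Y → ℝ) {C : ℝ} (hφ : ∀ x y, |φ x y| ≤ C) {Ω₁ Ω₂ : Type} [Fintype Ω₁]
    [Nonempty Ω₁] [Fintype Ω₂] [Nonempty Ω₂] (s₁ : Ω₁ → Y) (s₂ : Ω₂ → Y) {t : ℝ} (h0 : 0 ≤ t)
    (h1 : t ≤ 1) {δ : ℝ} (hδ : 0 < δ) :
    ∃ (Ω : Type) (_ : Fintype Ω) (_ : Nonempty Ω) (s : Ω → Y), ∀ x,
      t * ex (fun ω => φ x (s₁ ω)) + (1 - t) * ex (fun ω => φ x (s₂ ω)) - δ ≤
        ex fun ω => φ x (s ω) := by
  obtain ⟨N, hN⟩ := exists_nat_gt (max (2 * C / δ) 0)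
  have hN0 : (0 : ℝ) < N := (le_max_right _ _).trans_lt hN
  have hN1 : 2 * C ≤ N * δ := (div_le_iff₀ hδ).1 ((le_max_left _ _).trans hN.le)
  have hk1 : (⌊t * N⌋₊ : ℝ) ≤ t * N := Nat.floor_le (by positivity)
  have hk2 : t * N < ⌊t * N⌋₊ + 1 := Nat.lt_floor_add_one _
  have hk : ⌊t * N⌋₊ ≤ N := by
    have : (⌊t * N⌋₊ : ℝ) ≤ N := hk1.trans (mul_le_of_le_one_left hN0.le h1)
    exact_mod_cast this
  refine ⟨Fin N × Ω₁ × Ω₂, inferInstance,
    ⟨⟨⟨0, by exact_mod_cast hN0⟩, Classical.arbitrary _⟩⟩,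
    fun ω => if (ω.1 : ℕ) < ⌊t * N⌋₊ then s₁ ω.2.1 else s₂ ω.2.2, fun x => ?_⟩
  have e : ex (fun ω : Fin N × Ω₁ × Ω₂ =>
      φ x (if (ω.1 : ℕ) < ⌊t * N⌋₊ then s₁ ω.2.1 else s₂ ω.2.2)) =
      ex fun i : Fin N => if (i : ℕ) < ⌊t * N⌋₊ then ex (fun ω => φ x (s₁ ω))
        else ex fun ω => φ x (s₂ ω) := by
    rw [minimax_ex_prod]
    refine ex_congr fun i => ?_
    rw [minimax_ex_prod]
    split_ifs <;> simp
  rw [e, minimax_ex_ite hk, le_inv_mul_iff₀ hN0]
  have hu := abs_le.1 (norm_ex_le_const (f := fun ω => φ x (s₁ ω)) fun ω => hφ x _)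
  have hv := abs_le.1 (norm_ex_le_const (f := fun ω => φ x (s₂ ω)) fun ω => hφ x _)
  generalize ex (fun ω => φ x (s₁ ω)) = u at hu ⊢
  generalize ex (fun ω => φ x (s₂ ω)) = v at hv ⊢
  generalize (⌊t * N⌋₊ : ℝ) = k at hk1 hk2 ⊢
  have h2 : (t * N - k) * (u - v) ≤ (t * N - k) * (2 * C) :=
    mul_le_mul_of_nonneg_left (by linarith) (by linarith)
  have h3 : (t * N - k) * (2 * C) ≤ 1 * (2 * C) :=
    mul_le_mul_of_nonneg_right (by linarith) (by linarith)
  nlinarith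

/-- complexification of a real functional -/
noncomputable def minimaxCx (L : (X → ℝ) →ₗ[ℝ] ℝ) : (X → ℂ) →ₗ[ℂ] ℂ where
  toFun f := ⟨L fun x => (f x).re, L fun x => (f x).im⟩
  map_add' f g := Complex.ext (L.map_add (fun x => (f x).re) fun x => (g x).re)
    (L.map_add (fun x => (f x).im) fun x => (g x).im)
  map_smul' c f := by
    have h1 : (fun x => ((c • f) x).re) =
        c.re • (fun x => (f x).re) - c.im • fun x => (f x).im := by
      funext x
      simp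
    have h2 : (fun x => ((c • f) x).im) =
        c.re • (fun x => (f x).im) + c.im • fun x => (f x).re := by
      funext x
      simp
    refine Complex.ext ?_ ?_
    · simp only [h1, map_sub, map_smul, smul_eq_mul, RingHom.id_apply, Complex.mul_re]
    · simp only [h2, map_add, map_smul, smul_eq_mul, RingHom.id_apply, Complex.mul_im]

open BoundedContinuousFunction in
/-- In the Banach space `E` of bounded real functions on `X` (`lp (fun _ : X => ℝ) ∞`, or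
`X →ᵇ ℝ` for the discrete topology) let `O = {f | ∃ δ > 0, ∀ x, a - ε / 2 + δ ≤ f x}` (open,
convex) and let `C` be the convex hull of the functions `φ · y`. If they are disjoint,
`geometric_hahn_banach_open` gives a functional which, up to sign and normalisation, is a positive
unital `ℓ` with `ℓ (φ · y) ≤ a - ε / 2` for all `y`; `m f = ℓ (re f) + i ℓ (im f)` on bounded
functions, extended linearly (`LinearMap.exists_extend`), is a mean contradicting `h`. Otherwise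
a finite convex combination `∑ λ i φ x (y i)` is `≥ a - ε / 2`; approximate the weights by
`⌊N λ i⌋ / N` (put the remaining copies on any point) and take `Ω = Fin N` or a sigma type. -/
theorem Mn.minimax [Nonempty X] (φ : X → Y → ℝ) {C : ℝ} (hφ : ∀ x y, |φ x y| ≤ C) {a : ℝ}
    (h : ∀ (m : Mn X) (ε : ℝ), 0 < ε → ∃ y, a - ε ≤ (m fun x => (φ x y : ℂ)).re) {ε : ℝ}
    (hε : 0 < ε) :
    ∃ (Ω : Type) (_ : Fintype Ω) (_ : Nonempty Ω) (s : Ω → Y),
      ∀ x, a - ε ≤ ex fun ω => φ x (s ω) := by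
  by_contra hcon
  let _ : TopologicalSpace X := ⊥
  have : DiscreteTopology X := ⟨rfl⟩
  let T : Set (X →ᵇ ℝ) := {f | ∀ δ : ℝ, 0 < δ →
    ∃ (Ω : Type) (_ : Fintype Ω) (_ : Nonempty Ω) (s : Ω → Y), ∀ x, f x - δ ≤ ex fun ω => φ x (s ω)}
  have hT : Convex ℝ T := by
    intro f hf g hg t t' ht ht' htt δ hδ
    obtain ⟨Ω₁, _, _, s₁, h₁⟩ := hf (δ / 2) (half_pos hδ)
    obtain ⟨Ω₂, _, _, s₂, h₂⟩ := hg (δ / 2) (half_pos hδ)
    obtain ⟨Ω, _, _, s, hs⟩ := minimax_mix φ hφ s₁ s₂ ht (by linarith) (half_pos hδ)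
    refine ⟨Ω, inferInstance, inferInstance, s, fun x => le_trans ?_ (hs x)⟩
    obtain rfl : t' = 1 - t := by linarith
    have h3 := mul_le_mul_of_nonneg_left (h₁ x) ht
    have h4 := mul_le_mul_of_nonneg_left (h₂ x) ht'
    simp only [BoundedContinuousFunction.add_apply, BoundedContinuousFunction.smul_apply,
      smul_eq_mul]
    linarith
  have hdown : ∀ f g : X →ᵇ ℝ, g ∈ T → (∀ x, f x ≤ g x) → f ∈ T := by
    intro f g hg hfg δ hδ
    obtain ⟨Ω, _, _, s, hs⟩ := hg δ hδ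
    exact ⟨Ω, inferInstance, inferInstance, s, fun x => by linarith [hs x, hfg x]⟩
  let F : Y → X →ᵇ ℝ := fun y => ofNormedAddCommGroupDiscrete (fun x => φ x y) C fun x => hφ x y
  have hF : ∀ y, F y ∈ T := fun y δ hδ =>
    ⟨Unit, inferInstance, inferInstance, fun _ => y, fun x => by
      rw [ex_const]
      exact sub_le_self _ hδ.le⟩
  have hdisj : Disjoint (Metric.ball (const X (a - ε / 2)) (ε / 4)) T := by
    refine Set.disjoint_left.2 fun f hf hf' => hcon ?_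
    obtain ⟨Ω, _, _, s, hs⟩ := hf' (ε / 4) (by positivity)
    refine ⟨Ω, inferInstance, inferInstance, s, fun x => le_trans ?_ (hs x)⟩
    have h1 := (dist_coe_le_dist x).trans_lt (Metric.mem_ball.1 hf)
    rw [Real.dist_eq, const_apply] at h1
    linarith [(abs_lt.1 h1).1]
  obtain ⟨ℓ, u, h1, h2⟩ := geometric_hahn_banach_open (convex_ball _ _) Metric.isOpen_ball hT hdisj
  obtain ⟨y₀, -⟩ := h (Mn.pt (Classical.arbitrary X)) 1 one_pos
  have hneg : ∀ p : X →ᵇ ℝ, (∀ x, 0 ≤ p x) → ℓ p ≤ 0 := by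
    intro p hp
    by_contra hlt
    push Not at hlt
    have h3 := h2 (F y₀ - ((ℓ (F y₀) - u + 1) / ℓ p) • p) (hdown _ _ (hF y₀) fun x => by
      have : 0 ≤ (ℓ (F y₀) - u + 1) / ℓ p := div_nonneg (by linarith [h2 _ (hF y₀)]) hlt.le
      simpa using mul_nonneg this (hp x))
    rw [_root_.map_sub, map_smul, smul_eq_mul, div_mul_cancel₀ _ hlt.ne'] at h3
    linarith
  have hc : ∀ c : ℝ, ℓ (const X c) = c * ℓ (const X 1) := by
    intro c
    rw [← smul_eq_mul, ← map_smul]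
    congr 1
    ext x
    simp
  have h3 : (a - ε / 2) * ℓ (const X 1) < u := hc _ ▸ h1 _ (Metric.mem_ball_self (by positivity))
  have h4 : ℓ (const X 1) < 0 := by
    refine lt_of_le_of_ne (hneg _ fun x => zero_le_one) fun h0 => ?_
    have h5 := h2 (const X (-C)) (hdown _ _ (hF y₀) fun x => (abs_le.1 (hφ x y₀)).1)
    rw [hc, h0] at h5
    rw [h0] at h3
    linarith
  let j : (X →ᵇ ℝ) →ₗ[ℝ] X → ℝ := ⟨⟨fun f => f, fun _ _ => rfl⟩, fun _ _ => rfl⟩
  obtain ⟨r, hr⟩ := j.exists_leftInverse_of_injective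
    (LinearMap.ker_eq_bot.2 DFunLike.coe_injective)
  have hr' : ∀ f : X →ᵇ ℝ, r f = f := fun f => LinearMap.congr_fun hr f
  let L : (X → ℝ) →ₗ[ℝ] ℝ := (ℓ (const X 1))⁻¹ • (ℓ : (X →ᵇ ℝ) →ₗ[ℝ] ℝ) ∘ₗ r
  have hL : ∀ f : X →ᵇ ℝ, L f = (ℓ (const X 1))⁻¹ * ℓ f := fun f => by simp [L, hr']
  let m : Mn X := ⟨minimaxCx L, fun f hf c hfc => by
    obtain ⟨B, hB⟩ := hf
    let f' : X →ᵇ ℝ := ofNormedAddCommGroupDiscrete (fun x => (f x).re) B
      fun x => (Complex.abs_re_le_norm _).trans (hB x)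
    have h5 := hneg (const X c - f') fun x => sub_nonneg.2 (hfc x)
    rw [_root_.map_sub, hc] at h5
    change L f' ≤ c
    rw [hL, ← div_eq_inv_mul, div_le_iff_of_neg h4]
    linarith⟩
  obtain ⟨y, hy⟩ := h m (ε / 2) (half_pos hε)
  change a - ε / 2 ≤ L (F y) at hy
  rw [hL, ← div_eq_inv_mul, le_div_iff_of_neg h4] at hy
  linarith [h2 _ (hF y)]

end Crest.Agent.R121
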