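import Crest.Agent.R121.Defs

/-! Row 121: compactness of the set of means. -/

set_option autoImplicit false

open scoped ComplexOrder InnerProductSpace ComplexConjugate

namespace Crest.Agent.R121

open Crest.Agent.R095 (Tr lt)
open Crest.Agent.R124

variable {X : Type*}

/-- The ultralimit of a family of means. -/
theorem Compact_ultra {J : Type*} (U : Ultrafilter J) (m : J → Mn X) :
    ∃ M : Mn X, ∀ f : X → ℂ, Bd f → Filter.Tendsto (fun j => m j f) U (nhds (M f)) := by
  let B : Submodule ℂ (X → ℂ) :=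
    { carrier := {f | Bd f}
      add_mem' := by
        rintro f g ⟨C, hC⟩ ⟨D, hD⟩
        exact ⟨C + D, fun x => (norm_add_le _ _).trans (add_le_add (hC x) (hD x))⟩
      zero_mem' := ⟨0, fun x => by simp⟩
      smul_mem' := by
        rintro c f ⟨C, hC⟩
        exact ⟨‖c‖ * C, fun x => by
          rw [Pi.smul_apply, norm_smul]
          exact mul_le_mul_of_nonneg_left (hC x) (norm_nonneg _)⟩ }
  have hex : ∀ f : B, ∃ z : ℂ, Filter.Tendsto (fun j => m j f) U (nhds z) := by
    rintro ⟨f, C, hC⟩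
    obtain ⟨z, -, hz⟩ := (isCompact_closedBall (0 : ℂ) C).ultrafilter_le_nhds
      (U.map fun j => m j f) (by
        rw [Ultrafilter.coe_map, Filter.le_principal_iff, Filter.mem_map]
        exact Filter.univ_mem' fun j => mem_closedBall_zero_iff.2 ((m j).norm_le hC))
    exact ⟨z, hz⟩
  choose L hL using hex
  let L' : B →ₗ[ℂ] ℂ :=
    { toFun := L
      map_add' := fun f g => by
        refine tendsto_nhds_unique (hL (f + g)) ?_
        refine ((hL f).add (hL g)).congr fun j => ?_
        exact ((m j).toLin.map_add f g).symm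
      map_smul' := fun c f => by
        refine tendsto_nhds_unique (hL (c • f)) ?_
        refine ((hL f).const_smul c).congr fun j => ?_
        exact ((m j).toLin.map_smul c f).symm }
  obtain ⟨g, hg⟩ := L'.exists_extend
  have hg' : ∀ (f : X → ℂ) (hf : Bd f), g f = L ⟨f, hf⟩ := fun f hf =>
    LinearMap.congr_fun hg ⟨f, hf⟩
  refine ⟨⟨g, fun f hf c hc => ?_⟩, fun f hf => ?_⟩
  · rw [hg' f hf]
    exact le_of_tendsto' ((Complex.continuous_re.tendsto _).comp (hL ⟨f, hf⟩))
      fun j => (m j).re_le hf hc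
  · change Filter.Tendsto _ _ (nhds (g f))
    rw [hg' f hf]
    exact hL ⟨f, hf⟩

/-- A closed condition that holds approximately on finite sets holds for some mean. -/
theorem Compact_approx {I : Type*} (F : I → X → ℂ) (hF : ∀ i, Bd (F i)) (φ : I → ℂ → ℝ)
    (hφ : ∀ i, Continuous (φ i))
    (h : ∀ (s : Finset I) (ε : ℝ), 0 < ε → ∃ m : Mn X, ∀ i ∈ s, φ i (m (F i)) ≤ ε) :
    ∃ m : Mn X, ∀ i, φ i (m (F i)) ≤ 0 := by
  classical
  choose m hm using fun q : Finset I × ℕ => h q.1 (1 / ((q.2 : ℝ) + 1)) (by positivity)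
  let U : Ultrafilter (Finset I × ℕ) := Ultrafilter.of Filter.atTop
  have hU : (U : Filter (Finset I × ℕ)) ≤ Filter.atTop := Ultrafilter.of_le _
  obtain ⟨M, hM⟩ := Compact_ultra U m
  refine ⟨M, fun i => ?_⟩
  have h1 : Filter.Tendsto (fun q : Finset I × ℕ => 1 / ((q.2 : ℝ) + 1)) U (nhds 0) := by
    refine (tendsto_one_div_add_atTop_nhds_zero_nat.comp ?_).mono_left hU
    rw [← Filter.prod_atTop_atTop_eq]
    exact Filter.tendsto_snd
  refine le_of_tendsto_of_tendsto (((hφ i).tendsto _).comp (hM _ (hF i))) h1 ?_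
  filter_upwards [hU (Filter.mem_atTop (({i} : Finset I), 0))] with q hq
  exact hm q i (hq.1 (Finset.mem_singleton_self i))

/-- Take an ultrafilter finer than `atTop` on `Finset I × ℕ` and means `m (s, n)` for
`ε = 1 / (n + 1)`. On the submodule of bounded functions let `L f` be the ultralimit of
`m (s, n) f` (values in a compact ball by `Mn.norm_le`; `IsCompact.ultrafilter_le_nhds`); `L` is
linear; extend it to all functions (`LinearMap.exists_extend`). -/
theorem Mn.exists_of_approx {I : Type*} (F : I → X → ℂ) (hF : ∀ i, Bd (F i))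
    (h : ∀ (s : Finset I) (ε : ℝ), 0 < ε → ∃ m : Mn X, ∀ i ∈ s, (m (F i)).re ≤ ε) :
    ∃ m : Mn X, ∀ i, (m (F i)).re ≤ 0 :=
  Compact_approx F hF (fun _ z => z.re) (fun _ => Complex.continuous_re) h

/-- Same ultralimit (or: apply the previous theorem to the functions `c * F i`, `‖c‖ = 1`). -/
theorem Mn.exists_of_approx_norm {I : Type*} (F : I → X → ℂ) (hF : ∀ i, Bd (F i)) (b : I → ℝ)
    (h : ∀ (s : Finset I) (ε : ℝ), 0 < ε → ∃ m : Mn X, ∀ i ∈ s, ‖m (F i)‖ ≤ b i + ε) :
    ∃ m : Mn X, ∀ i, ‖m (F i)‖ ≤ b i := by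
  obtain ⟨m, hm⟩ := Compact_approx F hF (fun i z => ‖z‖ - b i)
    (fun _ => continuous_norm.sub continuous_const) fun s ε hε => by
      obtain ⟨m, hm⟩ := h s ε hε
      exact ⟨m, fun i hi => by linarith [hm i hi]⟩
  exact ⟨m, fun i => by linarith [hm i]⟩

end Crest.Agent.R121
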