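import Crest.Agent.R121.Defs
import Crest.Agent.R124.TrIneq

/-! Row 121: elementary lemmas. -/

set_option autoImplicit false

open scoped ComplexOrder InnerProductSpace ComplexConjugate

namespace Crest.Agent.R121

open Crest.Agent.R095 (Tr lt)
open Crest.Agent.R124

section ex

variable {Ω Ω' : Type*} [Fintype Ω] [Fintype Ω'] {V : Type*} [AddCommGroup V] [Module ℝ V]

lemma ex_equiv (e : Ω ≃ Ω') (f : Ω' → V) : ex (fun ω => f (e ω)) = ex f := by
  rw [ex_def, ex_def, Fintype.card_congr e, Equiv.sum_comp e f]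

lemma ex_prod (f : Ω × Ω' → V) : ex f = ex fun ω => ex fun ω' => f (ω, ω') := by
  simp only [ex_def, Fintype.sum_prod_type, Fintype.card_prod, Nat.cast_mul, mul_inv,
    ← Finset.smul_sum, smul_smul]

lemma ex_update {α : Type*} [Fintype α] [DecidableEq α] {Δ : α → Type*} [∀ a, Fintype (Δ a)]
    [∀ a, Nonempty (Δ a)] (a : α) (f : (∀ a, Δ a) → V) :
    ex f = ex fun δ => ex fun t : Δ a => f (Function.update δ a t) := by
  classical
  have h1 : ∀ F : (∀ a, Δ a) → V, ex F = ex fun q : Δ a × (∀ b : {b // b ≠ a}, Δ b) =>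
      F ((Equiv.piSplitAt a Δ).symm q) := fun F => (ex_equiv (Equiv.piSplitAt a Δ).symm F).symm
  have h2 : ∀ (q : Δ a × (∀ b : {b // b ≠ a}, Δ b)) (t : Δ a),
      Function.update ((Equiv.piSplitAt a Δ).symm q) a t = (Equiv.piSplitAt a Δ).symm (t, q.2) := by
    intro q t
    ext b
    by_cases hb : b = a
    · subst hb
      simp [Equiv.piSplitAt]
    · simp [Equiv.piSplitAt, hb]
  rw [h1 f, h1 fun δ => ex fun t : Δ a => f (Function.update δ a t)]
  simp only [h2]
  rw [ex_prod, ex_prod]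
  simp only [ex_const]
  exact ex_comm _

lemma ex_eval {α : Type*} [Fintype α] [DecidableEq α] {Δ : α → Type*} [∀ a, Fintype (Δ a)]
    [∀ a, Nonempty (Δ a)] (a : α) (f : Δ a → V) : ex (fun δ : ∀ a, Δ a => f (δ a)) = ex f := by
  rw [ex_update a]
  simp

lemma ex_le_sqrt [Nonempty Ω] (f : Ω → ℝ) : ex f ≤ √(ex fun ω => f ω ^ 2) := by
  have := ex_mul_le f fun _ => 1
  simpa using this

variable {Q : Type*} [CStarAlgebra Q]

lemma fm_ex_left (β : Fm Q) (f : Ω → Q) (z : Q) : β (ex f) z = ex fun ω => β (f ω) z := by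
  exact map_ex' (fun x => β x z) (fun x y => by simp)
    (fun c x => by rw [← Complex.coe_smul, map_smul]; simp) f

lemma fm_ex_right (β : Fm Q) (z : Q) (f : Ω → Q) : β z (ex f) = ex fun ω => β z (f ω) := by
  exact map_ex' (fun x => β z x) (fun x y => by simp)
    (fun c x => by rw [← Complex.coe_smul, map_smul]; simp) f

/-- A function that is multiplied by `c ≠ 1` under a symmetry has mean zero. -/
lemma ex_eq_zero_of_equiv {X : Type*} [AddCommGroup X] [Module ℂ X] (e : Ω ≃ Ω) {c : ℂ}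
    (hc : c ≠ 1) {f : Ω → X} (h : ∀ ω, f (e ω) = c • f ω) : ex f = 0 := by
  have h1 : ex f = c • ex f := by
    rw [← ex_complex_smul, ← ex_equiv e f]
    exact ex_congr h
  have h2 : (1 - c) • ex f = 0 := by rw [sub_smul, one_smul, ← h1, sub_self]
  exact (smul_eq_zero.1 h2).resolve_left (sub_ne_zero.2 hc.symm)

end ex

variable {Q : Type*} [CStarAlgebra Q]

lemma norm_le_one_of_unitary {u : Q} (hu : u ∈ unitary Q) : ‖u‖ ≤ 1 := by
  have h1 : ‖u‖ * ‖u‖ ≤ 1 := by
    rw [← CStarRing.norm_star_mul_self, Unitary.star_mul_self_of_mem hu]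
    exact (IsStarProjection.one Q).norm_le
  nlinarith [norm_nonneg u]

section dcs

variable (τ : Tr Q)

lemma dcs_nonneg (Y : Q) : 0 ≤ dcs τ Y := by
  exact Real.iInf_nonneg fun _ => τ.n2_nonneg _

lemma dcs_le {z : Q} (hz : z ∈ commSpan Q) (Y : Q) : dcs τ Y ≤ τ.n2 (Y - z) := by
  exact ciInf_le (f := fun z : commSpan Q => τ.n2 (Y - z))
    ⟨0, by rintro _ ⟨z, rfl⟩; exact τ.n2_nonneg _⟩ ⟨z, hz⟩

lemma dcs_le_n2 (Y : Q) : dcs τ Y ≤ τ.n2 Y := by
  simpa using dcs_le τ (zero_mem (commSpan Q)) Y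

lemma exists_lt_dcs (Y : Q) {ε : ℝ} (hε : 0 < ε) :
    ∃ z ∈ commSpan Q, τ.n2 (Y - z) ≤ dcs τ Y + ε := by
  obtain ⟨z, hz⟩ := exists_lt_of_ciInf_lt (f := fun z : commSpan Q => τ.n2 (Y - z))
    (lt_add_of_pos_right (dcs τ Y) hε)
  exact ⟨z, z.2, hz.le⟩

lemma dcs_congr {X Y : Q} (h : X - Y ∈ commSpan Q) : dcs τ X = dcs τ Y := by
  have key : ∀ {X Y : Q}, X - Y ∈ commSpan Q → dcs τ X ≤ dcs τ Y := by
    intro X Y h
    refine le_of_forall_pos_le_add fun ε hε => ?_
    obtain ⟨z, hz, hz'⟩ := exists_lt_dcs τ Y hε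
    have := dcs_le τ (add_mem h hz) X
    rw [show X - (X - Y + z) = Y - z by abel] at this
    exact this.trans hz'
  exact le_antisymm (key h) (key (by simpa using neg_mem h))

lemma dcs_comm (X Y : Q) : dcs τ (X * Y) = dcs τ (Y * X) := dcs_congr τ (comm_mem_commSpan X Y)

lemma dcs_conj {u : Q} (hu : u ∈ unitary Q) (Y : Q) : dcs τ (u * Y * star u) = dcs τ Y := by
  rw [dcs_comm, ← mul_assoc, Unitary.star_mul_self_of_mem hu, one_mul]

lemma dcs_conj' {u : Q} (hu : u ∈ unitary Q) (Y : Q) : dcs τ (star u * Y * u) = dcs τ Y := by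
  rw [dcs_comm, ← mul_assoc, Unitary.mul_star_self_of_mem hu, one_mul]

lemma conj_mem_commSpan {u z : Q} (hu : u ∈ unitary Q) (hz : z ∈ commSpan Q) :
    u * z * star u ∈ commSpan Q := by
  have h1 := comm_mem_commSpan (u * z) (star u)
  rw [← mul_assoc, Unitary.star_mul_self_of_mem hu, one_mul] at h1
  simpa using add_mem h1 hz

end dcs

section forms

variable {τ : Tr Q} {β : Fm Q} {C : ℝ}

lemma B1.b0 (h : B1 τ β C) (hC : 0 ≤ C) : B0 β C := by
  intro z z'
  have := h z z' 1
  rw [mul_one, τ.n2_one, mul_one] at this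
  exact this.trans (by gcongr; exact τ.n2_le_norm z')

lemma B0.neg (h : B0 β C) : B0 (-β) C := by
  intro z z'
  simpa using h z z'

lemma B1.neg (h : B1 τ β C) : B1 τ (-β) C := by
  intro z x y
  simpa using h z x y

lemma B2.neg (h : B2 τ β C) : B2 τ (-β) C := by
  intro z z'
  simpa using h z z'

lemma B1.smul (h : B1 τ β C) {c : ℂ} (hc : ‖c‖ ≤ 1) : B1 τ (c • β) C := by
  intro z x y
  rw [LinearMap.smul_apply, LinearMap.smul_apply, norm_smul]
  exact (mul_le_of_le_one_left (norm_nonneg _) hc).trans (h z x y)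

lemma B2.smul (h : B2 τ β C) {c : ℂ} (hc : ‖c‖ ≤ 1) : B2 τ (c • β) C := by
  intro z z'
  rw [LinearMap.smul_apply, LinearMap.smul_apply, norm_smul]
  exact (mul_le_of_le_one_left (norm_nonneg _) hc).trans (h z z')

lemma B0.mono (h : B0 β C) {C' : ℝ} (hC : C ≤ C') : B0 β C' := by
  intro z z'
  exact (h z z').trans (by gcongr)

lemma B0.avg (h : B0 β C) (m : Mn (unitary Q)) : B0 (avg β m) C := by
  intro z z'
  refine m.norm_le fun u => (h _ _).trans_eq ?_
  rw [CStarRing.norm_mul_mem_unitary _ (Unitary.star_mem u.2), CStarRing.norm_mem_unitary_mul _ u.2]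

lemma B1.avg (h : B1 τ β C) (m : Mn (unitary Q)) : B1 τ (avg β m) C := by
  intro z x y
  refine m.norm_le fun u => ?_
  rw [← mul_assoc]
  refine (h _ _ _).trans_eq ?_
  rw [CStarRing.norm_mul_mem_unitary _ (Unitary.star_mem u.2), τ.n2_unitary_mul u.2]

lemma B2.avg (h : B2 τ β C) (m : Mn (unitary Q)) : B2 τ (avg β m) C := by
  intro z z'
  refine m.norm_le fun u => (h _ _).trans_eq ?_
  rw [τ.n2_mul_unitary (Unitary.star_mem u.2), τ.n2_unitary_mul u.2]

lemma B0.norm_gam_le (h : B0 β C) (hC : 0 ≤ C) {u : Q} (hu : u ∈ unitary Q) :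
    ‖gam β u‖ ≤ C := by
  refine (h _ _).trans ?_
  have h1 := norm_le_one_of_unitary hu
  rw [norm_star, mul_assoc]
  exact mul_le_of_le_one_right hC (mul_le_one₀ h1 (norm_nonneg _) h1)

lemma Flat.avg (h : Flat β) (m : Mn (unitary Q)) : Flat (avg β m) := by
  intro u hu
  rw [gam_avg, gam_avg]
  congr 1
  ext v
  rw [h _ (mul_mem v.2 hu), h _ (mul_mem v.2 (one_mem _))]

lemma gam_neg (u : Q) : gam (-β) u = -gam β u := rfl

lemma avg_neg (m : Mn (unitary Q)) : avg (-β) m = -avg β m := by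
  ext z z'
  simp only [avg_apply, LinearMap.neg_apply, m.map_neg]

lemma avg_smul (c : ℂ) (m : Mn (unitary Q)) : avg (c • β) m = c • avg β m := by
  ext z z'
  simp only [avg_apply, LinearMap.smul_apply, smul_eq_mul, m.map_mul_left]

/-- The form `(z, z') ↦ β (a z b) (a' z' b')`. -/
noncomputable def sand (β : Fm Q) (a b a' b' : Q) : Fm Q :=
  β.compl₁₂ (LinearMap.mulLeftRight ℂ (a, b)) (LinearMap.mulLeftRight ℂ (a', b'))

lemma sand_apply (a b a' b' z z' : Q) :
    sand β a b a' b' z z' = β (a * z * b) (a' * z' * b') := rfl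

lemma B1.sand (h : B1 τ β C) {a b a' b' : Q} (ha : a ∈ unitary Q) (hb : b ∈ unitary Q)
    (ha' : a' ∈ unitary Q) (hb' : b' ∈ unitary Q) : B1 τ (sand β a b a' b') C := by
  intro z x y
  rw [sand_apply, show a' * (x * y) * b' = (a' * x) * (y * b') by noncomm_ring]
  refine (h _ _ _).trans_eq ?_
  rw [CStarRing.norm_mul_mem_unitary _ hb, CStarRing.norm_mem_unitary_mul _ ha,
    τ.n2_unitary_mul ha', τ.n2_mul_unitary hb']

lemma B2.sand (h : B2 τ β C) {a b a' b' : Q} (ha : a ∈ unitary Q) (hb : b ∈ unitary Q)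
    (ha' : a' ∈ unitary Q) (hb' : b' ∈ unitary Q) : B2 τ (sand β a b a' b') C := by
  intro z z'
  rw [sand_apply]
  refine (h _ _).trans_eq ?_
  rw [τ.n2_mul_unitary hb, τ.n2_unitary_mul ha, τ.n2_mul_unitary hb', τ.n2_unitary_mul ha']

/-- The form `(z, z') ↦ conj (β z⋆ z'⋆)`. -/
noncomputable def cst (β : Fm Q) : Fm Q :=
  LinearMap.mk₂ ℂ (fun z z' => conj (β (star z) (star z')))
    (fun a b c => by simp) (fun c a b => by simp) (fun a b c => by simp) (fun c a b => by simp)

lemma cst_apply (z z' : Q) : cst β z z' = conj (β (star z) (star z')) := rfl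

lemma B1.cst (h : B1 τ β C) : B1 τ (cst β) C := by
  intro z x y
  rw [cst_apply, Complex.norm_conj, star_mul]
  refine (h _ _ _).trans_eq ?_
  rw [norm_star, τ.n2_star, τ.n2_star]
  ring

lemma B2.cst (h : B2 τ β C) : B2 τ (cst β) C := by
  intro z z'
  rw [cst_apply, Complex.norm_conj]
  refine (h _ _).trans_eq ?_
  rw [τ.n2_star, τ.n2_star]

end forms

section words

variable {α : Type}

lemma lt_mem_unitary {u : Q} (hu : u ∈ unitary Q) (e : Bool) : lt u e ∈ unitary Q := by
  cases e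
  · exact Unitary.star_mem hu
  · exact hu

lemma star_lt (u : Q) (e : Bool) : star (lt u e) = lt u (!e) := by
  cases e <;> simp

@[simp] lemma lets_nil : lets ([] : List (α × Bool)) = [] := rfl
@[simp] lemma lets_cons (x : α × Bool) (l : List (α × Bool)) : lets (x :: l) = x.1 :: lets l := rfl
@[simp] lemma lets_append (l l' : List (α × Bool)) : lets (l ++ l') = lets l ++ lets l' := by
  simp [lets]

lemma lets_invRev (l : List (α × Bool)) : lets (FreeGroup.invRev l) = (lets l).reverse := by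
  simp [lets, FreeGroup.invRev, List.map_reverse, Function.comp_def]

lemma ev_mem_unitary {g : α → Q} (hg : ∀ a, g a ∈ unitary Q) (l : List (α × Bool)) :
    ev g l ∈ unitary Q := by
  induction l with
  | nil => exact one_mem _
  | cons x l ih => rw [ev_cons]; exact mul_mem (lt_mem_unitary (hg _) _) ih

lemma ev_congr {g g' : α → Q} {l : List (α × Bool)} (h : ∀ a ∈ lets l, g a = g' a) :
    ev g l = ev g' l := by
  induction l with
  | nil => rfl
  | cons x l ih =>
    rw [ev_cons, ev_cons, h x.1 (by simp), ih fun a ha => h a (by simp [ha])]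

lemma star_ev (g : α → Q) (l : List (α × Bool)) : star (ev g l) = ev g (FreeGroup.invRev l) := by
  induction l with
  | nil => simp
  | cons x l ih =>
    rw [ev_cons, star_mul, ih, star_lt, FreeGroup.invRev_cons, ev_append]
    simp [FreeGroup.invRev]

lemma ev_update [DecidableEq α] {Δ : α → Type*} (g : ∀ a, Δ a → Q) (δ : ∀ a, Δ a) {a : α}
    (t : Δ a) {l : List (α × Bool)} (h : a ∉ lets l) :
    ev (fun b => g b (Function.update δ a t b)) l = ev (fun b => g b (δ b)) l := by
  refine ev_congr fun b hb => ?_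
  have : b ≠ a := fun e => h (e ▸ hb)
  simp only [Function.update_of_ne this]

lemma ev_mem_words {g : α → Q} {S : Set Q} {l : List (α × Bool)}
    (h : ∀ x ∈ l, lt (g x.1) x.2 ∈ S) {D : ℕ} (hD : l.length ≤ D) : ev g l ∈ words S D := by
  refine ⟨l.map fun x => lt (g x.1) x.2, by simpa using hD, fun y hy => ?_, rfl⟩
  obtain ⟨x, hx, rfl⟩ := List.mem_map.1 hy
  exact h x hx

lemma mul_mem_words {S : Set Q} {x y : Q} {D D' : ℕ} (hx : x ∈ words S D) (hy : y ∈ words S D') :
    x * y ∈ words S (D + D') := by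
  obtain ⟨l, h1, h2, rfl⟩ := hx
  obtain ⟨l', h1', h2', rfl⟩ := hy
  refine ⟨l ++ l', by simpa using add_le_add h1 h1', fun z hz => ?_, List.prod_append⟩
  rcases List.mem_append.1 hz with h | h
  exacts [h2 z h, h2' z h]

lemma mem_words_one {S : Set Q} {x : Q} (hx : x ∈ S) : x ∈ words S 1 := by
  exact ⟨[x], le_rfl, by simpa using hx, by simp⟩

lemma words_mono {S : Set Q} {D D' : ℕ} (h : D ≤ D') : words S D ⊆ words S D' := by
  rintro _ ⟨l, h1, h2, rfl⟩
  exact ⟨l, h1.trans h, h2, rfl⟩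

lemma words_finite {S : Set Q} (hS : S.Finite) (D : ℕ) : (words S D).Finite := by
  have := hS.to_subtype
  refine ((List.finite_length_le S D).image fun l : List S => (l.map Subtype.val).prod).subset ?_
  rintro _ ⟨l, h1, h2, rfl⟩
  refine ⟨l.pmap Subtype.mk h2, by simpa using h1, ?_⟩
  simp [List.map_pmap]

variable [DecidableEq α]

lemma ev_toWord_mk {g : α → Q} (hg : ∀ a, g a ∈ unitary Q) (l : List (α × Bool)) :
    ev g (FreeGroup.mk l).toWord = ev g l := by
  have key : ∀ {l l' : List (α × Bool)}, FreeGroup.Red l l' → ev g l = ev g l' := by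
    intro l l' h
    induction h with
    | refl => rfl
    | tail _ hs ih =>
      rw [ih]
      cases hs with
      | @not L₁ L₂ x b =>
        simp only [ev_append, ev_cons]
        rw [← mul_assoc (lt (g x) b), ← star_lt,
          Unitary.mul_star_self_of_mem (lt_mem_unitary (hg x) b), one_mul]
  rw [FreeGroup.toWord_mk]
  exact (key FreeGroup.reduce.red).symm

lemma ev_toWord_mul {g : α → Q} (hg : ∀ a, g a ∈ unitary Q) (w w' : FreeGroup α) :
    ev g (w * w').toWord = ev g w.toWord * ev g w'.toWord := by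
  conv_lhs => rw [← FreeGroup.mk_toWord (x := w), ← FreeGroup.mk_toWord (x := w'),
    FreeGroup.mul_mk]
  rw [ev_toWord_mk hg, ev_append]

end words

end Crest.Agent.R121
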