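import Crest.Agent.R121.Defs
import Crest.Agent.R124.VN
import Crest.Agent.R124.BaerL
import Crest.Agent.R124.Dich

/-! Row 121: comparison of projections; the properly infinite part. -/

set_option autoImplicit false

open scoped ComplexOrder InnerProductSpace ComplexConjugate

namespace Crest.Agent.R121

open Crest.Agent.R095 (Tr lt)
open Crest.Agent.R124

variable {A : Type*} [CStarAlgebra A] [PartialOrder A] [StarOrderedRing A]
variable {K : Type*} [NormedAddCommGroup K] [InnerProductSpace ℂ K] [CompleteSpace K]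
variable {ι : A →⋆ₐ[ℂ] (K →L[ℂ] K)}

/-- `IsVN.exists_maximal` for `S = {u | Piso u, u g = u, r u = u}`; then `Baer.exists_piso`. -/
theorem exists_compare (hι : IsVN ι) {g r : A} (hg : IsStarProjection g)
    (hr : IsStarProjection r) :
    ∃ u : A, Piso u ∧ u * g = u ∧ r * u = u ∧
      ∀ a, (r - u * star u) * a * (g - star u * u) = 0 := by
  obtain ⟨u, ⟨hu, hug, hru⟩, hmax⟩ := hι.exists_maximal {u | Piso u ∧ u * g = u ∧ r * u = u}
    ⟨by simp [Piso], by simp, by simp⟩ (fun u hu => hu.1)
    (fun U hU hl => ⟨hU, dich_slim_right hι hl fun u hu => hu.2.1,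
      dich_slim_left hι hl fun u hu => hu.2.2⟩)
  refine ⟨u, hu, hug, hru, fun a => ?_⟩
  by_contra hne
  obtain ⟨v, hv0, hv, h1, h2⟩ := hι.baer.exists_piso hne
  have hur : star u * r = star u := by simpa [hr.isSelfAdjoint.star_eq] using congrArg star hru
  have hgu : g * star u = star u := by simpa [hg.isSelfAdjoint.star_eq] using congrArg star hug
  have huu : star u * u * star u = star u := by simpa using hu.star.mul_star_mul
  have e1 : star u * v = 0 := h1 _ (by
    rw [← mul_assoc, ← mul_assoc, mul_sub (star u), hur, ← mul_assoc, huu, sub_self, zero_mul,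
      zero_mul])
  have e2 : v * star u = 0 := h2 _ (by rw [mul_assoc, sub_mul g, hgu, huu, sub_self, mul_zero])
  have e3 : u * star v = 0 := by simpa using congrArg star e2
  have e4 : r * v = v := by
    have := h1 (1 - r) (by
      rw [← mul_assoc, ← mul_assoc, sub_mul, one_mul, mul_sub r, hr.isIdempotentElem.eq,
        ← mul_assoc, hru, sub_self, zero_mul, zero_mul])
    rw [sub_mul, one_mul, sub_eq_zero] at this
    exact this.symm
  have e5 : v * g = v := by
    have := h2 (1 - g) (by
      rw [mul_assoc, mul_sub (g - star u * u), mul_one, sub_mul g, hg.isIdempotentElem.eq,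
        mul_assoc (star u), hug, sub_self, mul_zero])
    rw [mul_sub, mul_one, sub_eq_zero] at this
    exact this.symm
  exact hv0 (hmax v hv e1 e3
    ⟨dich_piso_add hu hv e1 e3, by rw [add_mul, hug, e5], by rw [mul_add, hru, e4]⟩)

/-- the pairs witnessing proper infiniteness -/
structure CompareW (a b : A) : Prop where
  piso : Piso a
  eq : star b * b = star a * a
  orth : star a * b = 0
  left : star a * a * a = a
  right : star a * a * b = b

omit [PartialOrder A] [StarOrderedRing A] in
lemma CompareW.piso' {a b : A} (h : CompareW a b) : Piso b :=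
  Piso.of_proj (h.eq ▸ h.piso.proj)

omit [PartialOrder A] [StarOrderedRing A] in
lemma compare_ub (hι : IsVN ι) {C : Type*} [Preorder C] [Nonempty C] [IsDirectedOrder C]
    (a b : C → A) (h : ∀ i, CompareW (a i) (b i)) (ha : ∀ i j, i ≤ j → VnLe (a i) (a j))
    (hb : ∀ i j, i ≤ j → VnLe (b i) (b j)) :
    ∃ U V : A, CompareW U V ∧ (∀ i, VnLe (a i) U) ∧ ∀ i, VnLe (b i) V := by
  obtain ⟨U, hU, h1, h2, -⟩ := hι.vn_exists_ub a (fun i => (h i).piso) ha
  obtain ⟨V, -, h3, h4, -⟩ := hι.vn_exists_ub b (fun i => (h i).piso') hb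
  have key : ∀ (x : C → A) (X : A), (∀ i, star (a i) * a i * x i = x i) →
      (∀ k, Filter.Tendsto (fun i => ι (x i) k) Filter.atTop (nhds (ι X k))) →
      star U * U * X = X := by
    intro x X hx hX
    apply hι.inj
    ext k
    rw [vn_mul_apply]
    refine tendsto_nhds_unique (((ι (star U * U)).continuous.tendsto _).comp (hX k))
      ((hX k).congr fun i => ?_)
    rw [Function.comp_apply, ← vn_mul_apply]
    conv_rhs => rw [← hx i, ← mul_assoc, (h1 i).proj_mul (h i).piso hU, hx i]
  refine ⟨U, V, ⟨hU, ?_, ?_, key a U (fun i => (h i).left) h2, key b V (fun i => (h i).right) h4⟩,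
    h1, h3⟩
  · apply hι.inj
    ext k
    refine ext_inner_left ℂ fun l => ?_
    have e1 := (h4 l).inner (𝕜 := ℂ) (h4 k)
    have e2 := (h2 l).inner (𝕜 := ℂ) (h2 k)
    simp only [dich_inner_mul, fun i => (h i).eq] at e1 e2
    exact tendsto_nhds_unique e1 e2
  · apply hι.inj
    ext k
    refine ext_inner_left ℂ fun l => ?_
    have e1 := (h2 l).inner (𝕜 := ℂ) (h4 k)
    simp only [dich_inner_mul, fun i => (h i).orth] at e1
    exact tendsto_nhds_unique e1 tendsto_const_nhds

omit [PartialOrder A] [StarOrderedRing A] in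
lemma compare_max (hι : IsVN ι) :
    ∃ P : A, IsStarProjection P ∧ PInf P ∧
      ∀ r, IsStarProjection r → PInf r → P * r = 0 → r = 0 := by
  let S : Type _ := {q : A × A // CompareW q.1 q.2}
  haveI : Nonempty S := ⟨⟨(0, 0), by simp [Piso], by simp, by simp, by simp, by simp⟩⟩
  obtain ⟨m, hm⟩ := exists_maximal_of_nonempty_chains_bounded
    (r := fun q q' : S => VnLe q.1.1 q'.1.1 ∧ VnLe q.1.2 q'.1.2) (fun c hc hne => by
      letI : Preorder c :=
        { le := fun q q' => VnLe q.1.1.1 q'.1.1.1 ∧ VnLe q.1.1.2 q'.1.1.2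
          le_refl := fun q => ⟨q.1.2.piso.mul_star_mul', q.1.2.piso'.mul_star_mul'⟩
          le_trans := fun q q' _ h h' => ⟨VnLe.trans q.1.2.piso q'.1.2.piso h.1 h'.1,
            VnLe.trans q.1.2.piso' q'.1.2.piso' h.2 h'.2⟩ }
      haveI : Nonempty c := hne.to_subtype
      haveI : IsDirectedOrder c := ⟨fun a b => by
        by_cases hab : a = b
        · exact ⟨b, hab ▸ le_refl _, le_refl _⟩
        · rcases hc a.2 b.2 (fun h => hab (Subtype.ext h)) with h | h
          · exact ⟨b, h, le_refl _⟩
          · exact ⟨a, le_refl _, h⟩⟩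
      obtain ⟨U, V, hUV, h1, h2⟩ := compare_ub hι (fun q : c => q.1.1.1) (fun q : c => q.1.1.2)
        (fun q => q.1.2) (fun _ _ h => And.left h) (fun _ _ h => And.right h)
      exact ⟨⟨(U, V), hUV⟩, fun q hq => ⟨h1 ⟨q, hq⟩, h2 ⟨q, hq⟩⟩⟩)
    (fun {q q' _} h h' => ⟨VnLe.trans q.2.piso q'.2.piso h.1 h'.1,
      VnLe.trans q.2.piso' q'.2.piso' h.2 h'.2⟩)
  obtain ⟨⟨a, b⟩, hab⟩ := m
  have hab' : CompareW a b := hab
  refine ⟨star a * a, hab'.piso.proj, ⟨a, b, rfl, hab'.eq, hab'.orth, hab'.left, hab'.right⟩, ?_⟩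
  rintro r hr ⟨a', b', e1, e2, e3, e4, e5⟩ hPr
  have hP := hab'.piso.proj
  have haP : a * (star a * a) = a := hab'.piso.mul_star_mul'
  have hbP : b * (star a * a) = b := by rw [← hab'.eq]; exact hab'.piso'.mul_star_mul'
  have hPa := hab'.left
  have hPb := hab'.right
  have hbb := hab'.eq
  generalize hPdef : star a * a = P at hP haP hbP hPa hPb hbb hPr
  have hrP : r * P = 0 := by
    simpa [hr.isSelfAdjoint.star_eq, hP.isSelfAdjoint.star_eq] using congrArg star hPr
  have ha' : Piso a' := Piso.of_proj (e1 ▸ hr)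
  have hb' : Piso b' := Piso.of_proj (e2 ▸ hr)
  have ha'r : a' * r = a' := by rw [← e1]; exact ha'.mul_star_mul'
  have hb'r : b' * r = b' := by rw [← e2]; exact hb'.mul_star_mul'
  have o1 : ∀ x y : A, P * x = x → r * y = y → star x * y = 0 := by
    intro x y hx hy
    rw [← hx, ← hy, star_mul, hP.isSelfAdjoint.star_eq, mul_assoc, ← mul_assoc P, hPr, zero_mul,
      mul_zero]
  have o2 : ∀ x y : A, P * x = x → r * y = y → star y * x = 0 := by
    intro x y hx hy
    simpa using congrArg star (o1 x y hx hy)
  have o3 : a * star a' = 0 := by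
    rw [← haP, ← ha'r, star_mul, hr.isSelfAdjoint.star_eq, mul_assoc, ← mul_assoc P, hPr, zero_mul,
      mul_zero]
  have o4 : ∀ x y : A, P * x = x → r * y = y → (P + r) * (x + y) = x + y := by
    intro x y hx hy
    have h1 : P * y = 0 := by rw [← hy, ← mul_assoc, hPr, zero_mul]
    have h2 : r * x = 0 := by rw [← hx, ← mul_assoc, hrP, zero_mul]
    rw [add_mul, mul_add, mul_add, hx, hy, h1, h2, add_zero, zero_add]
  have s1 : star (a + a') * (a + a') = P + r := by
    rw [star_add, add_mul, mul_add, mul_add, hPdef, e1, o1 a a' hPa e4, o2 a a' hPa e4, add_zero,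
      zero_add]
  have s2 : star (b + b') * (b + b') = P + r := by
    rw [star_add, add_mul, mul_add, mul_add, hbb, e2, o1 b b' hPb e5, o2 b b' hPb e5, add_zero,
      zero_add]
  have s3 : star (a + a') * (b + b') = 0 := by
    rw [star_add, add_mul, mul_add, mul_add, hab'.orth, e3, o1 a b' hPa e5, o2 b a' hPb e4]
    simp
  have hW : CompareW (a + a') (b + b') :=
    ⟨dich_piso_add hab'.piso ha' (o1 a a' hPa e4) o3, by rw [s1, s2], s3,
      by rw [s1]; exact o4 a a' hPa e4, by rw [s1]; exact o4 b b' hPb e5⟩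
  have l1 : VnLe a (a + a') := by
    unfold VnLe
    rw [hPdef, add_mul, haP, ← ha'r, mul_assoc, hrP, mul_zero, add_zero]
  have l2 : VnLe b (b + b') := by
    unfold VnLe
    rw [hbb, add_mul, hbP, ← hb'r, mul_assoc, hrP, mul_zero, add_zero]
  have l3 : a * (star (a + a') * (a + a')) = a + a' := (hm ⟨(a + a', b + b'), hW⟩ ⟨l1, l2⟩).1
  have har : a * r = 0 := by rw [← haP, mul_assoc, hPr, mul_zero]
  rw [s1, mul_add, haP, har, add_zero] at l3
  rw [← e1, left_eq_add.1 l3, mul_zero]

/-- Zorn's lemma on the pairs `(a, b)` witnessing `PInf (star a * a)`, ordered by `VnLe` in both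
coordinates (`IsVN.vn_exists_ub` for chains; the relations pass to strong limits: write them as
inner products or norms, e.g. `‖a k‖ = ‖b k‖`, `⟪a k, b k'⟫ = 0`, `‖a (a k)‖ = ‖a k‖`). If
`r ≠ 0` is properly infinite and orthogonal to `P = star a * a`, with witnesses `(a', b')`, then
`(a + a', b + b')` is larger. -/
theorem exists_max_pinf (hι : IsVN ι) :
    ∃ P : A, IsStarProjection P ∧ PInf P ∧
      ∀ r, IsStarProjection r → PInf r → P * r = 0 → r = 0 :=
  compare_max hι

/-- Take `P` from `exists_max_pinf` with witnesses `a`, `b`, and `u` from `exists_compare` with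
`g = 1 - P`, `r = P`. Let `d` be the central cover of `g₀ = 1 - P - u⋆ u`; `(P - u u⋆) d = 0`, so
`u⋆ u d` is equivalent to `P d`, hence properly infinite (witnesses `u⋆ a u d`, `u⋆ b u d`) and
orthogonal to `P`, hence `0`; so `P d = 0`. Put `p = 1 - d`: `p P = P`, `p (1 - P) = u⋆ u p`;
`v = a + b u p` satisfies `v⋆ v = p`, `P v = v`, and `a v`, `b v` witness `PInf p`. If `p r = 0`
then `P r = 0`. -/
theorem exists_central_pinf (hι : IsVN ι) :
    ∃ p : A, IsStarProjection p ∧ Cen p ∧ PInf p ∧
      ∀ r, IsStarProjection r → PInf r → p * r = 0 → r = 0 := by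
  obtain ⟨P, hP, ⟨a, b, haa, hbb, hab, hPa, hPb⟩, hmax⟩ := exists_max_pinf hι
  obtain ⟨u, hu, hug, hPu, hcmp⟩ := exists_compare hι hP.one_sub hP
  obtain ⟨d, hd, hdc, hdg, hdz⟩ := hι.baer.central_cover (1 - P - star u * u)
  have hPs : star P = P := hP.isSelfAdjoint
  have hds : star d = d := hd.isSelfAdjoint
  have hdd : d * d = d := hd.isIdempotentElem
  have h1 : u * star u * d = P * d := by
    have := hdz _ hcmp
    rw [sub_mul, sub_eq_zero] at this
    exact this.symm
  have huP : u * P = 0 := by
    rw [mul_sub, mul_one] at hug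
    exact sub_eq_self.1 hug
  have hPu' : P * star u = 0 := by simpa [hPs] using congrArg star huP
  have huu : star u * u * star u = star u := by simpa using hu.star.mul_star_mul
  have hba : star b * a = 0 := by simpa using congrArg star hab
  -- `u⋆ u d` is properly infinite
  have w1 : ∀ x y : A, P * y = y → star (star u * x * u * d) * (star u * y * u * d) =
      star u * (star x * y) * u * d := by
    intro x y hy
    calc star (star u * x * u * d) * (star u * y * u * d)
        = d * (star u * star x * (u * star u)) * (y * u * d) := by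
          simp only [star_mul, star_star, hds, mul_assoc]
      _ = star u * star x * (u * star u * d) * (y * u * d) := by
          rw [hdc]
          simp only [mul_assoc]
      _ = star u * star x * P * (d * (y * u)) * d := by
          rw [h1]
          simp only [mul_assoc]
      _ = star u * star x * (P * y) * u * (d * d) := by
          rw [hdc]
          simp only [mul_assoc]
      _ = star u * (star x * y) * u * d := by
          rw [hy, hdd]
          simp only [mul_assoc]
  have w2 : ∀ x : A, star u * u * d * (star u * x * u * d) = star u * x * u * d := by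
    intro x
    calc star u * u * d * (star u * x * u * d) = star u * u * (d * (star u * x * u)) * d := by
          simp only [mul_assoc]
      _ = star u * u * star u * x * u * (d * d) := by
          rw [hdc]
          simp only [mul_assoc]
      _ = star u * x * u * d := by rw [huu, hdd]
  have w3 : star u * P * u * d = star u * u * d := by rw [mul_assoc (star u), hPu]
  have he : star u * u * d = 0 := by
    refine hmax _ (hu.proj.mul hd (hdc _).symm)
      ⟨star u * a * u * d, star u * b * u * d, ?_, ?_, ?_, w2 a, w2 b⟩ ?_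
    · rw [w1 a a hPa, haa, w3]
    · rw [w1 b b hPb, hbb, w3]
    · rw [w1 a b hPb, hab]
      simp
    · rw [← mul_assoc, ← mul_assoc, hPu', zero_mul, zero_mul]
  have hud : u * d = 0 := by
    rw [← hu.mul_star_mul, mul_assoc u, mul_assoc u, he, mul_zero]
  have hPd : P * d = 0 := by rw [← h1, mul_assoc, ← hdc, ← mul_assoc, hud, zero_mul]
  have hp : IsStarProjection (1 - d) := hd.one_sub
  have hpc : Cen (1 - d) := fun x => by rw [sub_mul, mul_sub, one_mul, mul_one, hdc]
  have hPp : P * (1 - d) = P := by rw [mul_sub, mul_one, hPd, sub_zero]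
  have hpP : (1 - d) * P = P := by rw [hpc, hPp]
  have hsum : P + star u * u = 1 - d := by
    have h2 : d * (1 - P - star u * u) = d := by
      rw [mul_sub, mul_sub, mul_one, hdc P, hPd, hdc (star u * u), he, sub_zero, sub_zero]
    rw [← h2, hdg]
    abel
  have hv : star (a + b * u) * (a + b * u) = 1 - d := by
    rw [star_add, star_mul, add_mul, mul_add, mul_add, haa, ← mul_assoc, hab, zero_mul, add_zero,
      mul_assoc, hba, mul_zero, zero_add, mul_assoc, ← mul_assoc (star b), hbb, hPu, hsum]
  have hPv : P * (a + b * u) = a + b * u := by rw [mul_add, hPa, ← mul_assoc, hPb]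
  generalize a + b * u = v at hv hPv
  have w4 : ∀ x y : A, star (x * v) * (y * v) = star v * (star x * y * v) := by
    intro x y
    simp only [star_mul, mul_assoc]
  have w5 : ∀ x : A, P * x = x → (1 - d) * (x * v) = x * v := by
    intro x hx
    rw [← hx, ← mul_assoc, ← mul_assoc, hpP]
  refine ⟨1 - d, hp, hpc, ⟨a * v, b * v, ?_, ?_, ?_, w5 a hPa, w5 b hPb⟩, fun r hr hr' h => ?_⟩
  · rw [w4, haa, hPv, hv]
  · rw [w4, hbb, hPv, hv]
  · rw [w4, hab, zero_mul, mul_zero]
  · exact hmax r hr hr' (by rw [← hPp, mul_assoc, h, mul_zero])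

end Crest.Agent.R121
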