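import Crest.Agent.R121.Defs
import Crest.Agent.R124.TrIneq

/-! Row 121: balanced cochains are completely bounded. -/

set_option autoImplicit false

open scoped ComplexOrder InnerProductSpace ComplexConjugate

namespace Crest.Agent.R121

open Crest.Agent.R095 (Tr lt)
open Crest.Agent.R124

variable {A : Type*} [CStarAlgebra A] [PartialOrder A] [StarOrderedRing A]
variable {K : Type*} [NormedAddCommGroup K] [InnerProductSpace ℂ K] [CompleteSpace K]
variable {ι : A →⋆ₐ[ℂ] (K →L[ℂ] K)}

section aux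

omit [PartialOrder A] [StarOrderedRing A]

/-- `a` can be moved across every comma -/
def BalCBMov (G : List A → A) (N : ℕ) (a : A) : Prop :=
  ∀ (l r : List A) (x y : A), l.length + r.length + 2 = N →
    G (l ++ x * a :: y :: r) = G (l ++ x :: a * y :: r)

lemma BalCBMov.mul {G : List A → A} {N : ℕ} {a b : A} (ha : BalCBMov G N a) (hb : BalCBMov G N b) :
    BalCBMov G N (a * b) := by
  intro l r x y h
  rw [← mul_assoc, hb l r _ _ h, ha l r _ _ h, mul_assoc]

lemma balcb_move {G : List A → A} {N : ℕ} {a : A} (ha : BalCBMov G N a) {φ : A → A}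
    (hφ : ∀ b, a * φ b = b * a) (y : A) (r : List A) (l : List A) :
    ∀ (pre : List A) (x : A), pre.length + l.length + r.length + 2 = N →
      G (pre ++ x * a :: (l.map φ ++ y :: r)) = G (pre ++ x :: (l ++ a * y :: r)) := by
  induction l with
  | nil =>
    intro pre x h
    exact ha pre r x y (by simpa using h)
  | cons b l ih =>
    intro pre x h
    have h1 := ha pre (l.map φ ++ y :: r) x (φ b) (by simp at h ⊢; omega)
    have h2 := ih (pre ++ [x]) b (by simp at h ⊢; omega)
    simp only [List.map_cons, List.cons_append, List.append_assoc, List.nil_append] at h2 ⊢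
    rw [h1, hφ, h2]

lemma balcb_left {G : List A → A} {N : ℕ} (hL : LM G N) {a : A} (ha : BalCBMov G N a) {φ : A → A}
    (hφ : ∀ b, a * φ b = b * a) (y : A) (r : List A) (l : List A)
    (h : l.length + r.length + 1 = N) : a * G (l.map φ ++ y :: r) = G (l ++ a * y :: r) := by
  rcases l with _ | ⟨b, l⟩
  · exact (hL a y r (by simpa using h)).symm
  · have h1 := balcb_move ha hφ y r l [] b (by simp at h ⊢; omega)
    rw [List.map_cons, List.cons_append, ← hL _ _ _ (by simp at h ⊢; omega), hφ]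
    exact h1

lemma balcb_right {G : List A → A} {N : ℕ} (hR : RM G N) {a : A} (ha : BalCBMov G N a) (y : A)
    (l : List A) (h : l.length + 2 = N) : G (l ++ [y, 1]) * a = G (l ++ [y * a, 1]) := by
  have h1 := hR (l ++ [y]) 1 a (by simpa using h)
  have h2 := ha l [] y 1 (by simpa using h)
  simp only [List.append_assoc, List.cons_append, List.nil_append] at h1
  rw [← h1, h2, one_mul, mul_one]

lemma balcb_mul_proj {p s : A} (hp : IsStarProjection p) (h : star s * s = p) : s * p = s := by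
  rw [← sub_eq_zero, ← CStarRing.star_mul_self_eq_zero_iff]
  have h1 : p * p = p := hp.isIdempotentElem
  have e : star (s * p - s) * (s * p - s) =
      p * (star s * s) * p - p * (star s * s) - star s * s * p + star s * s := by
    rw [star_sub, star_mul, hp.isSelfAdjoint.star_eq]
    noncomm_ring
  rw [e, h, h1, h1]
  abel

/-- a sequence of isometries with orthogonal ranges -/
def balcbV (s t : A) : ℕ → A
  | 0 => s
  | n + 1 => t * balcbV s t n

lemma balcb_mul_p {p s t : A} (hp : Cuntz p s t) (n : ℕ) : balcbV s t n * p = balcbV s t n := by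
  induction n with
  | zero => exact balcb_mul_proj hp.proj hp.ss
  | succ n ih => rw [balcbV, mul_assoc, ih]

lemma balcb_orth {p s t : A} (hp : Cuntz p s t) (m : ℕ) :
    ∀ n, star (balcbV s t m) * balcbV s t n = if m = n then p else 0 := by
  have hts : star t * s = 0 := by simpa using congrArg star hp.st
  induction m with
  | zero =>
    rintro (_ | n)
    · simpa [balcbV] using hp.ss
    · simp [balcbV, ← mul_assoc, hp.st]
  | succ m ih =>
    rintro (_ | n)
    · simp [balcbV, mul_assoc, hts]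
    · simp only [balcbV, star_mul, Nat.add_right_cancel_iff]
      rw [mul_assoc, ← mul_assoc (star t), hp.tt, hp.cen, balcb_mul_p hp, ih]

lemma balcb_norm_le {I : Type} [Fintype I] [DecidableEq I] {p : A} {u : I → A}
    (hu : ∀ i, u i * p = u i) (h : ∀ i k, star (u i) * u k = if i = k then p else 0) :
    ‖∑ i, u i * star (u i)‖ ≤ 1 := by
  refine IsStarProjection.norm_le _ ⟨?_, ?_⟩
  · change _ * _ = _
    rw [Finset.sum_mul]
    refine Finset.sum_congr rfl fun i _ => ?_
    rw [Finset.mul_sum]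
    have e : ∀ k, u i * star (u i) * (u k * star (u k)) =
        if i = k then u i * star (u i) else 0 := by
      intro k
      rw [mul_assoc, ← mul_assoc (star (u i)), h]
      split_ifs with hik
      · rw [← mul_assoc, hu, hik]
      · simp
    simp [e]
  · simp [IsSelfAdjoint, star_sum]

lemma balcb_sum_sq_le (ι : A →⋆ₐ[ℂ] (K →L[ℂ] K)) {I : Type} [Fintype I] {u : I → A}
    (h : ‖∑ i, u i * star (u i)‖ ≤ 1) (ζ : K) : ∑ i, ‖ι (star (u i)) ζ‖ ^ 2 ≤ ‖ζ‖ ^ 2 := by
  have e : ∀ i, ‖ι (star (u i)) ζ‖ ^ 2 = (⟪ζ, ι (u i * star (u i)) ζ⟫_ℂ).re := by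
    intro i
    rw [map_mul, ContinuousLinearMap.mul_apply, ← ContinuousLinearMap.adjoint_inner_left,
      ← ContinuousLinearMap.star_eq_adjoint, ← map_star]
    exact (inner_self_eq_norm_sq (𝕜 := ℂ) _).symm
  simp only [e]
  rw [← Complex.re_sum, ← inner_sum, ← ContinuousLinearMap.sum_apply, ← map_sum]
  refine (Complex.re_le_norm _).trans ((norm_inner_le_norm _ _).trans ?_)
  rw [sq]
  gcongr
  refine (ContinuousLinearMap.le_opNorm _ _).trans (mul_le_of_le_one_left (norm_nonneg _) ?_)
  exact (NonUnitalStarAlgHom.norm_apply_le ι _).trans h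

lemma balcb_sq_sum_le (ι : A →⋆ₐ[ℂ] (K →L[ℂ] K)) {J : Type} [Fintype J] {w : J → A}
    (h : ‖∑ j, w j * star (w j)‖ ≤ 1) (ξ : J → K) :
    ‖∑ j, ι (w j) (ξ j)‖ ^ 2 ≤ ∑ j, ‖ξ j‖ ^ 2 := by
  set ζ := ∑ j, ι (w j) (ξ j) with hζ
  have h1 : ‖ζ‖ ^ 2 ≤ ∑ j, ‖ι (star (w j)) ζ‖ * ‖ξ j‖ := by
    rw [← inner_self_eq_norm_sq (𝕜 := ℂ)]
    nth_rewrite 2 [hζ]
    rw [inner_sum]
    refine (Complex.re_le_norm _).trans ((norm_sum_le _ _).trans ?_)
    refine Finset.sum_le_sum fun j _ => ?_
    rw [← ContinuousLinearMap.adjoint_inner_left, ← ContinuousLinearMap.star_eq_adjoint, ← map_star]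
    exact norm_inner_le_norm _ _
  have h2 := Finset.sum_mul_sq_le_sq_mul_sq Finset.univ (fun j => ‖ι (star (w j)) ζ‖) fun j => ‖ξ j‖
  have h3 := balcb_sum_sq_le ι h ζ
  have h4 : 0 ≤ ∑ j, ‖ξ j‖ ^ 2 := Finset.sum_nonneg fun _ _ => sq_nonneg _
  rcases (sq_nonneg ‖ζ‖).eq_or_lt with h0 | h0
  · rwa [← h0]
  · refine le_of_mul_le_mul_left ?_ h0
    rw [← sq]
    exact (pow_le_pow_left₀ h0.le h1 2).trans (h2.trans (mul_le_mul_of_nonneg_right h3 h4))

lemma balcb_nprod_nonneg (l : List A) : 0 ≤ nprod l :=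
  List.prod_nonneg fun x hx => by
    obtain ⟨y, -, rfl⟩ := List.mem_map.1 hx
    exact norm_nonneg y

lemma balcb_nprod_le {φ : A → A} (hφ : ∀ a, ‖φ a‖ ≤ ‖a‖) {y : A} (hy : ‖y‖ ≤ 1) (l : List A) :
    nprod (l.map φ ++ [y, 1]) ≤ nprod l := by
  induction l with
  | nil =>
    simp only [nprod, List.map_nil, List.nil_append, List.map_cons, List.prod_cons, List.prod_nil,
      mul_one]
    exact mul_le_one₀ hy (norm_nonneg _) (IsStarProjection.one A).norm_le
  | cons a l ih =>
    exact mul_le_mul (hφ a) ih (balcb_nprod_nonneg _) (norm_nonneg _)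

end aux

/-- The set of elements that can be moved across commas is closed under products, so it contains
`v n = t ^ n * s`, `star (v n)` and `p = star s * s`; `star (v m) * v n = δ p`, `p * v n = v n`.
Given `x : I → J → A` choose injections of `I` and `J` into `ℕ` (write `v i`, `v j`), put
`y = ∑ i j, v i * x i j * star (v j)` (`‖y‖ ≤ 1` by `MatLe.norm_sum_le`, as `∑ v i * star (v i)` is
a projection), `ã = ∑ i, v i * a * star (v i)` (`‖ã‖ ≤ ‖a‖` by `norm_sum_star_mul_mul_le`) and
`Z = G (l.map (ã) ++ [y, 1])`. As `star (v i) * ã = a * star (v i)` (`p` is central), moving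
`star (v i)` from the left (`LM`, `Bal`) and `v j` from the right (`RM`, `Bal`) gives
`star (v i) * Z * v j = G (l ++ [x i j * p, 1]) = G (l ++ [x i j, 1]) * p`. Finally
`∑ i, ‖ι (star (v i)) ζ‖² ≤ ‖ζ‖²` and `‖∑ j, ι (v j) (ξ j)‖² ≤ ∑ j, ‖ξ j‖²`. -/
theorem isCB_of_bal {p s t : A} (hp : Cuntz p s t) {G : List A → A} {N : ℕ} {C : ℝ}
    (hG : Coch G N C) (hB : Bal G N {s, t, star s, star t}) (l : List A) (hl : l.length + 2 = N) :
    IsCB ι (fun y => p * G (l ++ [y, 1])) (C * nprod l) := by
  classical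
  have hC : 0 ≤ C * nprod l := mul_nonneg hG.ml.nonneg (balcb_nprod_nonneg l)
  have hlin := hG.ml.lin l [1] (by simpa using hl)
  refine ⟨⟨fun x y => by rw [hlin.map_add, mul_add],
    fun c x => by rw [hlin.map_smul, mul_smul_comm]⟩, hC, fun I J _ _ x hx ξ => ?_⟩
  have hs : BalCBMov G N s := hB s (by simp)
  have ht : BalCBMov G N t := hB t (by simp)
  have hs' : BalCBMov G N (star s) := hB _ (by simp)
  have ht' : BalCBMov G N (star t) := hB _ (by simp)
  have hpm : BalCBMov G N p := hp.ss ▸ hs'.mul hs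
  have hv : ∀ n, BalCBMov G N (balcbV s t n) := by
    intro n
    induction n with
    | zero => exact hs
    | succ n ih => exact ht.mul ih
  have hv' : ∀ n, BalCBMov G N (star (balcbV s t n)) := by
    intro n
    induction n with
    | zero => exact hs'
    | succ n ih => rw [balcbV, star_mul]; exact ih.mul ht'
  have hfam : ∀ (I : Type) [Fintype I], ∃ u : I → A, (∀ i, u i * p = u i) ∧
      (∀ i k, star (u i) * u k = if i = k then p else 0) ∧ (∀ i, BalCBMov G N (u i)) ∧
      ∀ i, BalCBMov G N (star (u i)) := by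
    intro I _
    obtain ⟨e, he⟩ := exists_injective_nat I
    exact ⟨fun i => balcbV s t (e i), fun i => balcb_mul_p hp _,
      fun i k => by rw [balcb_orth hp, if_congr he.eq_iff rfl rfl], fun i => hv _, fun i => hv' _⟩
  obtain ⟨u, hu1, hu2, -, hu3⟩ := hfam I
  obtain ⟨w, hw1, hw2, hw3, -⟩ := hfam J
  have hun := balcb_norm_le hu1 hu2
  have hwn := balcb_norm_le hw1 hw2
  have hun' := Real.sqrt_le_one.2 hun
  have hwn' := Real.sqrt_le_one.2 hwn
  set y := ∑ i, ∑ j, u i * x i j * star (w j) with hy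
  have hy1 : ‖y‖ ≤ 1 := by
    have := hx.norm_sum_le (fun i => star (u i)) fun j => star (w j)
    simp only [star_star] at this
    exact this.trans (mul_le_one₀ hun' (Real.sqrt_nonneg _) hwn')
  set φ : A → A := fun a => ∑ i, u i * a * star (u i) with hφ
  have hφ1 : ∀ a, ‖φ a‖ ≤ ‖a‖ := by
    intro a
    have := norm_sum_star_mul_mul_le Finset.univ (fun i => star (u i)) (fun _ => a)
      (fun i => star (u i)) ‖a‖ (norm_nonneg _) fun _ _ => le_rfl
    simp only [star_star] at this
    refine this.trans ?_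
    rw [mul_assoc]
    exact mul_le_of_le_one_right (norm_nonneg _) (mul_le_one₀ hun' (Real.sqrt_nonneg _) hun')
  have hφ2 : ∀ i b, star (u i) * φ b = b * star (u i) := by
    intro i b
    have h1 : p * star (u i) = star (u i) := by
      simpa [hp.proj.isSelfAdjoint.star_eq] using congrArg star (hu1 i)
    simp only [hφ, Finset.mul_sum, ← mul_assoc, hu2, ite_mul, zero_mul, Finset.sum_ite_eq,
      Finset.mem_univ, if_true]
    rw [hp.cen, mul_assoc, h1]
  have hy2 : ∀ i j, star (u i) * y * w j = x i j * p := by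
    intro i j
    simp only [hy, Finset.mul_sum, ← mul_assoc, hu2, ite_mul, zero_mul, Finset.sum_ite_irrel,
      Finset.sum_const_zero, Finset.sum_ite_eq, Finset.mem_univ, if_true]
    simp only [Finset.sum_mul, mul_assoc, hw2, mul_ite, mul_zero, Finset.sum_ite_eq',
      Finset.mem_univ, if_true]
    rw [hp.cen, mul_assoc, hp.proj.isIdempotentElem]
  set Z := G (l.map φ ++ [y, 1]) with hZ
  have hZ1 : ‖Z‖ ≤ C * nprod l :=
    (hG.ml.bound _ (by simpa using hl)).trans
      (mul_le_mul_of_nonneg_left (balcb_nprod_le hφ1 hy1 l) hG.ml.nonneg)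
  have hZ2 : ∀ i j, p * G (l ++ [x i j, 1]) = star (u i) * Z * w j := by
    intro i j
    rw [hZ, balcb_left hG.lm (hu3 i) (hφ2 i) y [1] l (by simpa using hl),
      balcb_right hG.rm (hw3 j) _ l hl, hy2, ← balcb_right hG.rm hpm _ l hl, hp.cen]
  have e : ∀ i, ∑ j, ι (p * G (l ++ [x i j, 1])) (ξ j) =
      ι (star (u i)) (ι Z (∑ j, ι (w j) (ξ j))) := by
    intro i
    simp only [hZ2, map_mul, ContinuousLinearMap.mul_apply, map_sum]
  simp only [e]
  refine (balcb_sum_sq_le ι hun _).trans ?_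
  refine (pow_le_pow_left₀ (norm_nonneg _) (ContinuousLinearMap.le_opNorm _ _) 2).trans ?_
  rw [mul_pow]
  exact mul_le_mul (pow_le_pow_left₀ (norm_nonneg _)
    ((NonUnitalStarAlgHom.norm_apply_le ι _).trans hZ1) 2) (balcb_sq_sum_le ι hwn ξ)
    (sq_nonneg _) (sq_nonneg _)

end Crest.Agent.R121
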