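import Crest.Agent.R121.Basic

/-! Row 121: combinatorics of pairs of reduced words. -/

set_option autoImplicit false

open scoped ComplexOrder InnerProductSpace ComplexConjugate

namespace Crest.Agent.R121

open Crest.Agent.R095 (Tr lt)
open Crest.Agent.R124

variable {α : Type} [LinearOrder α]

theorem comb_expo_cons (a : α) (x : α × Bool) (l : List (α × Bool)) :
    expo a (x :: l) = (if x.1 = a then (if x.2 then (1 : ℤ) else -1) else 0) + expo a l := by
  simp [expo]

theorem comb_expo_append (a : α) (l l' : List (α × Bool)) :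
    expo a (l ++ l') = expo a l + expo a l' := by
  simp [expo]

theorem comb_expo_zero {a : α} {l : List (α × Bool)} (h : a ∉ lets l) : expo a l = 0 := by
  induction l with
  | nil => rfl
  | cons x t ih =>
    rw [lets_cons, List.mem_cons, not_or] at h
    rw [comb_expo_cons, if_neg (Ne.symm h.1), ih h.2, add_zero]

theorem expo_parity (a : α) (l : List (α × Bool)) :
    Even (expo a l) ↔ Even ((lets l).count a) := by
  induction l with
  | nil => simp [expo]
  | cons x t ih =>
    rw [comb_expo_cons, lets_cons]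
    by_cases h : x.1 = a
    · rw [if_pos h, h, List.count_cons_self, Nat.even_add_one, ← ih]
      split_ifs <;> simp [Int.even_add]
    · rw [if_neg h, zero_add, List.count_cons_of_ne h, ih]

omit [LinearOrder α] in
theorem comb_dup {l : List (α × Bool)} (h : ¬ (lets l).Nodup) :
    ∃ (l₁ m l₂ : List (α × Bool)) (x y : α × Bool), l = l₁ ++ x :: m ++ y :: l₂ ∧ x.1 = y.1 ∧
      (lets m).Nodup := by
  induction l with
  | nil => exact absurd List.nodup_nil h
  | cons x t ih =>
    by_cases ht : (lets t).Nodup
    · rw [lets_cons, List.nodup_cons, not_and'] at h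
      have h1 := not_not.1 (h ht)
      obtain ⟨y, hy, hxy⟩ := List.mem_map.1 h1
      obtain ⟨m, l₂, rfl⟩ := List.append_of_mem hy
      rw [lets_append] at ht
      exact ⟨[], m, l₂, x, y, rfl, hxy.symm, ht.of_append_left⟩
    · obtain ⟨l₁, m, l₂, y, z, rfl, h1, h2⟩ := ih ht
      exact ⟨x :: l₁, m, l₂, y, z, rfl, h1, h2⟩

theorem comb_lform {l l' : List (α × Bool)} (hl : FreeGroup.IsReduced l)
    (hc : ∀ a, (lets l).count a + (lets l').count a ≤ 2)
    (h4 : ∀ a, (4 : ℤ) ∣ expo a l' - expo a l) (h : ¬ (lets l).Nodup) : LForm l l' := by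
  obtain ⟨l₁, m, l₂, ⟨a, e⟩, ⟨b, e'⟩, rfl, h1, h2⟩ := comb_dup h
  simp only at h1
  subst h1
  have h3 := hc a
  simp only [lets_append, lets_cons, List.count_append, List.count_cons_self] at h3
  have n1 : a ∉ lets l₁ := List.count_eq_zero.1 (by omega)
  have n2 : a ∉ lets m := List.count_eq_zero.1 (by omega)
  have n3 : a ∉ lets l₂ := List.count_eq_zero.1 (by omega)
  have n4 : a ∉ lets l' := List.count_eq_zero.1 (by omega)
  have h5 := h4 a
  simp only [comb_expo_append, comb_expo_cons, comb_expo_zero n1, comb_expo_zero n2,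
    comb_expo_zero n3, comb_expo_zero n4, if_true] at h5
  have h6 : e' = !e := by
    cases e <;> cases e' <;> simp at h5 ⊢ <;> omega
  subst h6
  refine ⟨l₁, m, l₂, a, e, rfl, ?_, h2, ?_⟩
  · rintro rfl
    have h7 : FreeGroup.IsReduced [(a, e), (a, !e)] := hl.infix ⟨l₁, l₂, by simp⟩
    simp [FreeGroup.IsReduced] at h7
  · simp only [lets_append, List.mem_append]
    tauto

theorem comb_expo_nodup {l : List (α × Bool)} (h : (lets l).Nodup) {x : α × Bool} (hx : x ∈ l) :
    expo x.1 l = if x.2 then 1 else -1 := by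
  obtain ⟨s, t, rfl⟩ := List.append_of_mem hx
  have h3 := List.nodup_iff_count_le_one.1 h x.1
  simp only [lets_append, lets_cons, List.count_append, List.count_cons_self] at h3
  have n1 : x.1 ∉ lets s := List.count_eq_zero.1 (by omega)
  have n2 : x.1 ∉ lets t := List.count_eq_zero.1 (by omega)
  simp only [comb_expo_append, comb_expo_cons, comb_expo_zero n1, comb_expo_zero n2, if_true,
    zero_add, add_zero]

theorem comb_subset {l l' : List (α × Bool)} (h : (lets l).Nodup) (h' : (lets l').Nodup)
    (h4 : ∀ a, (4 : ℤ) ∣ expo a l' - expo a l) {x : α × Bool} (hx : x ∈ l) : x ∈ l' := by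
  have h5 := h4 x.1
  rw [comb_expo_nodup h hx] at h5
  by_cases hm : x.1 ∈ lets l'
  · obtain ⟨y, hy, hxy⟩ := List.mem_map.1 hm
    rw [← hxy, comb_expo_nodup h' hy] at h5
    have : y = x := by
      refine Prod.ext hxy ?_
      revert h5
      cases x.2 <;> cases y.2 <;> simp <;> omega
    exact this ▸ hy
  · rw [comb_expo_zero hm] at h5
    split_ifs at h5 <;> omega

theorem comb_pair_decomp {β : Type} {l : List β} {x y : β} (h : [x, y].Sublist l) :
    ∃ l₁ m l₂, l = l₁ ++ x :: m ++ y :: l₂ := by
  obtain ⟨r₁, r₂, rfl, h1, h2⟩ := List.cons_sublist_iff.1 h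
  obtain ⟨s, t, rfl⟩ := List.append_of_mem h1
  obtain ⟨s', t', rfl⟩ := List.append_of_mem (List.singleton_sublist.1 h2)
  exact ⟨s, t ++ s', t', by simp⟩

theorem comb_pair_total {β : Type} {l : List β} {x y : β} (hx : x ∈ l) (hy : y ∈ l) (hne : x ≠ y) :
    [x, y].Sublist l ∨ [y, x].Sublist l := by
  obtain ⟨s, t, rfl⟩ := List.append_of_mem hx
  rcases List.mem_append.1 hy with h | h
  · right
    exact (List.singleton_sublist.2 h).append (List.singleton_sublist.2 List.mem_cons_self)
  · left
    rcases List.mem_cons.1 h with h | h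
    · exact absurd h.symm hne
    · exact ((List.singleton_sublist.2 h).cons_cons x).trans (List.sublist_append_right _ _)

theorem comb_pair_trans {β : Type} {l : List β} (hl : l.Nodup) {x y z : β} (h : [x, y].Sublist l)
    (h' : [y, z].Sublist l) : [x, z].Sublist l := by
  induction l with
  | nil => simp at h
  | cons a t ih =>
    rw [List.nodup_cons] at hl
    have hy : y ∈ t := by
      rcases List.sublist_cons_iff.1 h with h | ⟨r, h1, h2⟩
      · exact h.subset (by simp)
      · obtain ⟨-, rfl⟩ := List.cons.inj h1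
        exact List.singleton_sublist.1 h2
    have h'' : [y, z].Sublist t := by
      rcases List.sublist_cons_iff.1 h' with h' | ⟨r, h1, h2⟩
      · exact h'
      · obtain ⟨rfl, -⟩ := List.cons.inj h1
        exact absurd hy hl.1
    rcases List.sublist_cons_iff.1 h with h | ⟨r, h1, h2⟩
    · exact (ih hl.2 h h'').cons a
    · obtain ⟨rfl, -⟩ := List.cons.inj h1
      exact (List.singleton_sublist.2 (h''.subset (by simp))).cons_cons x

theorem comb_pair_ne {β : Type} {l : List β} (hl : l.Nodup) {x y : β} (h : [x, y].Sublist l) :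
    x ≠ y := by
  simpa using hl.sublist h

theorem comb_nodup_parts {l₁ m l₂ : List (α × Bool)} {x v : α × Bool}
    (h : (lets (l₁ ++ x :: m ++ v :: l₂)).Nodup) :
    (lets m).Nodup ∧ x.1 ∉ lets (l₁ ++ m ++ l₂) ∧ v.1 ∉ lets (l₁ ++ m ++ l₂) := by
  have h1 := List.nodup_iff_count_le_one.1 h x.1
  have h2 := List.nodup_iff_count_le_one.1 h v.1
  refine ⟨h.sublist ?_, List.count_eq_zero.1 ?_, List.count_eq_zero.1 ?_⟩
  · simp only [lets_append, lets_cons]
    exact ((List.sublist_cons_self _ _).trans (List.sublist_append_right _ _)).trans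
      (List.sublist_append_left _ _)
  · simp only [lets_append, lets_cons, List.count_append, List.count_cons, beq_self_eq_true,
      if_true] at h1 ⊢
    omega
  · simp only [lets_append, lets_cons, List.count_append, List.count_cons, beq_self_eq_true,
      if_true] at h2 ⊢
    omega

theorem comb_between {β : Type} {l₁ m l₂ : List β} {x v y : β} (hy : y ∈ m) :
    [x, y].Sublist (l₁ ++ x :: m ++ v :: l₂) ∧ [y, v].Sublist (l₁ ++ x :: m ++ v :: l₂) := by
  constructor
  · exact (((List.singleton_sublist.2 hy).cons_cons x).trans (List.sublist_append_right _ _)).trans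
      (List.sublist_append_left _ _)
  · exact (List.singleton_sublist.2 (List.mem_append_right _ (List.mem_cons_of_mem _ hy))).append
      (List.singleton_sublist.2 List.mem_cons_self)

/-- Assume that all exponent differences are divisible by `4`. A letter with total count `1`, or
with count `2` in one word with equal signs, or once in each word with opposite signs, violates
this. If a letter occurs twice in `l`, take two equal letters at minimal distance: the signs are
opposite, the word between them is nonempty (`IsReduced`) and has distinct letters: `LForm l l'`;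
likewise for `l'`. Otherwise both words have distinct letters and `l'` is a permutation of `l`.
As `l ≠ l'` some pair of entries is inverted (a sublist `[x, v]` of `l` with `[v, x]` a sublist of
`l'`); among all entries involved in an inversion let `x` have the largest letter, `v` a partner.
Every entry between `x` and `v` in `l` is inverted with `x` or with `v`. -/
theorem comb {l l' : List (α × Bool)} (hl : FreeGroup.IsReduced l) (hl' : FreeGroup.IsReduced l')
    (hne : l ≠ l') (hc : ∀ a, (lets l).count a + (lets l').count a ≤ 2) :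
    (∃ a, ¬(4 : ℤ) ∣ expo a l' - expo a l) ∨ LForm l l' ∨ LForm l' l ∨ XForm l l' := by
  by_cases h4 : ∀ a, (4 : ℤ) ∣ expo a l' - expo a l
  swap
  · left
    exact not_forall.1 h4
  right
  have h4' : ∀ a, (4 : ℤ) ∣ expo a l - expo a l' := fun a => dvd_sub_comm.1 (h4 a)
  by_cases hn : (lets l).Nodup
  swap
  · exact Or.inl (comb_lform hl hc h4 hn)
  right
  by_cases hn' : (lets l').Nodup
  swap
  · exact Or.inl (comb_lform hl' (fun a => by rw [add_comm]; exact hc a) h4' hn')
  right
  have nd : l.Nodup := List.Nodup.of_map _ hn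
  have nd' : l'.Nodup := List.Nodup.of_map _ hn'
  have s1 : ∀ {x}, x ∈ l → x ∈ l' := fun hx => comb_subset hn hn' h4 hx
  have s2 : ∀ {x}, x ∈ l' → x ∈ l := fun hx => comb_subset hn' hn h4' hx
  have hperm : l.Perm l' := (List.perm_ext_iff_of_nodup nd nd').2 fun x => ⟨s1, s2⟩
  set Inv : α × Bool → α × Bool → Prop := fun x y => [x, y].Sublist l ∧ [y, x].Sublist l' with hInv
  have hex : ∃ x y, Inv x y := by
    by_contra hno
    apply hne
    refine List.Perm.eq_of_pairwise (le := fun x y => [x, y].Sublist l) ?_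
      (List.pairwise_iff_forall_sublist.2 fun h => h)
      (List.pairwise_iff_forall_sublist.2 fun {a b} h => ?_) hperm
    · intro a b _ _ h1 h2
      exact absurd rfl (comb_pair_ne nd (comb_pair_trans nd h1 h2))
    · rcases comb_pair_total (s2 (h.subset (by simp))) (s2 (h.subset (by simp)))
        (comb_pair_ne nd' h) with h1 | h1
      · exact h1
      · exact absurd ⟨b, a, h1, h⟩ hno
  obtain ⟨x, ⟨v, hxv⟩, hmax⟩ := Set.exists_max_image {x | ∃ y, Inv x y ∨ Inv y x} Prod.fst
    ((List.finite_toSet l).subset (by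
      rintro x ⟨y, h | h⟩
      · exact h.1.subset (by simp)
      · exact h.1.subset (by simp)))
    (by obtain ⟨x, y, h⟩ := hex; exact ⟨x, y, Or.inl h⟩)
  have hxl : x ∈ l := by
    rcases hxv with h | h <;> exact h.1.subset (by simp)
  have hlt : ∀ y, (∃ z, Inv y z ∨ Inv z y) → y ≠ x → y.1 < x.1 := by
    intro y hy hyx
    refine lt_of_le_of_ne (hmax y hy) fun h => hyx ?_
    have hyl : y ∈ l := by
      obtain ⟨z, h | h⟩ := hy <;> exact h.1.subset (by simp)
    exact List.inj_on_of_nodup_map hn hyl hxl h
  have hbet : ∀ a b y, Inv a b → [a, y].Sublist l → [y, b].Sublist l → ∃ z, Inv y z ∨ Inv z y := by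
    intro a b y hab h1 h2
    rcases comb_pair_total (s1 (h1.subset (by simp))) (s1 (h1.subset (by simp)))
      (comb_pair_ne nd h1) with h3 | h3
    · exact ⟨b, Or.inl ⟨h2, comb_pair_trans nd' hab.2 h3⟩⟩
    · exact ⟨a, Or.inr ⟨h1, h3⟩⟩
  rcases hxv with h | h
  · obtain ⟨l₁, m, l₂, e⟩ := comb_pair_decomp h.1
    obtain ⟨l₁', m', l₂', e'⟩ := comb_pair_decomp h.2
    obtain ⟨a1, a2, a3⟩ := comb_nodup_parts (e ▸ hn)
    obtain ⟨-, b2, b3⟩ := comb_nodup_parts (e' ▸ hn')
    refine ⟨l₁, m, l₂, l₁', m', l₂', x, v, hlt v ⟨x, Or.inr h⟩ (comb_pair_ne nd h.1).symm,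
      fun y hy => ?_, a1, ?_, ?_, Or.inl ⟨e, e'⟩⟩
    · obtain ⟨c1, c2⟩ := comb_between (l₁ := l₁) (l₂ := l₂) (x := x) (v := v) hy
      rw [← e] at c1 c2
      exact hlt y (hbet x v y h c1 c2) (comb_pair_ne nd c1).symm
    · simp only [lets_append, List.mem_append] at a2 b3 ⊢
      tauto
    · simp only [lets_append, List.mem_append] at a3 b2 ⊢
      tauto
  · obtain ⟨l₁, m, l₂, e⟩ := comb_pair_decomp h.1
    obtain ⟨l₁', m', l₂', e'⟩ := comb_pair_decomp h.2
    obtain ⟨a1, a2, a3⟩ := comb_nodup_parts (e ▸ hn)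
    obtain ⟨-, b2, b3⟩ := comb_nodup_parts (e' ▸ hn')
    refine ⟨l₁, m, l₂, l₁', m', l₂', x, v, hlt v ⟨x, Or.inl h⟩ (comb_pair_ne nd h.1),
      fun y hy => ?_, a1, ?_, ?_, Or.inr ⟨e, e'⟩⟩
    · obtain ⟨c1, c2⟩ := comb_between (l₁ := l₁) (l₂ := l₂) (x := v) (v := x) hy
      rw [← e] at c1 c2
      exact hlt y (hbet v x y h c1 c2) (comb_pair_ne nd c2)
    · simp only [lets_append, List.mem_append] at a3 b2 ⊢
      tauto
    · simp only [lets_append, List.mem_append] at a2 b3 ⊢
      tauto

end Crest.Agent.R121
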