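import Crest.Agent.R121.Defs
import Crest.Prelude.Def_Hochschild

/-! Row 121: from continuous multilinear maps to cochains on lists and back. -/

set_option autoImplicit false

namespace Crest.Agent.R121

variable {A : Type*} [CStarAlgebra A]

lemma conv_merge_zero {k : ℕ} (a : Fin (k + 2) → A) :
    List.ofFn (Crest.OpAlg.mergeArgs (0 : Fin (k + 1)) a) =
      a 0 * a 1 :: List.ofFn fun i : Fin k => a i.succ.succ := by
  rw [List.ofFn_succ]
  congr 1

lemma conv_merge_succ {k : ℕ} (j : Fin k) (a : Fin (k + 2) → A) :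
    List.ofFn (Crest.OpAlg.mergeArgs j.succ a) =
      a 0 :: List.ofFn (Crest.OpAlg.mergeArgs j fun i => a i.succ) := by
  rw [List.ofFn_succ]
  congr 1
  congr 1
  funext i
  simp only [Crest.OpAlg.mergeArgs, Fin.val_succ, Nat.add_lt_add_iff_right, Nat.add_right_cancel_iff,
    Fin.succ_castSucc]

lemma conv_bar : ∀ (k : ℕ) (K : List A → A) (x y : A) (a : Fin (k + 1) → A),
    bar K (x :: List.ofFn a ++ [y]) =
      K (x * a 0 :: List.ofFn (fun i : Fin k => a i.succ) ++ [y]) +
        (∑ j : Fin k, ((-1 : ℤ) ^ (j.val + 1)) •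
          K (x :: List.ofFn (Crest.OpAlg.mergeArgs j a) ++ [y])) +
        ((-1 : ℤ) ^ (k + 1)) •
          K (x :: List.ofFn (fun i : Fin k => a i.castSucc) ++ [a (Fin.last k) * y])
  | 0, K, x, y, a => by
    simp [bar_cons, sub_eq_add_neg]
  | k + 1, K, x, y, a => by
    have ih := conv_bar k (fun l => K (x :: l)) (a 0) y (fun i => a i.succ)
    rw [List.ofFn_succ (f := a), List.cons_append, List.cons_append, bar_cons, ← List.cons_append,
      ← List.cons_append, ih, Fin.sum_univ_succ, conv_merge_zero]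
    simp only [conv_merge_succ]
    rw [List.ofFn_succ (f := fun i : Fin (k + 1) => a i.castSucc)]
    simp only [List.cons_append, Fin.val_zero, Fin.val_succ, pow_succ (-1 : ℤ) (_ + 1), mul_neg,
      mul_one, neg_smul, Finset.sum_neg_distrib, zero_add, pow_one, one_smul, Fin.succ_zero_eq_one,
      Fin.castSucc_zero, Fin.succ_last, Fin.succ_castSucc]
    abel

lemma conv_sandwich {k : ℕ} {K : List A → A} (hl : LM K (k + 2)) (hr : RM K (k + 2)) (x y : A)
    (l : List A) (h : l.length = k) : K (x :: l ++ [y]) = x * K (1 :: l ++ [1]) * y := by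
  have h1 := hl x 1 (l ++ [y]) (by simp [h])
  have h2 := hr (1 :: l) 1 y (by simp [h])
  rw [mul_one] at h1
  rw [one_mul] at h2
  rw [List.cons_append, h1, ← List.cons_append, h2, mul_assoc]

/-- Induction on `k`, or first `bar K l = ∑ j, (-1) ^ j • K (merge j l)`. -/
theorem bar_eq_hoch {k : ℕ} {K : List A → A} (hl : LM K (k + 2)) (hr : RM K (k + 2))
    {g : (Fin k → A) → A} (hg : ∀ a, g a = K (1 :: List.ofFn a ++ [1])) (x y : A)
    (a : Fin (k + 1) → A) :
    bar K (x :: List.ofFn a ++ [y]) = x * Crest.OpAlg.hochschildDiff g a * y := by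
  have hs : ∀ (x y : A) (b : Fin k → A), K (x :: List.ofFn b ++ [y]) = x * g b * y :=
    fun x y b => by rw [conv_sandwich hl hr x y _ (List.length_ofFn), hg]
  rw [conv_bar, Crest.OpAlg.hochschildDiff]
  simp only [hs, mul_add, add_mul, Finset.mul_sum, Finset.sum_mul, mul_smul_comm, smul_mul_assoc,
    mul_assoc]

omit [CStarAlgebra A] in
lemma conv_split1 {k : ℕ} (l : List A) (h : l.length = k + 1) :
    ∃ (x : A) (a : Fin k → A), l = x :: List.ofFn a := by
  cases l with
  | nil => simp at h
  | cons x t =>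
    obtain rfl : t.length = k := by simpa using h
    exact ⟨x, t.get, by rw [List.ofFn_get]⟩

omit [CStarAlgebra A] in
lemma conv_split {k : ℕ} (l : List A) (h : l.length = k + 2) :
    ∃ (x y : A) (a : Fin k → A), l = x :: List.ofFn a ++ [y] := by
  rcases List.eq_nil_or_concat l with rfl | ⟨t, y, rfl⟩
  · simp at h
  · obtain ⟨x, a, rfl⟩ := conv_split1 (k := k) t (by simpa using h)
    exact ⟨x, y, a, by simp⟩

lemma conv_nprod {k : ℕ} (x y : A) (a : Fin k → A) :
    nprod (x :: List.ofFn a ++ [y]) = ‖x‖ * (∏ i, ‖a i‖) * ‖y‖ := by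
  simp [nprod, List.map_ofFn, List.prod_ofFn, mul_assoc]

lemma conv_getD (l r : List A) (x : A) (m : ℕ) :
    (l ++ x :: r).getD m 0 = if m = l.length then x else (l ++ 0 :: r).getD m 0 := by
  induction l generalizing m with
  | nil => cases m <;> simp
  | cons z t ih =>
    cases m with
    | zero => simp
    | succ m =>
      have := ih m
      simpa using this

/-- The list cochain of a function of `k` arguments. -/
noncomputable def convG {k : ℕ} (f : (Fin k → A) → A) (l : List A) : A :=
  l.getD 0 0 * f (fun i => l.getD (i.val + 1) 0) * l.getD (k + 1) 0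

lemma conv_G {k : ℕ} (f : (Fin k → A) → A) (x y : A) (a : Fin k → A) :
    convG f (x :: List.ofFn a ++ [y]) = x * f a * y := by
  unfold convG
  have h1 : (fun i : Fin k => (x :: List.ofFn a ++ [y]).getD (i.val + 1) 0) = a := by
    funext i
    simp [List.getD_eq_getElem?_getD]
  have h2 : (x :: List.ofFn a ++ [y]).getD (k + 1) 0 = y := by
    simp [List.getD_eq_getElem?_getD]
  rw [h1, h2]
  rfl

/-- `G l = l.getD 0 0 * f (fun i => l.getD (i + 1) 0) * l.getD (k + 1) 0`. -/
theorem exists_coch {k : ℕ} (f : ContinuousMultilinearMap ℂ (fun _ : Fin k => A) A) :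
    ∃ G : List A → A, Coch G (k + 2) ‖f‖ ∧ ∀ a, f a = G (1 :: List.ofFn a ++ [1]) := by
  refine ⟨convG f, ⟨⟨norm_nonneg _, fun l r h => ?_, fun l h => ?_⟩, fun a x r h => ?_,
    fun l x a h => ?_⟩, fun a => by rw [conv_G, one_mul, mul_one]⟩
  · have hG : ∀ x, convG f (l ++ x :: r) =
        (if 0 = l.length then x else (l ++ 0 :: r).getD 0 0) *
          f (fun i => if i.val + 1 = l.length then x else (l ++ 0 :: r).getD (i.val + 1) 0) *
          (if k + 1 = l.length then x else (l ++ 0 :: r).getD (k + 1) 0) := fun x => by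
      simp only [convG, ← conv_getD]
    simp only [hG]
    by_cases h0 : 0 = l.length
    · have h1 : ∀ i : Fin k, ¬ (i.val + 1 = l.length) := fun i => by omega
      have h2 : ¬ (k + 1 = l.length) := by omega
      simp only [if_pos h0, if_neg (h1 _), if_neg h2]
      exact ⟨fun x y => by rw [add_mul, add_mul], fun c x => by rw [smul_mul_assoc, smul_mul_assoc]⟩
    · by_cases h2 : k + 1 = l.length
      · have h1 : ∀ i : Fin k, ¬ (i.val + 1 = l.length) := fun i => by omega
        simp only [if_neg h0, if_neg (h1 _), if_pos h2]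
        exact ⟨fun x y => by rw [mul_add], fun c x => by rw [mul_smul_comm]⟩
      · obtain ⟨j, hj⟩ : ∃ j : Fin k, j.val + 1 = l.length := ⟨⟨l.length - 1, by omega⟩, by
          simp only; omega⟩
        have hu : ∀ x : A, (fun i : Fin k =>
            if i.val + 1 = l.length then x else (l ++ 0 :: r).getD (i.val + 1) 0) =
            Function.update (fun i : Fin k => (l ++ 0 :: r).getD (i.val + 1) 0) j x := fun x => by
          funext i
          rw [Function.update_apply]
          refine if_congr ?_ rfl rfl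
          rw [← hj, Fin.ext_iff]
          omega
        simp only [if_neg h0, if_neg h2, hu]
        exact ⟨fun x y => by rw [f.map_update_add, mul_add, add_mul],
          fun c x => by rw [f.map_update_smul, mul_smul_comm, smul_mul_assoc]⟩
  · obtain ⟨x, y, a, rfl⟩ := conv_split l h
    rw [conv_G, conv_nprod]
    calc ‖x * f a * y‖ ≤ ‖x‖ * ‖f a‖ * ‖y‖ := norm_mul₃_le
      _ ≤ ‖x‖ * (‖f‖ * ∏ i, ‖a i‖) * ‖y‖ := by
        gcongr
        exact f.le_opNorm a
      _ = _ := by ring
  · simp [convG, mul_assoc]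
  · obtain ⟨z, b, rfl⟩ := conv_split1 (k := k) l (by omega)
    rw [conv_G, conv_G, mul_assoc _ x a]

omit [CStarAlgebra A] in
lemma conv_update {k : ℕ} [DecidableEq (Fin k)] (a : Fin k → A) (i : Fin k) :
    ∃ l r : List A, l.length + r.length + 1 = k ∧
      ∀ x, List.ofFn (Function.update a i x) = l ++ x :: r := by
  refine ⟨(List.ofFn a).take i, (List.ofFn a).drop (i + 1), by simp; omega, fun x => ?_⟩
  have hi : i.val < (List.ofFn a).length := by simp
  have h := List.set_eq_take_append_cons_drop (l := List.ofFn a) (i := i.val) (a := x)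
  rw [if_pos hi] at h
  rw [← h]
  refine List.ext_getElem (by simp) fun n h1 h2 => ?_
  rw [List.getElem_ofFn, List.getElem_set, List.getElem_ofFn, Function.update_apply]
  refine if_congr ?_ rfl rfl
  rw [Fin.ext_iff]
  exact eq_comm

/-- `List.ofFn (Function.update a i x) = l ++ x :: r`; `MultilinearMap.mkContinuous`;
`‖1‖ ≤ 1`. -/
theorem exists_cmm {k : ℕ} {K : List A → A} {C : ℝ} (hK : ML K (k + 2) C) :
    ∃ g : ContinuousMultilinearMap ℂ (fun _ : Fin k => A) A,
      ∀ a, g a = K (1 :: List.ofFn a ++ [1]) := by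
  have hlin : ∀ [DecidableEq (Fin k)] (a : Fin k → A) (i : Fin k),
      IsLinearMap ℂ fun x => K (1 :: List.ofFn (Function.update a i x) ++ [1]) := by
    intro _ a i
    obtain ⟨l, r, h, hx⟩ := conv_update a i
    have := hK.lin (1 :: l) (r ++ [1]) (by simp; omega)
    simpa [hx] using this
  let g₀ : MultilinearMap ℂ (fun _ : Fin k => A) A :=
    { toFun := fun a => K (1 :: List.ofFn a ++ [1])
      map_update_add' := fun a i x y => (hlin a i).map_add x y
      map_update_smul' := fun a i c x => (hlin a i).map_smul c x }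
  refine ⟨g₀.mkContinuous C fun a => ?_, fun a => rfl⟩
  have h1 : ‖(1 : A)‖ ≤ 1 := (IsStarProjection.one A).norm_le
  have h2 := hK.bound (1 :: List.ofFn a ++ [1]) (by simp)
  rw [conv_nprod] at h2
  refine h2.trans (mul_le_mul_of_nonneg_left ?_ hK.nonneg)
  have h3 : 0 ≤ ∏ i, ‖a i‖ := Finset.prod_nonneg fun i _ => norm_nonneg _
  calc ‖(1 : A)‖ * (∏ i, ‖a i‖) * ‖(1 : A)‖ ≤ 1 * (∏ i, ‖a i‖) * 1 := by gcongr
    _ = _ := by ring

/-- Every list of length `n + 4` is `x :: List.ofFn a ++ [y]`. -/
theorem hoch_of_bar {n : ℕ}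
    (h : ∀ (G : List A → A) (C : ℝ), Coch G (n + 3) C → Cyc G (n + 3) →
      ∃ (K : List A → A) (C' : ℝ), Coch K (n + 2) C' ∧
        ∀ l : List A, l.length = n + 3 → G l = bar K l)
    (f : ContinuousMultilinearMap ℂ (fun _ : Fin (n + 1) => A) A)
    (hf : ∀ a : Fin (n + 2) → A, Crest.OpAlg.hochschildDiff f a = 0) :
    ∃ g : ContinuousMultilinearMap ℂ (fun _ : Fin n => A) A,
      ∀ a : Fin (n + 1) → A, Crest.OpAlg.hochschildDiff g a = f a := by
  obtain ⟨G, hG, hfG⟩ := exists_coch f
  have hc : Cyc G (n + 3) := fun l hl => by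
    obtain ⟨x, y, a, rfl⟩ := conv_split (k := n + 2) l hl
    rw [bar_eq_hoch hG.lm hG.rm hfG, hf, mul_zero, zero_mul]
  obtain ⟨K, C', hK, hGK⟩ := h G ‖f‖ hG hc
  obtain ⟨g, hg⟩ := exists_cmm hK.ml
  refine ⟨g, fun a => ?_⟩
  rw [hfG, hGK _ (by simp), bar_eq_hoch hK.lm hK.rm hg, one_mul, mul_one]

end Crest.Agent.R121
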