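import Crest.Agent.R121.Basic

/-! Row 121: ℓ¹ estimates for the expansion. -/

set_option autoImplicit false

open scoped ComplexOrder InnerProductSpace ComplexConjugate

namespace Crest.Agent.R121

open Crest.Agent.R095 (Tr lt)
open Crest.Agent.R124

/-- Functions on `P` are families of functions on the fibres of `lt`. -/
def countFib {P α : Type} (lt : P → α) (T : Type) : (P → T) ≃ (∀ a, {p // lt p = a} → T) where
  toFun e _ p := e p.1
  invFun g p := g (lt p) ⟨p, rfl⟩
  left_inv _ := rfl
  right_inv g := by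
    funext a p
    obtain ⟨p, rfl⟩ := p
    rfl

theorem count_card_le {β : Type} [Fintype β] [DecidableEq β] {r : ℕ} (hr : Fintype.card β ≤ r) :
    (Fintype.card (β → Finset.Icc (-2 : ℤ) 2) : ℝ) ≤ 5 ^ r := by
  have : Fintype.card (β → Finset.Icc (-2 : ℤ) 2) ≤ 5 ^ r := by
    rw [Fintype.card_fun, Fintype.card_coe, Int.card_Icc]
    exact Nat.pow_le_pow_right (by norm_num) hr
  exact_mod_cast this

theorem count_three {β : Type} [Fintype β] [DecidableEq β] {r : ℕ} (hr : Fintype.card β ≤ r) {θ : ℝ}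
    (h0 : 0 ≤ θ) (h1 : θ ≤ 1) :
    (∑ g : β → Finset.Icc (-2 : ℤ) 2,
      if 3 ≤ ∑ p, (g p : ℤ).natAbs then θ ^ (∑ p, (g p : ℤ).natAbs) else 0) ≤ θ ^ 3 * 5 ^ r := by
  calc _ ≤ (Finset.univ : Finset (β → Finset.Icc (-2 : ℤ) 2)).card • θ ^ 3 := by
        refine Finset.sum_le_card_nsmul _ _ _ fun g _ => ?_
        split_ifs with h
        · exact pow_le_pow_of_le_one h0 h1 h
        · positivity
    _ ≤ _ := by
        rw [nsmul_eq_mul, Finset.card_univ, mul_comm]
        exact mul_le_mul_of_nonneg_left (count_card_le hr) (by positivity)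

theorem count_ne_one {β : Type} [Fintype β] [DecidableEq β] {r : ℕ} (hr : Fintype.card β ≤ r)
    {θ : ℝ} (h0 : 0 ≤ θ) (h1 : θ ≤ 1) :
    (∑ g : β → Finset.Icc (-2 : ℤ) 2,
      if ∑ p, (g p : ℤ).natAbs ≠ 1 then θ ^ (∑ p, (g p : ℤ).natAbs) else 0)
      ≤ Real.exp (θ ^ 2 * 5 ^ r) := by
  calc _ ≤ ∑ g : β → Finset.Icc (-2 : ℤ) 2,
        ((if g = fun _ => ⟨0, by decide⟩ then 1 else 0) + θ ^ 2) := by
        refine Finset.sum_le_sum fun g _ => ?_
        have h2 : (0 : ℝ) ≤ θ ^ 2 := by positivity
        by_cases hg : g = fun _ => ⟨0, by decide⟩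
        · rw [if_pos hg]
          split_ifs
          · linarith [pow_le_one₀ h0 h1 (n := ∑ p, (g p : ℤ).natAbs)]
          · linarith
        · rw [if_neg hg, zero_add]
          split_ifs with h
          · refine pow_le_pow_of_le_one h0 h1 ?_
            have : ∑ p, (g p : ℤ).natAbs ≠ 0 := by
              intro h3
              rw [Finset.sum_eq_zero_iff] at h3
              exact hg (funext fun p => Subtype.ext
                (Int.natAbs_eq_zero.1 (h3 p (Finset.mem_univ p))))
            omega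
          · exact h2
    _ ≤ θ ^ 2 * 5 ^ r + 1 := by
        rw [Finset.sum_add_distrib, Finset.sum_ite_eq', if_pos (Finset.mem_univ _),
          Finset.sum_const, nsmul_eq_mul, Finset.card_univ, add_comm, mul_comm]
        have := mul_le_mul_of_nonneg_left (count_card_le hr) (show 0 ≤ θ ^ 2 by positivity)
        linarith
    _ ≤ _ := Real.add_one_le_exp _

/-- Fibre the functions `e` over `lt` (`Equiv.piCongr`, `Equiv.sigmaFiberEquiv`,
`Finset.prod_univ_sum`). For one letter with at most `r` positions, the sum of `θ ^ n` over the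
configurations with `n ≥ j` is at most `θ ^ j * 5 ^ r`; so the factor of an ordinary letter is at
most `1 + θ² 5 ^ r ≤ exp (θ² 5 ^ r)` and that of the distinguished letter at most `θ³ 5 ^ r`. -/
theorem count_bad {P α : Type} [Fintype P] [DecidableEq P] [Fintype α] [DecidableEq α]
    (lt : P → α) {r : ℕ} (hr : ∀ a, (Finset.univ.filter fun p => lt p = a).card ≤ r) {θ : ℝ}
    (h0 : 0 ≤ θ) (h1 : θ ≤ 1) :
    (∑ e : P → Finset.Icc (-2 : ℤ) 2,
      if (∀ a, ∑ p ∈ Finset.univ.filter (fun p => lt p = a), (e p : ℤ).natAbs ≠ 1) ∧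
          ∃ a, 3 ≤ ∑ p ∈ Finset.univ.filter (fun p => lt p = a), (e p : ℤ).natAbs
        then θ ^ (∑ p, (e p : ℤ).natAbs) else 0)
      ≤ Fintype.card α * θ ^ 3 * 5 ^ r * Real.exp (Fintype.card α * θ ^ 2 * 5 ^ r) := by
  let G : α → α → ℕ → ℝ := fun a₀ a n =>
    if a = a₀ then (if 3 ≤ n then θ ^ n else 0) else (if n ≠ 1 then θ ^ n else 0)
  have hG : ∀ a₀ a n, 0 ≤ G a₀ a n := by
    intro a₀ a n
    simp only [G]
    split_ifs <;> positivity
  have hcard : ∀ a, Fintype.card {p // lt p = a} ≤ r := fun a => by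
    rw [Fintype.card_subtype]; exact hr a
  have hsub : ∀ (e : P → Finset.Icc (-2 : ℤ) 2) (a : α),
      ∑ p ∈ Finset.univ.filter (fun p => lt p = a), (e p : ℤ).natAbs =
        ∑ p : {p // lt p = a}, (countFib lt (Finset.Icc (-2 : ℤ) 2) e a p).1.natAbs := fun e a =>
    Finset.sum_subtype _ (by simp) fun p => (e p : ℤ).natAbs
  have hexp : 1 ≤ Real.exp (θ ^ 2 * 5 ^ r) := Real.one_le_exp (by positivity)
  calc _ ≤ ∑ e : P → Finset.Icc (-2 : ℤ) 2, ∑ a₀, ∏ a,
        G a₀ a (∑ p ∈ Finset.univ.filter (fun p => lt p = a), (e p : ℤ).natAbs) := by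
        refine Finset.sum_le_sum fun e _ => ?_
        split_ifs with h
        · obtain ⟨h2, a₀, h3⟩ := h
          refine le_trans (le_of_eq ?_) (Finset.single_le_sum (f := fun a₀ => ∏ a,
            G a₀ a (∑ p ∈ Finset.univ.filter (fun p => lt p = a), (e p : ℤ).natAbs))
            (fun a₀ _ => Finset.prod_nonneg fun a _ => hG _ _ _) (Finset.mem_univ a₀))
          rw [← Finset.sum_fiberwise Finset.univ lt, ← Finset.prod_pow_eq_pow_sum]
          refine Finset.prod_congr rfl fun a _ => ?_
          simp only [G]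
          by_cases ha : a = a₀
          · rw [if_pos ha, if_pos (by rw [ha]; exact h3)]
          · rw [if_neg ha, if_pos (h2 a)]
        · exact Finset.sum_nonneg fun a₀ _ => Finset.prod_nonneg fun a _ => hG _ _ _
    _ = ∑ a₀, ∏ a, ∑ g : {p // lt p = a} → Finset.Icc (-2 : ℤ) 2,
        G a₀ a (∑ p, (g p : ℤ).natAbs) := by
        rw [Finset.sum_comm]
        refine Finset.sum_congr rfl fun a₀ _ => ?_
        rw [Fintype.prod_sum, ← (countFib lt (Finset.Icc (-2 : ℤ) 2)).sum_comp]
        simp only [hsub]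
    _ ≤ ∑ a₀ : α, ∏ a, ((if a = a₀ then θ ^ 3 * 5 ^ r else 1) * Real.exp (θ ^ 2 * 5 ^ r)) := by
        refine Finset.sum_le_sum fun a₀ _ => Finset.prod_le_prod
          (fun a _ => Finset.sum_nonneg fun g _ => hG _ _ _) fun a _ => ?_
        simp only [G]
        by_cases ha : a = a₀
        · simp only [if_pos ha]
          exact (count_three (hcard a) h0 h1).trans (le_mul_of_one_le_right (by positivity) hexp)
        · simp only [if_neg ha, one_mul]
          exact count_ne_one (hcard a) h0 h1
    _ = _ := by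
        simp only [Finset.prod_mul_distrib, Finset.prod_ite_eq', Finset.mem_univ, if_true,
          Finset.prod_const, Finset.sum_const, Finset.card_univ, nsmul_eq_mul,
          ← Real.exp_nat_mul, mul_assoc]

variable {α : Type} [Fintype α] [DecidableEq α]

lemma norm_tay_le {θ : ℝ} (h1 : |θ| ≤ 1) (k : ℤ) : ‖tay θ k‖ ≤ |θ| ^ k.natAbs := by
  have h2 : θ ^ 2 ≤ 1 := by rw [← sq_abs]; exact pow_le_one₀ (abs_nonneg _) h1
  unfold tay
  split_ifs with h h' h''
  · rw [h, Int.natAbs_zero, pow_zero, ← Complex.ofReal_pow, ← Complex.ofReal_one,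
      ← Complex.ofReal_sub, Complex.norm_real, Real.norm_eq_abs, abs_le]
    constructor <;> nlinarith [sq_nonneg θ]
  · have : k.natAbs = 1 := by omega
    simp [this]
  · have : k.natAbs = 2 := by omega
    rw [this, norm_div, norm_neg, norm_pow, Complex.norm_real, Real.norm_eq_abs]
    simp only [Complex.norm_ofNat]
    nlinarith [sq_nonneg |θ|]
  · simp

omit [Fintype α] [DecidableEq α] in
/-- The expansion of the product of the Taylor polynomials. -/
theorem count_expand (θ : ℝ) (n : ℕ) (f : Fin n → α) :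
    xi θ (List.ofFn f) = ∑ e : Fin n → Finset.Icc (-2 : ℤ) 2,
      MonoidAlgebra.single (List.ofFn fun p => FreeGroup.of (f p) ^ (e p : ℤ)).prod
        (∏ p, tay θ (e p)) := by
  induction n with
  | zero => simp [xi, MonoidAlgebra.one_def]
  | succ n ih =>
    have h := ih fun p => f p.succ
    unfold xi at h ⊢
    rw [List.ofFn_succ, List.map_cons, List.prod_cons, h, Vh, ← Finset.sum_coe_sort,
      Finset.sum_mul_sum, ← (Fin.consEquiv fun _ => Finset.Icc (-2 : ℤ) 2).sum_comp,
      Fintype.sum_prod_type]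
    refine Finset.sum_congr rfl fun k _ => Finset.sum_congr rfl fun e _ => ?_
    rw [MonoidAlgebra.single_mul_single, List.ofFn_succ, List.prod_cons, Fin.prod_univ_succ]
    rfl

/-- weighted `ℓ¹` norm of a sum of monomials -/
theorem count_l1_le {G ι : Type} [Fintype ι] (w : ι → G) (c : ι → ℂ) (F : G → ℝ)
    (hF : ∀ x, 0 ≤ F x) :
    ∑ x ∈ (∑ e, MonoidAlgebra.single (w e) (c e) : MonoidAlgebra ℂ G).coeff.support,
      F x * ‖(∑ e, MonoidAlgebra.single (w e) (c e) : MonoidAlgebra ℂ G).coeff x‖ ≤
      ∑ e, F (w e) * ‖c e‖ := by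
  classical
  generalize (∑ e, MonoidAlgebra.single (w e) (c e) : MonoidAlgebra ℂ G).coeff.support = s
  calc _ ≤ ∑ x ∈ s, ∑ e, if w e = x then F x * ‖c e‖ else 0 := by
        refine Finset.sum_le_sum fun x _ => ?_
        rw [MonoidAlgebra.coeff_sum, Finsupp.finset_sum_apply]
        refine (mul_le_mul_of_nonneg_left (norm_sum_le _ _) (hF x)).trans (le_of_eq ?_)
        rw [Finset.mul_sum]
        refine Finset.sum_congr rfl fun e _ => ?_
        rw [MonoidAlgebra.coeff_single, Finsupp.single_apply]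
        split_ifs <;> simp
    _ ≤ _ := by
        rw [Finset.sum_comm]
        refine Finset.sum_le_sum fun e _ => ?_
        rw [Finset.sum_ite_eq]
        split_ifs
        · exact le_rfl
        · exact mul_nonneg (hF _) (norm_nonneg _)

theorem count_norm_prod_le {θ : ℝ} (h1 : |θ| ≤ 1) {ι : Type} [Fintype ι] (e : ι → ℤ) :
    ‖∏ p, tay θ (e p)‖ ≤ |θ| ^ (∑ p, (e p).natAbs) := by
  rw [norm_prod, ← Finset.prod_pow_eq_pow_sum]
  exact Finset.prod_le_prod (fun _ _ => norm_nonneg _) fun p _ => norm_tay_le h1 _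

omit [Fintype α] [DecidableEq α] in
theorem l1_xi_le {θ : ℝ} (h1 : |θ| ≤ 1) (ps : List α) : l1 (xi θ ps) ≤ 5 ^ ps.length := by
  have h := count_l1_le (fun e : Fin ps.length → Finset.Icc (-2 : ℤ) 2 =>
    (List.ofFn fun p => FreeGroup.of (ps.get p) ^ (e p : ℤ)).prod) (fun e => ∏ p, tay θ (e p))
    (fun _ => 1) fun _ => zero_le_one
  rw [← count_expand, List.ofFn_get] at h
  simp only [one_mul] at h
  refine h.trans (le_trans (Finset.sum_le_card_nsmul _ _ 1 fun e _ => ?_) ?_)
  · exact (count_norm_prod_le h1 fun p => (e p : ℤ)).trans (pow_le_one₀ (abs_nonneg _) h1)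
  · rw [nsmul_eq_mul, mul_one, Finset.card_univ]
    exact count_card_le (β := Fin ps.length) (by simp)

omit [Fintype α] in
theorem count_red_mod {L L' : List (α × Bool)} (h : FreeGroup.Red L L') (a : α) :
    (lets L').count a % 2 = (lets L).count a % 2 := by
  induction h with
  | refl => rfl
  | tail _ h2 ih =>
    rw [← ih]
    cases h2 with
    | not =>
      simp only [lets, List.map_append, List.map_cons, List.count_append, List.count_cons]
      split_ifs <;> omega

omit [Fintype α] in
theorem count_occ_mul (a : α) (x y : FreeGroup α) :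
    (lets (x * y).toWord).count a ≤ (lets x.toWord).count a + (lets y.toWord).count a ∧
      (lets (x * y).toWord).count a % 2 =
        ((lets x.toWord).count a + (lets y.toWord).count a) % 2 := by
  have e : (lets x.toWord).count a + (lets y.toWord).count a =
      (lets (x.toWord ++ y.toWord)).count a := by
    simp [lets]
  rw [e]
  refine ⟨((FreeGroup.toWord_mul_sublist x y).map Prod.fst).count_le a, ?_⟩
  rw [FreeGroup.toWord_mul]
  exact count_red_mod (FreeGroup.reduce.red (L := x.toWord ++ y.toWord)) a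

omit [Fintype α] in
theorem count_occ_zpow (a b : α) (k : ℤ) :
    (lets (FreeGroup.of b ^ k).toWord).count a = if b = a then k.natAbs else 0 := by
  obtain ⟨n, rfl | rfl⟩ := k.eq_nat_or_neg
  · simp [lets, FreeGroup.toWord_of_pow, List.count_replicate]
  · simp [lets, FreeGroup.toWord_inv, FreeGroup.toWord_of_pow, List.count_replicate,
      FreeGroup.invRev]

omit [Fintype α] in
theorem count_occ_word (a : α) (n : ℕ) (f : Fin n → α) (e : Fin n → ℤ) :
    (lets (List.ofFn fun p => FreeGroup.of (f p) ^ e p).prod.toWord).count a ≤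
        (∑ p, if f p = a then (e p).natAbs else 0) ∧
      (lets (List.ofFn fun p => FreeGroup.of (f p) ^ e p).prod.toWord).count a % 2 =
        (∑ p, if f p = a then (e p).natAbs else 0) % 2 := by
  induction n with
  | zero => simp [lets]
  | succ n ih =>
    have h1 := ih (fun p => f p.succ) fun p => e p.succ
    have h2 := count_occ_mul a (FreeGroup.of (f 0) ^ e 0)
      (List.ofFn fun p : Fin n => FreeGroup.of (f p.succ) ^ e p.succ).prod
    rw [count_occ_zpow] at h2
    rw [List.ofFn_succ, List.prod_cons, Fin.sum_univ_succ]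
    omega

omit [Fintype α] in
theorem count_ofFn (a : α) (n : ℕ) (f : Fin n → α) :
    (List.ofFn f).count a = ∑ p, if f p = a then 1 else 0 := by
  induction n with
  | zero => simp
  | succ n ih =>
    rw [List.ofFn_succ, List.count_cons, Fin.sum_univ_succ, ih, add_comm]
    simp

/-- `xi θ ps = ∑ e : Fin ps.length → Icc (-2) 2, single (word e) (∏ p, tay θ (e p))` with
`word e = ∏ of (ps[p]) ^ e p`. The number of occurrences of `a` in `(word e).toWord` is at most
`n a e = ∑_{ps[p] = a} |e p|` and has the same parity (`FreeGroup.Red.sublist`; the exponent sum is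
a homomorphism). Apply `count_bad` to `P = Fin N ⊕ Fin N`, `r = 2 k`. -/
theorem badSum_xi_le {θ : ℝ} (h1 : |θ| ≤ 1) (ps : List α) {k : ℕ} (hk : ∀ a, ps.count a ≤ k) :
    badSum (xi θ ps)
      ≤ Fintype.card α * |θ| ^ 3 * 25 ^ k * Real.exp (Fintype.card α * θ ^ 2 * 25 ^ k) := by
  classical
  obtain ⟨n, f, rfl⟩ : ∃ (n : ℕ) (f : Fin n → α), ps = List.ofFn f :=
    ⟨_, ps.get, (List.ofFn_get ps).symm⟩
  set w : (Fin n → Finset.Icc (-2 : ℤ) 2) → FreeGroup α :=
    fun e => (List.ofFn fun p => FreeGroup.of (f p) ^ (e p : ℤ)).prod with hw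
  set c : (Fin n → Finset.Icc (-2 : ℤ) 2) → ℂ := fun e => ∏ p, tay θ (e p) with hc
  have hξ : xi θ (List.ofFn f) = ∑ e, MonoidAlgebra.single (w e) (c e) := count_expand θ n f
  have hite : ∀ x y : FreeGroup α, (0 : ℝ) ≤ if Bad x y then 1 else 0 := fun x y => by
    split_ifs <;> norm_num
  have h2 : badSum (xi θ (List.ofFn f)) ≤
      ∑ e, ∑ e', if Bad (w e) (w e') then ‖c e‖ * ‖c e'‖ else 0 := by
    calc badSum (xi θ (List.ofFn f))
        = ∑ x ∈ (xi θ (List.ofFn f)).coeff.support, (∑ y ∈ (xi θ (List.ofFn f)).coeff.support,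
            (if Bad x y then 1 else 0) * ‖(xi θ (List.ofFn f)).coeff y‖) *
            ‖(xi θ (List.ofFn f)).coeff x‖ := by
          refine Finset.sum_congr rfl fun x _ => ?_
          rw [Finset.sum_mul]
          refine Finset.sum_congr rfl fun y _ => ?_
          split_ifs <;> ring
      _ ≤ ∑ x ∈ (xi θ (List.ofFn f)).coeff.support,
            (∑ e', (if Bad x (w e') then 1 else 0) * ‖c e'‖) *
            ‖(xi θ (List.ofFn f)).coeff x‖ := by
          refine Finset.sum_le_sum fun x _ => mul_le_mul_of_nonneg_right ?_ (norm_nonneg _)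
          rw [hξ]
          exact count_l1_le w c (fun y => if Bad x y then 1 else 0) (hite x)
      _ ≤ ∑ e, (∑ e', (if Bad (w e) (w e') then 1 else 0) * ‖c e'‖) * ‖c e‖ := by
          rw [hξ]
          exact count_l1_le w c (fun x => ∑ e', (if Bad x (w e') then 1 else 0) * ‖c e'‖)
            fun x => Finset.sum_nonneg fun e' _ => mul_nonneg (hite _ _) (norm_nonneg _)
      _ = _ := by
          refine Finset.sum_congr rfl fun e _ => ?_
          rw [Finset.sum_mul]
          refine Finset.sum_congr rfl fun e' _ => ?_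
          split_ifs <;> ring
  have h3 := count_bad (Sum.elim f f : Fin n ⊕ Fin n → α) (r := 2 * k) (fun a => by
    have := hk a
    rw [count_ofFn] at this
    rw [Finset.card_filter, Fintype.sum_sum_type, two_mul]
    exact add_le_add this this) (abs_nonneg θ) h1
  rw [pow_mul, sq_abs, show (5 : ℝ) ^ 2 = 25 by norm_num,
    ← (Equiv.sumArrowEquivProdArrow (Fin n) (Fin n) (Finset.Icc (-2 : ℤ) 2)).symm.sum_comp,
    Fintype.sum_prod_type] at h3
  refine h2.trans (le_trans (Finset.sum_le_sum fun e _ => Finset.sum_le_sum fun e' _ => ?_) h3)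
  simp only [Finset.sum_filter, Fintype.sum_sum_type, Sum.elim_inl, Sum.elim_inr,
    Equiv.sumArrowEquivProdArrow_symm_apply_inl, Equiv.sumArrowEquivProdArrow_symm_apply_inr]
  by_cases hB : Bad (w e) (w e')
  · have h4 := fun a => count_occ_word a n f fun p => (e p : ℤ)
    have h5 := fun a => count_occ_word a n f fun p => (e' p : ℤ)
    obtain ⟨h6, a₀, h7⟩ := id hB
    rw [if_pos hB, if_pos, pow_add]
    · exact mul_le_mul (count_norm_prod_le h1 fun p => (e p : ℤ))
        (count_norm_prod_le h1 fun p => (e' p : ℤ)) (norm_nonneg _) (by positivity)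
    · refine ⟨fun a => ?_, a₀, ?_⟩
      · have h8 := Nat.even_iff.1 (h6 a)
        have h9 := (h4 a).2
        have h10 := (h5 a).2
        simp only [cnt, hw] at h8
        omega
      · have h9 := (h4 a₀).1
        have h10 := (h5 a₀).1
        simp only [cnt, hw] at h7
        omega
  · rw [if_neg hB]
    split_ifs <;> positivity

end Crest.Agent.R121
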