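import Crest.Agent.R121.Compare

/-! Row 121: finite covers of central pieces. -/

set_option autoImplicit false

open scoped ComplexOrder InnerProductSpace ComplexConjugate

namespace Crest.Agent.R121

open Crest.Agent.R095 (Tr lt)
open Crest.Agent.R124

variable {A : Type*} [CStarAlgebra A] [PartialOrder A] [StarOrderedRing A]
variable {K : Type*} [NormedAddCommGroup K] [InnerProductSpace ℂ K] [CompleteSpace K]
variable {ι : A →⋆ₐ[ℂ] (K →L[ℂ] K)}

omit [PartialOrder A] [StarOrderedRing A] in
lemma coverEx_cen_proj {c z : A} (hc : IsStarProjection c) (hz : IsStarProjection z)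
    (hcc : Cen c) : IsStarProjection (c * z) := by
  refine ⟨?_, ?_⟩
  · unfold IsIdempotentElem
    rw [mul_assoc, ← mul_assoc z, ← hcc z, mul_assoc, hz.isIdempotentElem.eq, ← mul_assoc,
      hc.isIdempotentElem.eq]
  · unfold IsSelfAdjoint
    rw [star_mul, hc.isSelfAdjoint.star_eq, hz.isSelfAdjoint.star_eq, hcc]

omit [PartialOrder A] [StarOrderedRing A] in
lemma coverEx_cen_mul {c z : A} (hc : Cen c) (hz : Cen z) : Cen (c * z) := fun x => by
  rw [mul_assoc, hz, ← mul_assoc, hc, mul_assoc]

omit [PartialOrder A] [StarOrderedRing A] in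
lemma coverEx_cen_one_sub {z : A} (hz : Cen z) : Cen (1 - z) := fun x => by
  rw [sub_mul, mul_sub, hz, one_mul, mul_one]

omit [PartialOrder A] [StarOrderedRing A] in
lemma coverEx_piso {u c : A} (hu : Piso u) (hc : IsStarProjection c) (hcc : Cen c) :
    Piso (u * c) := by
  unfold Piso
  have hcc2 : c * c = c := hc.isIdempotentElem
  rw [star_mul, hc.isSelfAdjoint.star_eq]
  calc u * c * (c * star u) * (u * c) = u * (c * c) * (star u * u) * c := by
        simp only [mul_assoc]
    _ = u * (star u * u) * (c * c) := by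
        rw [hcc2, mul_assoc u c, hcc (star u * u)]
        simp only [mul_assoc, hcc2]
    _ = u * c := by rw [hu.mul_star_mul', hcc2]

omit [PartialOrder A] [StarOrderedRing A] in
lemma coverEx_star_mul {u v c : A} (hc : IsStarProjection c) (hcc : Cen c) :
    star (u * c) * (v * c) = star u * v * c := by
  rw [star_mul, hc.isSelfAdjoint.star_eq, hcc, mul_assoc, ← mul_assoc c, hcc, mul_assoc v,
    hc.isIdempotentElem.eq, mul_assoc]

omit [PartialOrder A] [StarOrderedRing A] in
lemma coverEx_mul_star {u c : A} (hc : IsStarProjection c) (hcc : Cen c) :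
    u * c * star (u * c) = u * star u * c := by
  rw [star_mul, hc.isSelfAdjoint.star_eq, mul_assoc, ← mul_assoc c, hc.isIdempotentElem.eq, hcc,
    mul_assoc]

omit [PartialOrder A] [StarOrderedRing A] in
/-- The smallest central projection fixing a vector. -/
lemma coverEx_cen_supp (hι : IsVN ι) (k : K) :
    ∃ z : A, IsStarProjection z ∧ Cen z ∧ ι z k = k ∧ ∀ c, Cen c → ι c k = 0 → c * z = 0 := by
  obtain ⟨s, hs, hsk, hs'⟩ := hι.exists_cyclic k
  obtain ⟨z, hz, hzc, hzs, hz'⟩ := hι.baer.central_cover s
  refine ⟨z, hz, hzc, ?_, fun c hc hck => hz' c fun a => ?_⟩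
  · rw [← hsk, ← vn_mul_apply, hzs]
  · have h1 : c * s = 0 := hι.inj (by
      ext k'
      rw [vn_mul_apply, map_zero, zero_apply, ← norm_le_zero_iff]
      refine le_of_forall_pos_le_add fun ε hε => ?_
      obtain ⟨t, ht, h2⟩ := hs' k' (ε / (‖ι c‖ + 1)) (by positivity)
      have h3 : ι c (ι s k') = ι c (ι s k' - t k) := by
        rw [map_sub, ← vn_comm_apply ht, hck, map_zero, sub_zero]
      rw [h3, zero_add]
      refine ((ι c).le_opNorm _).trans ?_
      rw [lt_div_iff₀ (by positivity)] at h2
      nlinarith [norm_nonneg (ι c), norm_nonneg (ι s k' - t k)])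
    rw [hc a, mul_assoc, h1, mul_zero]

/-- The recursive comparison. -/
lemma coverEx_seq (hι : IsVN ι) {g r₀ : A} (hg : IsStarProjection g) (hr : IsStarProjection r₀) :
    ∃ (u r : ℕ → A), r 0 = r₀ ∧ (∀ j, r (j + 1) = r j - u j * star (u j)) ∧
      (∀ j, IsStarProjection (r j)) ∧ (∀ j, Piso (u j)) ∧ (∀ j, u j * g = u j) ∧
      (∀ j, r j * u j = u j) ∧ ∀ j a, r (j + 1) * a * (g - star (u j) * u j) = 0 := by
  choose U hU1 hU2 hU3 hU4 using
    fun r : {r : A // IsStarProjection r} => exists_compare hι hg r.2
  have hstep : ∀ r : {r : A // IsStarProjection r},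
      IsStarProjection (r.1 - U r * star (U r)) := fun r =>
    IsStarProjection.sub_of_mul_eq_right (hU1 r).proj' r.2 (by rw [← mul_assoc, hU3])
  let R : ℕ → {r : A // IsStarProjection r} := fun n =>
    Nat.rec ⟨r₀, hr⟩ (fun _ r => ⟨_, hstep r⟩) n
  exact ⟨fun j => U (R j), fun j => (R j).1, rfl, fun j => rfl, fun j => (R j).2,
    fun j => hU1 _, fun j => hU2 _, fun j => hU3 _, fun j a => hU4 (R j) a⟩

omit [PartialOrder A] [StarOrderedRing A] in
/-- Cut a central projection along finitely many central projections. -/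
lemma coverEx_cut {I : Type*} (z : I → A) (hz : ∀ i, IsStarProjection (z i)) (hzc : ∀ i, Cen (z i))
    {c : A} (hc : IsStarProjection c) (hcc : Cen c) {k : K} (hk : ι c k ≠ 0) (s : Finset I) :
    ∃ c' : A, IsStarProjection c' ∧ Cen c' ∧ c * c' = c' ∧ ι c' k ≠ 0 ∧
      ∀ i ∈ s, z i * c' = c' ∨ z i * c' = 0 := by
  classical
  induction s using Finset.induction_on with
  | empty => exact ⟨c, hc, hcc, hc.isIdempotentElem, hk, by simp⟩
  | insert i s _ ih =>
    obtain ⟨d, hd, hdc, hcd, hdk, hd'⟩ := ih
    have key : ∀ y : A, IsStarProjection y → Cen y → ι (d * y) k ≠ 0 →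
        (z i * y = y ∨ z i * y = 0) → ∃ c' : A, IsStarProjection c' ∧ Cen c' ∧ c * c' = c' ∧
          ι c' k ≠ 0 ∧ ∀ j ∈ insert i s, z j * c' = c' ∨ z j * c' = 0 := by
      intro y hy hyc hyk hzy
      refine ⟨d * y, coverEx_cen_proj hd hy hdc, coverEx_cen_mul hdc hyc,
        by rw [← mul_assoc, hcd], hyk, fun j hj => ?_⟩
      rcases Finset.mem_insert.1 hj with rfl | hj
      · rw [← mul_assoc, ← hdc, mul_assoc]
        rcases hzy with h | h
        · exact Or.inl (by rw [h])
        · exact Or.inr (by rw [h, mul_zero])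
      · rw [← mul_assoc]
        rcases hd' j hj with h | h
        · exact Or.inl (by rw [h])
        · exact Or.inr (by rw [h, zero_mul])
    by_cases h : ι (d * z i) k = 0
    · refine key (1 - z i) (hz i).one_sub (coverEx_cen_one_sub (hzc i)) ?_
        (Or.inr (by rw [mul_sub, mul_one, (hz i).isIdempotentElem.eq, sub_self]))
      rw [mul_sub, mul_one, map_sub, sub_apply, h, sub_zero]
      exact hdk
    · exact key (z i) (hz i) (hzc i) h (Or.inl (hz i).isIdempotentElem)

omit [PartialOrder A] [StarOrderedRing A] in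
lemma coverEx_reindex {I : Type*} [Fintype I] [DecidableEq I] {v : I → A} {e : A} (h : Sys v e) :
    ∃ (n : ℕ) (v' : Fin n → A), Sys v' e := by
  let φ := (Fintype.equivFin I).symm
  refine ⟨_, fun a => v (φ a), h.proj, fun a b => ?_, ?_⟩
  · rw [h.mul]
    simp only [φ.injective.eq_iff]
  · rw [← h.sum]
    exact Equiv.sum_comp φ fun a => v a * star (v a)

/-- Recursively `r 0 = f - g`, `u j` from `exists_compare g (r j)`, `r (j + 1) = r j - u j u j⋆`,
`c j` the central cover of `g - (u j)⋆ u j`; `r (j + 1) c j = 0` and `g (1 - c j) = (u j)⋆ u j (1 - c j)`.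
Let `d n = ∏_{j < n} (1 - c j)`. If `ι (d n) k = k` for all `n`, let `d` be the projection onto
`⋂ range (c j)ᗮ` (or `1 -` the range projection of `{c j}`, central); `e = g d ≠ 0` and
`v n = u n * d` contradict `FinP f`. So `ι (1 - d n) k ≠ 0` for some `n`; take `c = (1 - d n) f`,
`w 0 = g c`, `w (j + 1) = u j * c`. -/
theorem exists_cover (hι : IsVN ι) {f g : A} (hf : IsStarProjection f) (hc : Cen f) (hfin : FinP f)
    (hg : IsStarProjection g) (hfg : f * g = g) {k : K} (hk : ι g k = k) (hk0 : k ≠ 0) :
    ∃ (c : A) (n : ℕ) (w : Fin (n + 1) → A), IsStarProjection c ∧ Cen c ∧ f * c = c ∧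
      ι c k ≠ 0 ∧ Cover c g w := by
  have hgg : g * g = g := hg.isIdempotentElem
  have hgs : star g = g := hg.isSelfAdjoint
  have hgf : g * f = g := by rw [← hc, hfg]
  have hfg' : IsStarProjection (f - g) := IsStarProjection.sub_of_mul_eq_right hg hf hfg
  obtain ⟨u, r, hr0, hrs, hr, hu, hug, hru, hmax⟩ := coverEx_seq hι hg hfg'
  choose c hc1 hc2 hc3 hc4 using fun j => hι.baer.central_cover (g - star (u j) * u j)
  have hrc : ∀ j, r (j + 1) * c j = 0 := fun j => hc4 j _ (hmax j)
  have hmono : ∀ i j, i ≤ j → r i * r j = r j := by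
    intro i j hij
    induction j, hij using Nat.le_induction with
    | base => exact (hr i).isIdempotentElem
    | succ j _ ih =>
      have h1 : r j * r (j + 1) = r (j + 1) := by
        rw [hrs, mul_sub, (hr j).isIdempotentElem.eq, ← mul_assoc, hru]
      rw [← h1, ← mul_assoc, ih]
  have hgu : ∀ j, g * u j = 0 := fun j => by
    rw [← hru, ← hmono 0 j (Nat.zero_le j), hr0, ← mul_assoc, ← mul_assoc, mul_sub, hgf, hgg,
      sub_self, zero_mul, zero_mul]
  have hug' : ∀ j, star (u j) * g = 0 := fun j => by
    have := congrArg star (hgu j)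
    rwa [star_mul, hgs, star_zero] at this
  have hlt : ∀ i j, i < j → star (u i) * u j = 0 := fun i j hij => by
    have h1 : star (u i) * r i = star (u i) := by
      have := congrArg star (hru i)
      rwa [star_mul, (hr i).isSelfAdjoint.star_eq] at this
    have h2 : star (u i) * r (i + 1) = 0 := by
      have h3 := (hu i).star.mul_star_mul'
      rw [star_star] at h3
      rw [hrs, mul_sub, h1, h3, sub_self]
    rw [← hru j, ← hmono (i + 1) j hij, ← mul_assoc, ← mul_assoc, h2, zero_mul, zero_mul]
  have horth : ∀ i j, i ≠ j → star (u i) * u j = 0 := fun i j hij => by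
    rcases lt_or_gt_of_ne hij with h | h
    · exact hlt i j h
    · have := congrArg star (hlt j i h)
      rwa [star_mul, star_star, star_zero] at this
  have hsum : ∀ n, ∑ i ∈ Finset.range n, u i * star (u i) = f - g - r n := fun n => by
    induction n with
    | zero => rw [hr0, sub_self, Finset.sum_range_zero]
    | succ n ih => rw [Finset.sum_range_succ, ih, hrs]; abel
  have hfk : ι f k = k := by rw [← hk, ← vn_mul_apply, hfg]
  by_cases hall : ∀ j, ι (c j) k = 0
  · exfalso
    obtain ⟨z, hz, hzc, hzk, hz'⟩ := coverEx_cen_supp hι k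
    have he : z * g = 0 := hfin (z * g) (fun n => u n * z) (coverEx_cen_proj hz hg hzc)
      (by rw [← mul_assoc, hc z, mul_assoc, hfg]) fun m n => by
        rw [coverEx_star_mul hz hzc]
        split_ifs with h
        · subst h
          have h1 : (g - star (u m) * u m) * z = 0 := by
            rw [← hc3, hc2, mul_assoc, hz' _ (hc2 m) (hall m), mul_zero]
          rw [sub_mul, sub_eq_zero] at h1
          rw [← h1, hzc]
        · rw [horth m n h, zero_mul]
    apply hk0
    rw [← hzk, ← hk, ← vn_mul_apply, he, map_zero, zero_apply]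
  · push Not at hall
    obtain ⟨j, hj⟩ := hall
    have hp : IsStarProjection (c j * f) := coverEx_cen_proj (hc1 j) hf (hc2 j)
    have hpc : Cen (c j * f) := coverEx_cen_mul (hc2 j) hc
    set p := c j * f with hpdef
    have hpp : p * p = p := hp.isIdempotentElem
    have hfp : f * p = p := by rw [hc, hpdef, mul_assoc, hf.isIdempotentElem.eq]
    refine ⟨p, j + 1, Fin.cases (g * p) fun i => u i * p, hp, hpc, hfp, ?_, ?_⟩
    · rw [hpdef, vn_mul_apply, hfk]
      exact hj
    · refine ⟨fun i => ?_, rfl, fun i => ?_, fun i => ?_, fun a b hab => ?_, ?_⟩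
      · induction i using Fin.cases with
        | zero => exact coverEx_piso (piso_of_isStarProjection hg) hp hpc
        | succ i => exact coverEx_piso (hu i) hp hpc
      · induction i using Fin.cases with
        | zero =>
          change g * p * g = g * p
          rw [mul_assoc, hpc, ← mul_assoc, hgg]
        | succ i =>
          change u i * p * g = u i * p
          rw [mul_assoc, hpc, ← mul_assoc, hug]
      · induction i using Fin.cases with
        | zero =>
          change p * (g * p) = g * p
          rw [hpc, mul_assoc, hpp]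
        | succ i =>
          change p * (u i * p) = u i * p
          rw [hpc, mul_assoc, hpp]
      · induction a using Fin.cases with
        | zero =>
          induction b using Fin.cases with
          | zero => exact absurd rfl hab
          | succ b =>
            change star (g * p) * (u b * p) = 0
            rw [coverEx_star_mul hp hpc, hgs, hgu, zero_mul]
        | succ a =>
          induction b using Fin.cases with
          | zero =>
            change star (u a * p) * (g * p) = 0
            rw [coverEx_star_mul hp hpc, hug', zero_mul]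
          | succ b =>
            change star (u a * p) * (u b * p) = 0
            rw [coverEx_star_mul hp hpc, horth a b fun h => hab (by rw [Fin.ext h]), zero_mul]
      · rw [Fin.sum_univ_succ]
        simp only [Fin.cases_zero, Fin.cases_succ, coverEx_mul_star hp hpc]
        rw [← Finset.sum_mul, Fin.sum_univ_eq_sum_range (fun i => u i * star (u i)), hsum, hgs,
          hgg, sub_mul, sub_mul, hfp, hpdef, ← mul_assoc (r (j + 1)), hrc, zero_mul]
        abel

/-- As `g` is abelian, `g' = (w i)⋆ w i ≤ g` equals `g z i` with `z i` the central cover of `g'`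
(`(g - g') a g' = (g - g') (g a g) g' = 0`). `1 = ∑_S ∏_{i ∈ S} z i ∏_{i ∉ S} (1 - z i)`, so for
some `S` the central projection `c' = c ∏ …` has `ι c' k ≠ 0`; `v i = w i * c'`, `i ∈ S`, is a
system with `e = g c'` in the corner of `c'` (reindex by `Fin S.card`). -/
theorem goodC_of_abelian (hA : Baer A) {c g : A} (hc : IsStarProjection c) (hcc : Cen c)
    (hg : IsStarProjection g) (hab : Abelian g) {n : ℕ} {w : Fin (n + 1) → A} (hw : Cover c g w)
    {k : K} (hk : ι c k ≠ 0) :
    ∃ c' : A, GoodC c' ∧ c * c' = c' ∧ ι c' k ≠ 0 := by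
  classical
  have hgg : g * g = g := hg.isIdempotentElem
  have hgs : star g = g := hg.isSelfAdjoint
  choose z hz1 hz2 hz3 hz4 using fun i => hA.central_cover (star (w i) * w i)
  have hgz : ∀ i, g * z i = star (w i) * w i := fun i => by
    have hq := (hw.piso i).proj
    set q := star (w i) * w i with hqdef
    have h1 : q * g = q := by rw [hqdef, mul_assoc, hw.mul_g]
    have h2 : g * q = q := by
      have := congrArg star h1
      rwa [star_mul, hgs, hq.isSelfAdjoint.star_eq] at this
    have h3 : (g - q) * z i = 0 := hz4 i _ fun a => by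
      have h4 := hab a q
      rw [h2, h1] at h4
      have h5 : (g - q) * g = g - q := by rw [sub_mul, hgg, h1]
      have h6 : (g - q) * q = 0 := by rw [sub_mul, h2, hq.isIdempotentElem.eq, sub_self]
      calc (g - q) * a * q = (g - q) * g * a * (g * q) := by rw [h5, h2]
        _ = (g - q) * (g * a * g * q) := by simp only [mul_assoc]
        _ = 0 := by rw [h4, ← mul_assoc, h6, zero_mul]
    rw [sub_mul, sub_eq_zero] at h3
    rw [h3, ← hz2, hz3]
  obtain ⟨d, hd, hdc, hcd, hdk, hd'⟩ := coverEx_cut z hz1 hz2 hc hcc hk Finset.univ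
  have hdd : d * d = d := hd.isIdempotentElem
  have hmem : ∀ x : A, d * (x * d) * d = x * d := fun x => by
    rw [hdc, mul_assoc x, hdd, mul_assoc, hdd]
  have hzero : ∀ i, z i * d ≠ d → w i * d = 0 := fun i hi => by
    rw [← CStarRing.star_mul_self_eq_zero_iff, coverEx_star_mul hd hdc, ← hgz, mul_assoc,
      (hd' i (Finset.mem_univ i)).resolve_left hi, mul_zero]
  let e : Cn hd := Cn.mk (g * d) (hmem g)
  let v : {i // z i * d = d} → Cn hd := fun i => Cn.mk (w i * d) (hmem _)
  have hsys : Sys v e := by
    refine ⟨(Cn.isStarProjection_iff e).2 ?_, fun a b => Cn.ext ?_, Cn.ext ?_⟩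
    · change IsStarProjection (g * d)
      rw [← hdc]
      exact coverEx_cen_proj hd hg hdc
    · change star (w a * d) * (w b * d) = _
      rw [coverEx_star_mul hd hdc]
      split_ifs with h
      · subst h
        rw [← hgz, mul_assoc, a.2]
        rfl
      · rw [hw.orth a b fun h' => h (Subtype.ext h'), zero_mul]
        rfl
    · rw [Cn.val_sum, Cn.val_one]
      change ∑ a : {i // z i * d = d}, w a * d * star (w a * d) = d
      rw [← Finset.sum_subtype (Finset.univ.filter fun i => z i * d = d) (by simp)
        fun i => w i * d * star (w i * d), Finset.sum_filter_of_ne]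
      · simp only [coverEx_mul_star hd hdc]
        rw [← Finset.sum_mul, hw.sum, hcd]
      · intro i _ hi
        by_contra h
        exact hi (by rw [hzero i h, zero_mul])
  have habe : Abelian e := fun x y => Cn.ext (by
    change g * d * x.val * (g * d) * (g * d * y.val * (g * d))
      = g * d * y.val * (g * d) * (g * d * x.val * (g * d))
    have h1 : ∀ t : A, g * d * t * (g * d) = g * t * g * d := fun t => by
      rw [mul_assoc g d, hdc t, ← mul_assoc g t, mul_assoc (g * t), ← mul_assoc d, hdc g,
        mul_assoc g d, hdd, ← mul_assoc]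
    have h2 : ∀ s t : A, s * d * (t * d) = s * t * d := fun s t => by
      rw [mul_assoc s, ← mul_assoc d, hdc t, mul_assoc t, hdd, mul_assoc]
    rw [h1, h1, h2, h2, hab])
  obtain ⟨m, v', hv'⟩ := coverEx_reindex hsys
  exact ⟨d, ⟨hd, hdc, Or.inr ⟨m, v', e, hv', habe⟩⟩, hcd, hdk⟩

end Crest.Agent.R121
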