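import Crest.Agent.R121.Defs
import Crest.Agent.R124.VN
import Crest.Agent.R124.BaerL

/-! Row 121: properly infinite projections. -/

set_option autoImplicit false

open scoped ComplexOrder InnerProductSpace ComplexConjugate

namespace Crest.Agent.R121

open Crest.Agent.R095 (Tr lt)
open Crest.Agent.R124

variable {A : Type*} [CStarAlgebra A] [PartialOrder A] [StarOrderedRing A]
variable {K : Type*} [NormedAddCommGroup K] [InnerProductSpace ℂ K] [CompleteSpace K]
variable {ι : A →⋆ₐ[ℂ] (K →L[ℂ] K)}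

/-- Strong convergence of a sequence. -/
def cuntz_SL (ι : A →⋆ₐ[ℂ] (K →L[ℂ] K)) (u : ℕ → A) (U : A) : Prop :=
  ∀ k, Filter.Tendsto (fun N => ι (u N) k) Filter.atTop (nhds (ι U k))

omit [PartialOrder A] [StarOrderedRing A] in
lemma cuntz_SL_mul_left {u : ℕ → A} {U : A} (h : cuntz_SL ι u U) (z : A) :
    cuntz_SL ι (fun N => z * u N) (z * U) := fun k => by
  simp only [vn_mul_apply]
  exact ((ι z).continuous.tendsto _).comp (h k)

omit [PartialOrder A] [StarOrderedRing A] in
lemma cuntz_SL_mul_right {u : ℕ → A} {U : A} (h : cuntz_SL ι u U) (z : A) :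
    cuntz_SL ι (fun N => u N * z) (U * z) := fun k => by
  simp only [vn_mul_apply]
  exact h _

omit [PartialOrder A] [StarOrderedRing A] in
lemma cuntz_SL_const (U : A) : cuntz_SL ι (fun _ => U) U := fun _ => tendsto_const_nhds

omit [PartialOrder A] [StarOrderedRing A] in
lemma cuntz_SL_const_add {u : ℕ → A} {U : A} (h : cuntz_SL ι u U) (z : A) :
    cuntz_SL ι (fun N => z + u N) (z + U) := fun k => by
  simp only [map_add, add_apply]
  exact tendsto_const_nhds.add (h k)

omit [PartialOrder A] [StarOrderedRing A] in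
lemma cuntz_SL_succ {u : ℕ → A} {U : A} (h : cuntz_SL ι u U) :
    cuntz_SL ι (fun N => u (N + 1)) U := fun k =>
  (h k).comp (Filter.tendsto_add_atTop_nat 1)

omit [PartialOrder A] [StarOrderedRing A] in
lemma cuntz_SL_unique (hι : IsVN ι) {u v : ℕ → A} {U V : A} (h : cuntz_SL ι u U)
    (h' : cuntz_SL ι v V) (n : ℕ) (huv : ∀ N, n < N → u N = v N) : U = V := by
  refine hι.inj ?_
  ext k
  refine tendsto_nhds_unique (h k) ((h' k).congr' ?_)
  filter_upwards [Filter.Ioi_mem_atTop n] with N hN
  rw [huv N hN]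

/-- Partial sums. -/
noncomputable def cuntz_S (x y : ℕ → A) (N : ℕ) : A := ∑ n ∈ Finset.range N, x n * star (y n)

omit [PartialOrder A] [StarOrderedRing A] in
lemma cuntz_star_S (x y : ℕ → A) (N : ℕ) : star (cuntz_S x y N) = cuntz_S y x N := by
  simp only [cuntz_S, star_sum, star_mul, star_star]

omit [PartialOrder A] [StarOrderedRing A] in
lemma cuntz_mul_e {e : A} (he : IsStarProjection e) {x : ℕ → A}
    (hx : ∀ m n, star (x m) * x n = if m = n then e else 0) (n : ℕ) : x n * e = x n := by
  have h1 : star (x n) * x n = e := by rw [hx, if_pos rfl]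
  have := (Piso.of_proj (u := x n) (by rw [h1]; exact he)).mul_star_mul'
  rwa [h1] at this

omit [PartialOrder A] [StarOrderedRing A] in
lemma cuntz_S_mul {e : A} (he : IsStarProjection e) {x y : ℕ → A}
    (hx : ∀ m n, star (x m) * x n = if m = n then e else 0)
    (hy : ∀ m n, star (y m) * y n = if m = n then e else 0) {N n : ℕ} (hn : n < N) :
    cuntz_S x y N * y n = x n := by
  simp only [cuntz_S, Finset.sum_mul, mul_assoc, hy, mul_ite, mul_zero]
  rw [Finset.sum_ite_eq', if_pos (Finset.mem_range.2 hn), cuntz_mul_e he hx]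

omit [PartialOrder A] [StarOrderedRing A] in
lemma cuntz_mul_S {z : A} {x x' : ℕ → A} (y : ℕ → A) {N : ℕ} (h : ∀ n, n < N → z * x n = x' n) :
    z * cuntz_S x y N = cuntz_S x' y N := by
  unfold cuntz_S
  rw [Finset.mul_sum]
  exact Finset.sum_congr rfl fun n hn => by rw [← mul_assoc, h n (Finset.mem_range.1 hn)]

omit [PartialOrder A] [StarOrderedRing A] in
/-- The ⋆-strong sum `∑ x n * star (y n)`. -/
lemma cuntz_exists_sum (hι : IsVN ι) {e : A} (he : IsStarProjection e) {x y : ℕ → A}
    (hx : ∀ m n, star (x m) * x n = if m = n then e else 0)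
    (hy : ∀ m n, star (y m) * y n = if m = n then e else 0) :
    ∃ U : A, Piso U ∧ cuntz_SL ι (cuntz_S x y) U ∧ cuntz_SL ι (cuntz_S y x) (star U) ∧
      (∀ n, U * y n = x n) ∧ ∀ n, star U * x n = y n := by
  have h1 : ∀ M N, M ≤ N → VnLe (cuntz_S x y M) (cuntz_S x y N) := by
    intro M N hMN
    unfold VnLe
    rw [cuntz_star_S, cuntz_mul_S y fun n hn => cuntz_S_mul he hy hx hn,
      cuntz_mul_S y fun n hn => cuntz_S_mul he hx hy (hn.trans_le hMN)]
  have h2 : ∀ N, Piso (cuntz_S x y N) := fun N => by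
    unfold Piso
    rw [mul_assoc]
    exact h1 N N le_rfl
  obtain ⟨U, hU, -, h3, h4⟩ := hι.vn_exists_ub (cuntz_S x y) h2 h1
  simp only [cuntz_star_S] at h4
  refine ⟨U, hU, h3, h4, fun n => ?_, fun n => ?_⟩
  · exact cuntz_SL_unique hι (cuntz_SL_mul_right h3 (y n)) (cuntz_SL_const (x n)) n
      fun N hN => cuntz_S_mul he hx hy hN
  · exact cuntz_SL_unique hι (cuntz_SL_mul_right h4 (x n)) (cuntz_SL_const (y n)) n
      fun N hN => cuntz_S_mul he hy hx hN

omit [PartialOrder A] [StarOrderedRing A] in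
lemma cuntz_mul_lim (hι : IsVN ι) {z U V : A} {x x' y : ℕ → A} (h : cuntz_SL ι (cuntz_S x y) U)
    (h' : cuntz_SL ι (cuntz_S x' y) V) (hz : ∀ n, z * x n = x' n) : z * U = V :=
  cuntz_SL_unique hι (cuntz_SL_mul_left h z) h' 0 fun _ _ => cuntz_mul_S y fun n _ => hz n

omit [PartialOrder A] [StarOrderedRing A] in
lemma cuntz_SL_zero (y : ℕ → A) : cuntz_SL ι (cuntz_S (fun _ => 0) y) 0 := by
  have : cuntz_S (fun _ => 0) y = fun _ => 0 := by
    ext N; simp [cuntz_S]
  rw [this]
  exact cuntz_SL_const 0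

/-- The sequence `b ^ n * q`. -/
noncomputable def cuntz_x (b q : A) : ℕ → A
  | 0 => q
  | n + 1 => b * cuntz_x b q n

omit [PartialOrder A] [StarOrderedRing A] in
/-- With witnesses `a`, `b`: `q = p - a a⋆ - b b⋆`, and `E` the range projection (`Baer`) of
`{b ^ n * q}`, or the strong limit of `∑_{n < N} b ^ n q (b⋆) ^ n` (`IsVN.vn_exists_ub`). Then
`E = q + b E b⋆`, `E ≤ p`; `s = a`, `t = E + b (p - E)`. -/
theorem cuntz_of_pinf (hι : IsVN ι) {p : A} (hp : IsStarProjection p) (hc : Cen p)
    (h : PInf p) : ∃ s t, Cuntz p s t := by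
  obtain ⟨a, b, haa, hbb, hab, hpa, hpb⟩ := h
  have hpp : p * p = p := hp.isIdempotentElem
  have hps : star p = p := hp.isSelfAdjoint
  have hap : a * p = a := by rw [← hc a, hpa]
  have hbp : b * p = b := by rw [← hc b, hpb]
  have hap' : star a * p = star a := by
    have := congrArg star hpa
    rwa [star_mul, hps] at this
  have hbp' : star b * p = star b := by
    have := congrArg star hpb
    rwa [star_mul, hps] at this
  have hpa' : p * star a = star a := by rw [hc, hap']
  have hpb' : p * star b = star b := by rw [hc, hbp']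
  have hba : star b * a = 0 := by
    have := congrArg star hab
    rwa [star_mul, star_star, star_zero] at this
  obtain ⟨q, hq⟩ : ∃ q, q = p - a * star a - b * star b := ⟨_, rfl⟩
  have hqs : star q = q := by
    rw [hq]; simp only [star_sub, star_mul, star_star, hps]
  have hqa : q * a = 0 := by
    rw [hq, sub_mul, sub_mul, mul_assoc, mul_assoc, haa, hba, hpa, hap, mul_zero, sub_self,
      sub_zero]
  have hqb : q * b = 0 := by
    rw [hq, sub_mul, sub_mul, mul_assoc, mul_assoc, hbb, hab, hpb, hbp, mul_zero, sub_zero,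
      sub_self]
  have hpq : p * q = q := by
    rw [hq, mul_sub, mul_sub, ← mul_assoc, ← mul_assoc, hpa, hpb, hpp]
  have hqp : q * p = q := by rw [← hc, hpq]
  have hqq : q * q = q := by
    nth_rewrite 2 [hq]
    rw [mul_sub, mul_sub, ← mul_assoc, ← mul_assoc, hqa, hqb, hqp, zero_mul, zero_mul, sub_zero,
      sub_zero]
  have hq' : IsStarProjection q := ⟨hqq, hqs⟩
  have hbq : star b * q = 0 := by
    have := congrArg star hqb
    rwa [star_mul, hqs, star_zero] at this
  have haq : star a * q = 0 := by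
    have := congrArg star hqa
    rwa [star_mul, hqs, star_zero] at this
  have hpx : ∀ n, p * cuntz_x b q n = cuntz_x b q n := fun n => by
    cases n with
    | zero => exact hpq
    | succ n => rw [cuntz_x, ← mul_assoc, hpb]
  have hx : ∀ m n, star (cuntz_x b q m) * cuntz_x b q n = if m = n then q else 0 := by
    intro m
    induction m with
    | zero =>
      intro n
      cases n with
      | zero => rw [if_pos rfl, cuntz_x, hqs, hqq]
      | succ n =>
        rw [if_neg (by omega), cuntz_x, cuntz_x, hqs, ← mul_assoc, hqb, zero_mul]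
    | succ m ih =>
      intro n
      cases n with
      | zero =>
        rw [if_neg (by omega), cuntz_x, cuntz_x, star_mul, mul_assoc, hbq, mul_zero]
      | succ n =>
        rw [cuntz_x, cuntz_x, star_mul, mul_assoc, ← mul_assoc (star b), hbb, hpx, ih]
        simp only [Nat.add_right_cancel_iff]
  obtain ⟨E, -, h1, h2, h3, h4⟩ := cuntz_exists_sum hι hq' hx hx
  have hEs : star E = E := cuntz_SL_unique hι h2 h1 0 fun _ _ => rfl
  have hEE : E * E = E := cuntz_mul_lim hι h1 h1 h3
  have hpE : p * E = E := cuntz_mul_lim hι h1 h1 hpx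
  have hEp : E * p = E := by rw [← hc, hpE]
  have hE : E = q + b * E * star b := by
    refine cuntz_SL_unique hι (cuntz_SL_succ h1)
      (cuntz_SL_const_add (cuntz_SL_mul_right (cuntz_SL_mul_left h1 b) (star b)) q) 0
      fun N _ => ?_
    unfold cuntz_S
    rw [Finset.sum_range_succ', add_comm, Finset.mul_sum, Finset.sum_mul]
    congr 1
    · rw [cuntz_x, hqs, hqq]
    · refine Finset.sum_congr rfl fun n _ => ?_
      rw [cuntz_x, star_mul]
      simp only [mul_assoc]
  have hEb : E * b = b * E := by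
    nth_rewrite 1 [hE]
    rw [add_mul, hqb, zero_add, mul_assoc, hbb, mul_assoc, hEp]
  have hEF : E * (p - E) = 0 := by rw [mul_sub, hEp, hEE, sub_self]
  have hFE : (p - E) * E = 0 := by rw [sub_mul, hpE, hEE, sub_self]
  have hFF : (p - E) * (p - E) = p - E := by rw [mul_sub, hFE, sub_zero, sub_mul, hpp, hEp]
  have hpF : p * (p - E) = p - E := by rw [mul_sub, hpp, hpE]
  have hFs : star (p - E) = p - E := by rw [star_sub, hps, hEs]
  have hbE : star b * E = E * star b := by
    have := congrArg star hEb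
    rwa [star_mul, star_mul, hEs] at this
  refine ⟨a, E + b * (p - E), hp, hc, haa, ?_, ?_, ?_⟩
  · rw [star_add, star_mul, hFs, hEs, add_mul, mul_add, mul_add, hEE, ← mul_assoc E, hEb,
      mul_assoc b, hEF, mul_zero, add_zero, mul_assoc (p - E), hbE, ← mul_assoc (p - E), hFE,
      zero_mul, zero_add, mul_assoc (p - E), ← mul_assoc (star b), hbb, hpF, hFF]
    abel
  · rw [mul_add, ← mul_assoc, hab, zero_mul, add_zero, hE, mul_add, haq, ← mul_assoc,
      ← mul_assoc, hab, zero_mul, zero_mul, add_zero]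
  · rw [star_add, star_mul, hFs, hEs, add_mul, mul_add, mul_add, hEE, ← mul_assoc E, hEF,
      zero_mul, add_zero, mul_assoc b, hFE, mul_zero, zero_add, mul_assoc b,
      ← mul_assoc (p - E), hFF, ← mul_assoc b, mul_sub, sub_mul, hbp]
    nth_rewrite 1 [hE]
    rw [hq]
    abel

omit [PartialOrder A] [StarOrderedRing A] in
/-- Suppose `star (v m) * v n = δ e` with `f e = e`; then `f * v n = v n`. The partial sums of
`∑ v n * star (v n)`, `∑ v (2 n) * star (v n)`, `∑ v (2 n + 1) * star (v n)` are `VnLe`-increasing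
partial isometries; their suprema `r`, `a`, `b` (`IsVN.vn_exists_ub`) witness `PInf r`, and
`f r = r`, `r * v 0 = v 0`. -/
theorem finP_of_no_pinf (hι : IsVN ι) {f : A} (hf : IsStarProjection f) (hc : Cen f)
    (h : ∀ r, IsStarProjection r → PInf r → f * r = r → r = 0) : FinP f := by
  have _ := hf
  intro e v he hfe hv
  have hfv : ∀ n, f * v n = v n := fun n => by
    rw [← cuntz_mul_e he hv n, ← mul_assoc, hc, mul_assoc, hfe]
  have hv0 : ∀ m n, star (v (2 * m)) * v (2 * n) = if m = n then e else 0 := fun m n => by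
    rw [hv]; exact if_congr (by omega) rfl rfl
  have hv1 : ∀ m n, star (v (2 * m + 1)) * v (2 * n + 1) = if m = n then e else 0 := fun m n => by
    rw [hv]; exact if_congr (by omega) rfl rfl
  obtain ⟨r, -, r1, -, r3, -⟩ := cuntz_exists_sum hι he hv hv
  obtain ⟨a, ha, a1, a2, -, a4⟩ := cuntz_exists_sum hι he (x := fun n => v (2 * n)) hv0 hv
  obtain ⟨b, -, b1, -, -, b4⟩ := cuntz_exists_sum hι he (x := fun n => v (2 * n + 1)) hv1 hv
  have haa : star a * a = r := cuntz_mul_lim hι a1 r1 a4
  have hbb : star b * b = r := cuntz_mul_lim hι b1 r1 b4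
  have hav : ∀ n, star a * v (2 * n + 1) = 0 := fun n => by
    refine cuntz_SL_unique hι (cuntz_SL_mul_right a2 (v (2 * n + 1))) (cuntz_SL_const 0) 0
      fun N _ => ?_
    unfold cuntz_S
    rw [Finset.sum_mul]
    refine Finset.sum_eq_zero fun m _ => ?_
    rw [mul_assoc, hv, if_neg (by omega), mul_zero]
  have hab : star a * b = 0 := cuntz_mul_lim hι b1 (cuntz_SL_zero v) hav
  have hra : r * a = a := cuntz_mul_lim hι a1 a1 fun n => r3 _
  have hrb : r * b = b := cuntz_mul_lim hι b1 b1 fun n => r3 _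
  have hfr : f * r = r := cuntz_mul_lim hι r1 r1 hfv
  have hr0 := h r (haa ▸ ha.proj) ⟨a, b, haa, hbb, hab, hra, hrb⟩ hfr
  have h0 := hv 0 0
  rw [if_pos rfl, ← r3 0, hr0, zero_mul, mul_zero] at h0
  exact h0.symm

end Crest.Agent.R121
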