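import Crest.Agent.R124.Ex
import Crest.Agent.R124.Corner

/-!
Row 121 (bounded Hochschild cohomology of von Neumann algebras): definitions.

`A` is a C⋆-algebra with a faithful representation `ι` onto a bicommutant (`R124.IsVN`).
-/

set_option autoImplicit false

open scoped ComplexOrder InnerProductSpace ComplexConjugate

namespace Crest.Agent.R121

open Crest.Agent.R095 (Tr lt)
open Crest.Agent.R124

/-! ### Means -/

section mean

/-- Bounded functions. -/
def Bd {X E : Type*} [Norm E] (f : X → E) : Prop := ∃ C : ℝ, ∀ x, ‖f x‖ ≤ C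

/-- A mean on the bounded functions on `X` (extended linearly, in an arbitrary way, to all
functions). -/
structure Mn (X : Type*) where
  /-- the functional -/
  toLin : (X → ℂ) →ₗ[ℂ] ℂ
  re_le' : ∀ f : X → ℂ, Bd f → ∀ c : ℝ, (∀ x, (f x).re ≤ c) → (toLin f).re ≤ c

namespace Mn

variable {X Y : Type*}

noncomputable instance : CoeFun (Mn X) (fun _ => (X → ℂ) → ℂ) := ⟨fun m => m.toLin⟩

lemma re_le (m : Mn X) {f : X → ℂ} (hf : Bd f) {c : ℝ} (h : ∀ x, (f x).re ≤ c) :
    (m f).re ≤ c := m.re_le' f hf c h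

lemma map_add (m : Mn X) (f g : X → ℂ) : m (fun x => f x + g x) = m f + m g :=
  m.toLin.map_add f g

lemma map_sub (m : Mn X) (f g : X → ℂ) : m (fun x => f x - g x) = m f - m g :=
  m.toLin.map_sub f g

lemma map_neg (m : Mn X) (f : X → ℂ) : m (fun x => -f x) = -m f := m.toLin.map_neg f

lemma map_mul_left (m : Mn X) (c : ℂ) (f : X → ℂ) : m (fun x => c * f x) = c * m f :=
  m.toLin.map_smul c f

@[simp] lemma map_zero (m : Mn X) : m (fun _ => 0) = 0 := m.toLin.map_zero

lemma map_sum (m : Mn X) {ι : Type*} (s : Finset ι) (f : ι → X → ℂ) :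
    m (fun x => ∑ i ∈ s, f i x) = ∑ i ∈ s, m (f i) := by
  rw [← _root_.map_sum m.toLin f s]
  congr 1
  ext x
  simp

lemma le_re (m : Mn X) {f : X → ℂ} (hf : Bd f) {c : ℝ} (h : ∀ x, c ≤ (f x).re) :
    c ≤ (m f).re := by
  obtain ⟨C, hC⟩ := hf
  have := m.re_le (f := fun x => -f x) ⟨C, fun x => by simpa using hC x⟩ (c := -c)
    (fun x => by simpa using h x)
  rw [m.map_neg] at this
  simpa using this

lemma norm_le (m : Mn X) {f : X → ℂ} {C : ℝ} (h : ∀ x, ‖f x‖ ≤ C) : ‖m f‖ ≤ C := by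
  obtain ⟨c, hc, hc'⟩ : ∃ c : ℂ, ‖c‖ = 1 ∧ c * m f = ‖m f‖ := by
    by_cases h0 : m f = 0
    · exact ⟨1, by simp, by simp [h0]⟩
    · refine ⟨conj (m f) / ‖m f‖, ?_, ?_⟩
      · rw [norm_div, Complex.norm_conj, Complex.norm_real, norm_norm,
          div_self (norm_ne_zero_iff.2 h0)]
      · have h1 : (‖m f‖ : ℂ) ≠ 0 := by exact_mod_cast norm_ne_zero_iff.2 h0
        rw [div_mul_eq_mul_div, Complex.conj_mul', div_eq_iff h1, sq]
  have h1 : ∀ x, ‖c * f x‖ ≤ C := fun x => by rw [norm_mul, hc, one_mul]; exact h x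
  have := m.re_le (f := fun x => c * f x) ⟨C, h1⟩ (c := C)
    (fun x => (Complex.re_le_norm _).trans (h1 x))
  rwa [m.map_mul_left, hc', Complex.ofReal_re] at this

@[simp] lemma map_const (m : Mn X) (c : ℂ) : m (fun _ => c) = c := by
  have hb : ∀ d : ℂ, Bd (fun _ : X => d) := fun d => ⟨‖d‖, fun _ => le_rfl⟩
  have h1 : ∀ d : ℂ, (m fun _ => d).re = d.re := fun d =>
    le_antisymm (m.re_le (hb d) fun _ => le_rfl) (m.le_re (hb d) fun _ => le_rfl)
  refine Complex.ext (h1 c) ?_
  have h2 := h1 (Complex.I * c)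
  rw [m.map_mul_left] at h2
  simpa using h2

/-- The real part of the mean only depends on the real part of the function. -/
lemma re_eq (m : Mn X) {f : X → ℂ} (hf : Bd f) :
    (m f).re = (m fun x => ((f x).re : ℂ)).re := by
  obtain ⟨C, hC⟩ := hf
  have hb : Bd (fun x => f x - ((f x).re : ℂ)) := ⟨C + C, fun x =>
    (norm_sub_le _ _).trans (add_le_add (hC x) (by
      rw [Complex.norm_real]; exact (Complex.abs_re_le_norm _).trans (hC x)))⟩
  have h1 := m.re_le hb (c := 0) (fun x => by simp)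
  have h2 := m.le_re hb (c := 0) (fun x => by simp)
  rw [m.map_sub, Complex.sub_re] at h1 h2
  linarith

/-- A uniform finite average. -/
noncomputable def ofEx {Ω : Type*} [Fintype Ω] [Nonempty Ω] (s : Ω → X) : Mn X where
  toLin :=
    { toFun := fun f => ex fun ω => f (s ω)
      map_add' := fun f g => ex_add _ _
      map_smul' := fun c f => ex_complex_smul c fun ω => f (s ω) }
  re_le' := fun f _ c h => by
    change (ex fun ω => f (s ω)).re ≤ c
    rw [re_ex]
    exact ex_le_const fun ω => h _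

@[simp] lemma ofEx_apply {Ω : Type*} [Fintype Ω] [Nonempty Ω] (s : Ω → X) (f : X → ℂ) :
    ofEx s f = ex fun ω => f (s ω) := rfl

/-- The point mass. -/
noncomputable def pt (x : X) : Mn X where
  toLin := LinearMap.proj x
  re_le' := fun _ _ _ h => h x

@[simp] lemma pt_apply (x : X) (f : X → ℂ) : pt x f = f x := rfl

/-- Two-stage means. -/
noncomputable def bind (m : Mn X) (k : X → Mn Y) : Mn Y where
  toLin :=
    { toFun := fun f => m fun x => k x f
      map_add' := fun f g => by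
        rw [← m.map_add]
        congr 1
        ext x
        exact (k x).toLin.map_add f g
      map_smul' := fun c f => by
        rw [RingHom.id_apply, smul_eq_mul, ← m.map_mul_left]
        congr 1
        ext x
        exact (k x).toLin.map_smul c f }
  re_le' := fun f hf c h => by
    obtain ⟨C, hC⟩ := hf
    exact m.re_le ⟨C, fun x => (k x).norm_le hC⟩ fun x => (k x).re_le ⟨C, hC⟩ h

@[simp] lemma bind_apply (m : Mn X) (k : X → Mn Y) (f : Y → ℂ) :
    m.bind k f = m fun x => k x f := rfl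

/-- Push-forward. -/
noncomputable def map (φ : X → Y) (m : Mn X) : Mn Y := m.bind fun x => pt (φ x)

@[simp] lemma map_apply (φ : X → Y) (m : Mn X) (f : Y → ℂ) :
    m.map φ f = m fun x => f (φ x) := rfl

end Mn

end mean

/-! ### Algebra-valued averages -/

section avg

variable {X : Type*} {A : Type*} [CStarAlgebra A]
variable {K : Type*} [NormedAddCommGroup K] [InnerProductSpace ℂ K] [CompleteSpace K]

/-- An abstract average of bounded `A`-valued functions. -/
structure Avg (W : (X → A) →ₗ[ℂ] A) : Prop where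
  const : ∀ a : A, W (fun _ => a) = a
  norm_le : ∀ (F : X → A) (C : ℝ), (∀ x, ‖F x‖ ≤ C) → ‖W F‖ ≤ C
  mul_left : ∀ (a : A) (F : X → A), Bd F → W (fun x => a * F x) = a * W F
  mul_right : ∀ (a : A) (F : X → A), Bd F → W (fun x => F x * a) = W F * a

/-- `W` is the weak-operator average associated with the mean `m`. -/
def IsW (ι : A →⋆ₐ[ℂ] (K →L[ℂ] K)) (m : Mn X) (W : (X → A) →ₗ[ℂ] A) : Prop :=
  ∀ F : X → A, Bd F → ∀ η ξ : K, ⟪η, ι (W F) ξ⟫_ℂ = m fun x => ⟪η, ι (F x) ξ⟫_ℂ

end avg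

/-! ### Cochains on lists -/

section bar

variable {A : Type*} [CStarAlgebra A]

/-- The bar differential `∑ j, (-1) ^ j G (…, x j * x (j + 1), …)`. -/
def bar : (List A → A) → List A → A
  | G, x :: y :: t => G (x * y :: t) - bar (fun l => G (x :: l)) (y :: t)
  | _, _ => 0

@[simp] lemma bar_nil (G : List A → A) : bar G [] = 0 := by simp [bar]
@[simp] lemma bar_single (G : List A → A) (x : A) : bar G [x] = 0 := by simp [bar]
lemma bar_cons (G : List A → A) (x y : A) (t : List A) :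
    bar G (x :: y :: t) = G (x * y :: t) - bar (fun l => G (x :: l)) (y :: t) := by simp [bar]

/-- The product of the norms. -/
noncomputable def nprod (l : List A) : ℝ := (l.map fun x => ‖x‖).prod

/-- `G` is multilinear and bounded by `C` on the lists of length `N`. -/
structure ML (G : List A → A) (N : ℕ) (C : ℝ) : Prop where
  nonneg : 0 ≤ C
  lin : ∀ l r : List A, l.length + r.length + 1 = N → IsLinearMap ℂ fun x => G (l ++ x :: r)
  bound : ∀ l : List A, l.length = N → ‖G l‖ ≤ C * nprod l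

/-- `G` is a left module map in the first argument. -/
def LM (G : List A → A) (N : ℕ) : Prop :=
  ∀ (a x : A) (r : List A), r.length + 1 = N → G (a * x :: r) = a * G (x :: r)

/-- `G` is a right module map in the last argument. -/
def RM (G : List A → A) (N : ℕ) : Prop :=
  ∀ (l : List A) (x a : A), l.length + 1 = N → G (l ++ [x * a]) = G (l ++ [x]) * a

/-- The elements of `S` can be moved across every comma. -/
def Bal (G : List A → A) (N : ℕ) (S : Set A) : Prop :=
  ∀ a ∈ S, ∀ (l r : List A) (x y : A), l.length + r.length + 2 = N →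
    G (l ++ x * a :: y :: r) = G (l ++ x :: a * y :: r)

/-- A bounded multilinear bimodule map. -/
structure Coch (G : List A → A) (N : ℕ) (C : ℝ) : Prop where
  ml : ML G N C
  lm : LM G N
  rm : RM G N

/-- `G` is a cocycle on the lists of length `N`. -/
def Cyc (G : List A → A) (N : ℕ) : Prop := ∀ l : List A, l.length = N + 1 → bar G l = 0

/-- Pairs of contractions with product `1`. -/
def Pair (A : Type*) [CStarAlgebra A] : Type _ :=
  {q : A × A // ‖q.1‖ ≤ 1 ∧ ‖q.2‖ ≤ 1 ∧ q.1 * q.2 = 1}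

/-- `W` is a virtual diagonal for the set `S`. -/
def Diag (W : (Pair A → A) →ₗ[ℂ] A) (S : Set A) : Prop :=
  ∀ (Φ : A →ₗ[ℂ] A →ₗ[ℂ] A) (C : ℝ), (∀ x y, ‖Φ x y‖ ≤ C * ‖x‖ * ‖y‖) → ∀ a ∈ S,
    W (fun q => Φ (a * q.1.1) q.1.2) = W (fun q => Φ q.1.1 (q.1.2 * a))

/-- The averaging map `ρ`, on the class `Adm` of maps `A → A` (`Adm T C`: `T` is admissible
with constant `C`). -/
structure Rho (Adm : (A → A) → ℝ → Prop) (ρ : (A → A) →ₗ[ℂ] A) : Prop where
  norm_le : ∀ T C, Adm T C → ‖ρ T‖ ≤ C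
  left : ∀ T C, Adm T C → ∀ a : A, ρ (fun y => a * T y) = a * ρ T
  right : ∀ T C, Adm T C → ∀ a : A, ρ (fun y => T (a * y)) = ρ T * a
  one : ∀ c : A, ρ (fun y => c * y) = c

/-- A linear map bounded by `C`. -/
structure BL (T : A → A) (C : ℝ) : Prop where
  lin : IsLinearMap ℂ T
  nonneg : 0 ≤ C
  bound : ∀ y, ‖T y‖ ≤ C * ‖y‖

/-- Central elements. -/
def Cen (a : A) : Prop := ∀ x : A, a * x = x * a

/-- Cuntz isometries in a central summand. -/
structure Cuntz (p s t : A) : Prop where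
  proj : IsStarProjection p
  cen : Cen p
  ss : star s * s = p
  tt : star t * t = p
  st : star s * t = 0
  sum : s * star s + t * star t = p

end bar

/-! ### Completely bounded maps and Kraus families -/

section cb

variable {A : Type*} [CStarAlgebra A]
variable {K : Type*} [NormedAddCommGroup K] [InnerProductSpace ℂ K] [CompleteSpace K]

/-- Completely bounded linear maps `A → A`. -/
structure IsCB [PartialOrder A] (ι : A →⋆ₐ[ℂ] (K →L[ℂ] K)) (T : A → A) (C : ℝ) : Prop where
  lin : IsLinearMap ℂ T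
  nonneg : 0 ≤ C
  cb : ∀ (I J : Type) [Fintype I] [Fintype J] (x : I → J → A), MatLe x → ∀ ξ : J → K,
    ∑ i, ‖∑ j, ι (T (x i j)) (ξ j)‖ ^ 2 ≤ C ^ 2 * ∑ j, ‖ξ j‖ ^ 2

/-- Finite Kraus families. -/
structure Kr (A : Type*) [CStarAlgebra A] where
  /-- the index type -/
  I : Type
  [fin : Fintype I]
  /-- the Kraus operators -/
  m : I → A
  sum : ∑ i, star (m i) * m i = 1

attribute [instance] Kr.fin

namespace Kr

/-- The action on maps. -/
noncomputable def act (P : Kr A) (T : A → A) (x : A) : A := ∑ i, T (x * star (P.m i)) * P.m i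

/-- The unital completely positive map. -/
noncomputable def ch (P : Kr A) (y : A) : A := ∑ i, star (P.m i) * y * P.m i

/-- Composition (`P` acts last on maps). -/
noncomputable def comp (P Q : Kr A) : Kr A where
  I := P.I × Q.I
  m := fun q => Q.m q.2 * P.m q.1
  sum := by
    rw [Fintype.sum_prod_type, ← P.sum]
    refine Finset.sum_congr rfl fun i _ => ?_
    have : ∀ j, star (Q.m j * P.m i) * (Q.m j * P.m i)
        = star (P.m i) * (star (Q.m j) * Q.m j) * P.m i := fun j => by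
      rw [star_mul]; noncomm_ring
    simp only [this]
    rw [← Finset.sum_mul, ← Finset.mul_sum, Q.sum, mul_one]

lemma act_comp (P Q : Kr A) (T : A → A) : (P.comp Q).act T = P.act (Q.act T) := by
  ext x
  change ∑ q : P.I × Q.I, T (x * star (Q.m q.2 * P.m q.1)) * (Q.m q.2 * P.m q.1) = _
  simp only [act, Fintype.sum_prod_type, Finset.sum_mul, star_mul, mul_assoc]

lemma ch_comp (P Q : Kr A) (y : A) : (P.comp Q).ch y = P.ch (Q.ch y) := by
  change ∑ q : P.I × Q.I, star (Q.m q.2 * P.m q.1) * y * (Q.m q.2 * P.m q.1) = _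
  simp only [ch, Fintype.sum_prod_type, Finset.sum_mul, Finset.mul_sum, star_mul, mul_assoc]

end Kr

/-- The action of a list of Kraus families (the head acts last). -/
noncomputable def actL : List (Kr A) → (A → A) → A → A
  | [], T => T
  | P :: ps, T => P.act (actL ps T)

/-- The total energy released along a list of Kraus families, measured by `ω`. -/
noncomputable def En (T : A → A) : List (Kr A) → (A → ℝ) → ℝ
  | [], _ => 0
  | P :: ps, ω =>
    (∑ i, ω (star (actL ps T 1 * P.m i - actL (P :: ps) T (P.m i))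
      * (actL ps T 1 * P.m i - actL (P :: ps) T (P.m i)))) + En T ps fun y => ω (P.ch y)

/-- A finite sum of vector functionals. -/
noncomputable def vs (ι : A →⋆ₐ[ℂ] (K →L[ℂ] K)) {J : Type*} [Fintype J] (ξ : J → K) (y : A) : ℂ :=
  ∑ j, ⟪ξ j, ι y (ξ j)⟫_ℂ

end cb

/-! ### Structure theory -/

section struct

variable {A : Type*} [CStarAlgebra A]
variable {K : Type*} [NormedAddCommGroup K] [InnerProductSpace ℂ K] [CompleteSpace K]

/-- The projection `r` is properly infinite. -/
def PInf (r : A) : Prop :=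
  ∃ a b : A, star a * a = r ∧ star b * b = r ∧ star a * b = 0 ∧ r * a = a ∧ r * b = b

/-- No nonzero projection under `f` has infinitely many orthogonal copies. -/
def FinP (f : A) : Prop :=
  ∀ (e : A) (v : ℕ → A), IsStarProjection e → f * e = e →
    (∀ m n, star (v m) * v n = if m = n then e else 0) → e = 0

/-- `c` is covered by finitely many subequivalents of `g`, the first of them being `g c`. -/
structure Cover {n : ℕ} (c g : A) (w : Fin (n + 1) → A) : Prop where
  piso : ∀ i, Piso (w i)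
  zero : w 0 = g * c
  mul_g : ∀ i, w i * g = w i
  c_mul : ∀ i, c * w i = w i
  orth : ∀ i j, i ≠ j → star (w i) * w j = 0
  sum : ∑ i, w i * star (w i) = c

/-- A central projection whose summand is of type II₁-like (halving) or of type Iₙ. -/
def GoodC (c : A) : Prop :=
  ∃ hc : IsStarProjection c, Cen c ∧ (Halving (Cn hc) ∨
    ∃ (n : ℕ) (v : Fin n → Cn hc) (e : Cn hc), Sys v e ∧ Abelian e)

/-- The vector `ξ` is dominated by a trace. -/
def TD (ι : A →⋆ₐ[ℂ] (K →L[ℂ] K)) (ξ : K) : Prop :=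
  ∃ (τ : Tr A) (C : ℝ), 0 ≤ C ∧ ∀ x, ‖ι x ξ‖ ≤ C * τ.n2 x

/-- The good vectors. -/
def GV (ι : A →⋆ₐ[ℂ] (K →L[ℂ] K)) (ξ : K) : Prop := TD ι ξ ∧ ∃ c, GoodC c ∧ ι c ξ = ξ

end struct

/-! ### Bilinear forms -/

section form

variable {Q : Type*} [CStarAlgebra Q]

/-- Bilinear forms. -/
abbrev Fm (Q : Type*) [CStarAlgebra Q] : Type _ := Q →ₗ[ℂ] Q →ₗ[ℂ] ℂ

/-- The `L^∞ × L^∞` bound. -/
def B0 (β : Fm Q) (C : ℝ) : Prop := ∀ z z', ‖β z z'‖ ≤ C * ‖z‖ * ‖z'‖

/-- The `L^∞ × L¹` bound. -/
def B1 (τ : Tr Q) (β : Fm Q) (C : ℝ) : Prop :=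
  ∀ z x y, ‖β z (x * y)‖ ≤ C * ‖z‖ * τ.n2 x * τ.n2 y

/-- The `L² × L²` bound. -/
def B2 (τ : Tr Q) (β : Fm Q) (C : ℝ) : Prop := ∀ z z', ‖β z z'‖ ≤ C * τ.n2 z * τ.n2 z'

/-- Averaging a form over the unitary group. -/
noncomputable def avg (β : Fm Q) (m : Mn (unitary Q)) : Fm Q :=
  LinearMap.mk₂ ℂ (fun z z' => m fun u => β (z * star (u : Q)) ((u : Q) * z'))
    (fun a b c => by rw [← m.map_add]; simp only [add_mul, map_add, LinearMap.add_apply])
    (fun c a b => by
      rw [smul_eq_mul, ← m.map_mul_left]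
      simp only [smul_mul_assoc, map_smul, LinearMap.smul_apply, smul_eq_mul])
    (fun a b c => by rw [← m.map_add]; simp only [mul_add, map_add])
    (fun c a b => by
      rw [smul_eq_mul, ← m.map_mul_left]; simp only [mul_smul_comm, map_smul, smul_eq_mul])

lemma avg_apply (β : Fm Q) (m : Mn (unitary Q)) (z z' : Q) :
    avg β m z z' = m fun u => β (z * star (u : Q)) ((u : Q) * z') := rfl

/-- Convolution: first average over `m₁`, then over `m₂`. -/
noncomputable def conv (m₁ m₂ : Mn (unitary Q)) : Mn (unitary Q) :=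
  m₂.bind fun v => m₁.map fun w => w * v

lemma avg_avg (β : Fm Q) (m₁ m₂ : Mn (unitary Q)) : avg (avg β m₁) m₂ = avg β (conv m₁ m₂) := by
  ext z z'
  simp only [avg_apply, conv, Mn.bind_apply, Mn.map_apply, Submonoid.coe_mul, star_mul, mul_assoc]

/-- The function `u ↦ β u⋆ u`. -/
noncomputable def gam (β : Fm Q) (u : Q) : ℂ := β (star u) u

lemma gam_avg (β : Fm Q) (m : Mn (unitary Q)) (u : Q) :
    gam (avg β m) u = m fun v => gam β ((v : Q) * u) := by
  simp only [gam, avg_apply, star_mul]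

/-- `gam β` is constant on the unitary group. -/
def Flat (β : Fm Q) : Prop := ∀ u ∈ unitary Q, gam β u = gam β 1

/-- The class of forms that are handled by unitary averaging. -/
def Cls (β : Fm Q) : Prop :=
  ∃ (c : Q) (τ : Tr Q) (C : ℝ), GoodC c ∧ 0 ≤ C ∧ B1 τ β C ∧ ∀ z z', β z (c * z') = β z z'

/-- The 2-norm distance to the span of the commutators. -/
noncomputable def dcs (τ : Tr Q) (Y : Q) : ℝ := ⨅ z : commSpan Q, τ.n2 (Y - z)

/-- Products of at most `D` elements of `S`. -/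
def words (S : Set Q) (D : ℕ) : Set Q :=
  {y | ∃ l : List Q, l.length ≤ D ∧ (∀ x ∈ l, x ∈ S) ∧ l.prod = y}

/-- A random unitary `g` built from a large system of matrix units. -/
structure Des (τ : Tr Q) (η : ℝ) {Δ : Type} [Fintype Δ] (g : Δ → Q) (V : Set Q) : Prop where
  unit : ∀ δ, g δ ∈ unitary Q
  mem : ∀ δ, g δ ∈ V
  phase : ∃ e : Δ ≃ Δ, ∀ δ, g (e δ) = Complex.I • g δ
  small : ∀ Y ∈ unitary Q, ex (fun δ => dcs τ (g δ * Y)) ≤ η ^ 2
  units : ∃ (ι : Type) (_ : Fintype ι) (_ : DecidableEq ι) (_ : Nonempty ι) (G : ι → ι → Q)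
    (l : ι → Q), (Fintype.card ι : ℝ)⁻¹ ≤ η ^ 4 ∧ (∀ i, IsStarProjection (l i)) ∧
    (∀ i j k, G i j * star (G i k) = if j = k then l i else 0) ∧
    (∀ i, τ.n2 (l i) ^ 2 = (Fintype.card ι : ℝ)⁻¹) ∧
    (∀ i, (Fintype.card ι : ℂ) • l i ∈ V) ∧ (∀ i, dcs τ ((Fintype.card ι : ℂ) • l i) ≤ 1) ∧
    ∀ Φ : Fm Q, ex (fun δ => Φ (star (g δ)) (g δ))
      = (Fintype.card ι : ℂ)⁻¹ * ∑ i, ∑ j, Φ (star (G i j)) (G i j)

/-- Conjugation by the random unitary `g` is a Dixmier average for the elements of `F`. -/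
def Ad (τ : Tr Q) (η : ℝ) {Δ : Type} [Fintype Δ] (g : Δ → Q) (F : Set Q) : Prop :=
  ∀ Y ∈ F, τ.n2 (ex fun δ => g δ * Y * star (g δ)) ≤ dcs τ Y + η ^ 2

/-- A hierarchical system of independent random letters. -/
structure LS (τ : Tr Q) (η : ℝ) {α : Type} [Fintype α] [LinearOrder α] {Δ : α → Type}
    [∀ a, Fintype (Δ a)] (g : ∀ a, Δ a → Q) (V : α → Set Q) : Prop where
  nonneg : 0 ≤ η
  le_one : η ≤ 1
  des : ∀ a e, Des τ η (fun δ => lt (g a δ) e) (V a)
  ad : ∀ a e, Ad τ η (fun δ => lt (g a δ) e)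
    (words {x | ∃ b, b < a ∧ x ∈ V b} (2 * Fintype.card α + 2))

variable {α : Type}

/-- The value of a word. -/
noncomputable def ev (g : α → Q) (l : List (α × Bool)) : Q := (l.map fun x => lt (g x.1) x.2).prod

@[simp] lemma ev_nil (g : α → Q) : ev g [] = 1 := rfl
@[simp] lemma ev_cons (g : α → Q) (x : α × Bool) (l : List (α × Bool)) :
    ev g (x :: l) = lt (g x.1) x.2 * ev g l := by simp [ev]
@[simp] lemma ev_append (g : α → Q) (l l' : List (α × Bool)) :
    ev g (l ++ l') = ev g l * ev g l' := by simp [ev]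

/-- The letters of a word. -/
def lets (l : List (α × Bool)) : List α := l.map Prod.fst

variable [DecidableEq α]

/-- The exponent sum of the letter `a`. -/
def expo (a : α) (l : List (α × Bool)) : ℤ :=
  (l.map fun x => if x.1 = a then (if x.2 then (1 : ℤ) else -1) else 0).sum

/-- The number of occurrences of the letter `a` in the reduced words of `w` and `w'`. -/
def cnt (a : α) (w w' : FreeGroup α) : ℕ := (lets w.toWord).count a + (lets w'.toWord).count a

/-- The pairs of words that are estimated in `ℓ¹`. -/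
def Bad (w w' : FreeGroup α) : Prop := (∀ a, Even (cnt a w w')) ∧ ∃ a, 3 ≤ cnt a w w'

omit [DecidableEq α] in
/-- A letter occurs twice in `l`, with distinct letters in between, and nowhere else. -/
def LForm (l l' : List (α × Bool)) : Prop :=
  ∃ (l₁ m l₂ : List (α × Bool)) (a : α) (e : Bool), l = l₁ ++ (a, e) :: m ++ (a, !e) :: l₂ ∧
    m ≠ [] ∧ (lets m).Nodup ∧ a ∉ lets (l₁ ++ m ++ l₂ ++ l')

omit [DecidableEq α] in
/-- Two letters occur in opposite orders in `l` and `l'`; the larger one, `x`, is also larger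
than the letters between them in `l`. -/
def XForm [LT α] (l l' : List (α × Bool)) : Prop :=
  ∃ (l₁ m l₂ l₁' m' l₂' : List (α × Bool)) (x v : α × Bool), v.1 < x.1 ∧ (∀ y ∈ m, y.1 < x.1) ∧
    (lets m).Nodup ∧ x.1 ∉ lets (l₁ ++ m ++ l₂ ++ l₁' ++ m' ++ l₂') ∧
    v.1 ∉ lets (l₁ ++ m ++ l₂ ++ l₁' ++ m' ++ l₂') ∧
    ((l = l₁ ++ x :: m ++ v :: l₂ ∧ l' = l₁' ++ v :: m' ++ x :: l₂') ∨
      (l = l₁ ++ v :: m ++ x :: l₂ ∧ l' = l₁' ++ x :: m' ++ v :: l₂'))

/-- The reduced word of `w` ends with a letter of type `true`. -/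
def EndsIn (ty : α → Bool) (w : FreeGroup α) : Prop :=
  ∃ (l : List (α × Bool)) (x : α × Bool), w.toWord = l ++ [x] ∧ ty x.1 = true

omit [DecidableEq α] in
/-- The coefficients of the second-order Taylor polynomial of `exp (i θ (g + g⁻¹))`. -/
noncomputable def tay (θ : ℝ) (k : ℤ) : ℂ :=
  if k = 0 then 1 - (θ : ℂ) ^ 2 else if k = 1 ∨ k = -1 then Complex.I * θ
  else if k = 2 ∨ k = -2 then -(θ : ℂ) ^ 2 / 2 else 0

omit [DecidableEq α] in
/-- The Taylor polynomial in the group algebra. -/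
noncomputable def Vh (θ : ℝ) (a : α) : MonoidAlgebra ℂ (FreeGroup α) :=
  ∑ k ∈ Finset.Icc (-2 : ℤ) 2, MonoidAlgebra.single (FreeGroup.of a ^ k) (tay θ k)

omit [DecidableEq α] in
/-- The product of the Taylor polynomials along a list of letters. -/
noncomputable def xi (θ : ℝ) (ps : List α) : MonoidAlgebra ℂ (FreeGroup α) :=
  (ps.map (Vh θ)).prod

/-- The Taylor polynomial in the algebra. -/
noncomputable def Vq (θ : ℝ) (x : Q) : Q :=
  tay θ 0 • (1 : Q) + tay θ 1 • (x + star x) + tay θ 2 • (x * x + star x * star x)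

omit [DecidableEq α] in
/-- The list of positions: `k` rounds of `P` followed by `P'`. -/
def rounds (P P' : List α) (k : ℕ) : List α := (List.replicate k (P ++ P')).flatten

omit [DecidableEq α] in
/-- The `ℓ¹` norm of the coefficients. -/
noncomputable def l1 (ξ : MonoidAlgebra ℂ (FreeGroup α)) : ℝ :=
  ∑ w ∈ ξ.coeff.support, ‖ξ.coeff w‖

omit [DecidableEq α] in
/-- The squared `ℓ²` norm of the coefficients. -/
noncomputable def l2 (ξ : MonoidAlgebra ℂ (FreeGroup α)) : ℝ :=
  ∑ w ∈ ξ.coeff.support, ‖ξ.coeff w‖ ^ 2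

open Classical in
/-- The `ℓ¹` mass of the bad pairs. -/
noncomputable def badSum (ξ : MonoidAlgebra ℂ (FreeGroup α)) : ℝ :=
  ∑ w ∈ ξ.coeff.support, ∑ w' ∈ ξ.coeff.support,
    if Bad w w' then ‖ξ.coeff w‖ * ‖ξ.coeff w'‖ else 0

open Classical in
/-- The `ℓ²` mass of the words that do not end with a letter of type `true`. -/
noncomputable def endMass (ty : α → Bool) (ξ : MonoidAlgebra ℂ (FreeGroup α)) : ℝ :=
  ∑ w ∈ ξ.coeff.support, if EndsIn ty w then 0 else ‖ξ.coeff w‖ ^ 2

/-- Evaluation of an element of the group algebra. -/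
noncomputable def evA (g : α → Q) (ξ : MonoidAlgebra ℂ (FreeGroup α)) : Q :=
  ∑ w ∈ ξ.coeff.support, ξ.coeff w • ev g w.toWord

/-- A finite average of right translates of `re (gam β)` is at least `a`. -/
def Up (β : Fm Q) (a : ℝ) : Prop :=
  ∃ (Ω : Type) (_ : Fintype Ω) (_ : Nonempty Ω) (s : Ω → Q), (∀ ω, s ω ∈ unitary Q) ∧
    ∀ u ∈ unitary Q, a ≤ ex fun ω => (gam β (u * s ω)).re

/-- What the expansion needs to know about the random letters. -/
structure Let1 (β : Fm Q) (ty : α → Bool) (a η : ℝ) {Ω : Type} [Fintype Ω] (g : Ω → α → Q) :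
    Prop where
  unit : ∀ ω x, g ω x ∈ unitary Q
  off : ∀ w w' : FreeGroup α, w ≠ w' → ¬Bad w w' →
    ‖ex fun ω => β (star (ev (g ω) w.toWord)) (ev (g ω) w'.toWord)‖ ≤ η
  up : ∀ (l : List (α × Bool)) (x : α × Bool), x.1 ∉ lets l → ty x.1 = true →
    a ≤ ex fun ω => (gam β (ev (g ω) (l ++ [x]))).re

end form

/-- A random unitary matrix with orthogonal entries. -/
structure UDes {ι Δ : Type*} [Fintype ι] [DecidableEq ι] [Fintype Δ] (c : Δ → ι → ι → ℂ) :
    Prop where
  col : ∀ δ i j, ∑ k, conj (c δ k i) * c δ k j = if i = j then 1 else 0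
  row : ∀ δ i j, ∑ k, c δ i k * conj (c δ j k) = if i = j then 1 else 0
  mom : ∀ i j k l, ex (fun δ => conj (c δ i j) * c δ k l)
    = if i = k ∧ j = l then (Fintype.card ι : ℂ)⁻¹ else 0
  phase : ∃ e : Δ ≃ Δ, ∀ δ i j, c (e δ) i j = Complex.I * c δ i j

end Crest.Agent.R121
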