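import Crest.Agent.R121.Basic

/-! Row 121: random unitary matrices with orthogonal entries. -/

set_option autoImplicit false

open scoped ComplexOrder InnerProductSpace ComplexConjugate

namespace Crest.Agent.R121

open Crest.Agent.R095 (Tr lt)
open Crest.Agent.R124

/-- The fourth roots of unity. -/
noncomputable def designRt (k : ZMod 4) : ℂ := Complex.I ^ k.val

lemma designRt_succ (k : ZMod 4) : designRt (k + 1) = Complex.I * designRt k := by
  fin_cases k
  · change Complex.I ^ 1 = Complex.I * Complex.I ^ 0
    simp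
  · change Complex.I ^ 2 = Complex.I * Complex.I ^ 1
    ring
  · change Complex.I ^ 3 = Complex.I * Complex.I ^ 2
    ring
  · change Complex.I ^ 0 = Complex.I * Complex.I ^ 3
    rw [← pow_succ', Complex.I_pow_four, pow_zero]

lemma designRt_conj (k : ZMod 4) : conj (designRt k) * designRt k = 1 := by
  rw [Complex.conj_mul', designRt]
  simp

/-- With `L = card ι`, `e : ι ≃ ZMod L` (or `Fin L`), `Δ = ZMod L × (ι → ZMod 4)`,
`c (s, k) i j = if e i = e j + s then I ^ (k j) else 0`; the phase equivalence is
`k ↦ k + 1`. (Any other construction is fine.) -/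
theorem exists_udes (ι : Type) [Fintype ι] [DecidableEq ι] [Nonempty ι] :
    ∃ (Δ : Type) (_ : Fintype Δ) (_ : Nonempty Δ) (c : Δ → ι → ι → ℂ), UDes c := by
  obtain ⟨n, ⟨e⟩⟩ : ∃ n, Nonempty (ι ≃ ZMod (n + 1)) :=
    ⟨Fintype.card ι - 1, ⟨Fintype.equivOfCardEq (by
      have := Fintype.card_pos (α := ι)
      rw [ZMod.card]; omega)⟩⟩
  refine ⟨ZMod (n + 1) × (ι → ZMod 4), inferInstance, inferInstance,
    fun δ i j => if e i = e j + δ.1 then designRt (δ.2 j) else 0, ?_, ?_, ?_, ?_⟩
  · rintro ⟨s, k⟩ i j
    rw [Finset.sum_eq_single (e.symm (e i + s))]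
    · by_cases h : i = j
      · subst h
        simp [designRt_conj]
      · simp [h]
    · intro b _ hb
      have : ¬e b = e i + s := fun h => hb (by rw [← h, Equiv.symm_apply_apply])
      simp [this]
    · simp
  · rintro ⟨s, k⟩ i j
    rw [Finset.sum_eq_single (e.symm (e i - s))]
    · by_cases h : i = j
      · subst h
        simp [mul_comm (designRt _), designRt_conj]
      · have : ¬j = i := fun h' => h h'.symm
        simp [h, this]
    · intro b _ hb
      have : ¬e i = e b + s := fun h => hb (by rw [h, add_sub_cancel_right, Equiv.symm_apply_apply])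
      simp [this]
    · simp
  · intro i j k l
    by_cases hjl : j = l
    · subst hjl
      by_cases hik : i = k
      · subst hik
        rw [ex_prod]
        have h1 : ∀ (s : ZMod (n + 1)) (κ : ι → ZMod 4),
            conj (if e i = e j + s then designRt (κ j) else 0)
              * (if e i = e j + s then designRt (κ j) else 0)
            = if s = e i - e j then 1 else 0 := fun s κ => by
          by_cases h : e i = e j + s
          · rw [if_pos h, designRt_conj, if_pos (by rw [h, add_sub_cancel_left])]
          · rw [if_neg h, mul_zero, if_neg fun h' => h (by rw [h', add_sub_cancel])]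
        simp only [h1, ex_const, and_self, if_true]
        rw [ex_def, Finset.sum_ite_eq', if_pos (Finset.mem_univ _), Fintype.card_congr e]
        simp
      · rw [if_neg fun h => hik h.1]
        refine (ex_congr fun δ => ?_).trans ex_zero
        by_cases h : e i = e j + δ.1
        · rw [if_neg (c := e k = e j + δ.1) fun h' => hik (e.injective (h.trans h'.symm)),
            mul_zero]
        · rw [if_neg h, map_zero, zero_mul]
    · rw [if_neg fun h => hjl h.2]
      refine ex_eq_zero_of_equiv
        (Equiv.prodCongr (Equiv.refl _) (Equiv.addRight (Pi.single l (1 : ZMod 4))))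
        (c := Complex.I) (fun h => by simpa using congrArg Complex.re h) fun δ => ?_
      simp only [Equiv.prodCongr_apply, Prod.map_fst, Prod.map_snd, Equiv.coe_refl, id,
        Equiv.coe_addRight, Pi.add_apply, Pi.single_eq_same, Pi.single_eq_of_ne hjl, add_zero,
        designRt_succ, smul_eq_mul]
      split_ifs <;> ring
  · refine ⟨Equiv.prodCongr (Equiv.refl _) (Equiv.addRight fun _ => (1 : ZMod 4)),
      fun δ i j => ?_⟩
    simp only [Equiv.prodCongr_apply, Prod.map_fst, Prod.map_snd, Equiv.coe_refl, id,
      Equiv.coe_addRight, Pi.add_apply, designRt_succ]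
    split_ifs <;> ring

variable {ι Δ : Type*} [Fintype ι] [DecidableEq ι] [Fintype Δ] {c : Δ → ι → ι → ℂ}

theorem UDes.ex_eq_zero (hc : UDes c) (i j : ι) : ex (fun δ => c δ i j) = 0 := by
  obtain ⟨e, he⟩ := hc.phase
  exact ex_eq_zero_of_equiv e (c := Complex.I) (fun h => by simpa using congrArg Complex.re h)
    fun δ => he δ i j

/-- Second moments for a bilinear map with values in any vector space. -/
theorem UDes.ex_bilin (hc : UDes c) {E V : Type*} [AddCommGroup E] [Module ℂ E] [AddCommGroup V]
    [Module ℂ V] (Φ : E →ₗ[ℂ] E →ₗ[ℂ] V) (x y : ι → ι → E) :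
    ex (fun δ => Φ (∑ i, ∑ j, conj (c δ i j) • x i j) (∑ i, ∑ j, c δ i j • y i j))
      = (Fintype.card ι : ℂ)⁻¹ • ∑ i, ∑ j, Φ (x i j) (y i j) := by
  let _ : Module ℝ V := Module.complexToReal V
  have h1 : ∀ δ, Φ (∑ i, ∑ j, conj (c δ i j) • x i j) (∑ i, ∑ j, c δ i j • y i j)
      = ∑ i, ∑ j, ∑ k, ∑ l, (conj (c δ i j) * c δ k l) • Φ (x i j) (y k l) := fun δ => by
    simp only [map_sum Φ, LinearMap.sum_apply, map_smul Φ, LinearMap.smul_apply]
    simp only [map_sum, map_smul, Finset.smul_sum, smul_smul]
  simp only [h1, ex_sum, ex_complex_smul_const, hc.mom, Finset.smul_sum]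
  refine Finset.sum_congr rfl fun i _ => Finset.sum_congr rfl fun j _ => ?_
  rw [Finset.sum_eq_single i, Finset.sum_eq_single j]
  · simp
  · intro l _ hl
    simp [hl.symm]
  · simp
  · intro k _ hk
    simp [hk.symm]
  · simp

variable {Q : Type*} [CStarAlgebra Q]

theorem UDes.mem_unitary (hc : UDes c) {v : ι → Q} {e : Q} (hv : Sys v e) (δ : Δ) :
    ∑ i, ∑ j, c δ i j • (v i * star (v j)) ∈ unitary Q := by
  have key : ∀ a b : ι → ι → ℂ, (∀ i j, ∑ k, a i k * b k j = if i = j then 1 else 0) →
      (∑ i, ∑ j, a i j • (v i * star (v j))) * ∑ i, ∑ j, b i j • (v i * star (v j)) = 1 := by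
    intro a b hab
    have h1 : ∀ i j k l, v i * star (v j) * (v k * star (v l))
        = if j = k then v i * star (v l) else 0 := fun i j k l => by
      rw [mul_assoc, ← mul_assoc (star (v j)), hv.mul]
      split_ifs
      · rw [← mul_assoc, hv.mul_e]
      · simp
    simp only [Finset.sum_mul, Finset.mul_sum, smul_mul_smul_comm, h1, smul_ite, smul_zero]
    rw [← hv.sum]
    have h2 : ∀ k l i, (∑ j, if j = k then (a i j * b k l) • (v i * star (v l)) else 0)
        = (a i k * b k l) • (v i * star (v l)) := fun k l i => by simp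
    simp only [h2]
    rw [Finset.sum_comm]
    refine Finset.sum_congr rfl fun l _ => ?_
    rw [Finset.sum_comm]
    simp only [← Finset.sum_smul, hab]
    simp
  have hs : star (∑ i, ∑ j, c δ i j • (v i * star (v j)))
      = ∑ i, ∑ j, conj (c δ j i) • (v i * star (v j)) := by
    simp only [star_sum, star_smul, star_mul, star_star, Complex.star_def]
    exact Finset.sum_comm
  rw [Unitary.mem_iff, hs]
  exact ⟨key _ _ (hc.col δ), key _ _ (hc.row δ)⟩

end Crest.Agent.R121
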