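import Crest.Agent.R121.Design
import Crest.Agent.R121.Compact

/-! Row 121: the virtual diagonal of the Cuntz isometries. -/

set_option autoImplicit false

open scoped ComplexOrder InnerProductSpace ComplexConjugate

namespace Crest.Agent.R121

open Crest.Agent.R095 (Tr lt)
open Crest.Agent.R124

variable {A : Type*} [CStarAlgebra A]

/-- words of a given length -/
def DiagW : ℕ → Type
  | 0 => Unit
  | l + 1 => Bool × DiagW l

instance diagFintype : ∀ l, Fintype (DiagW l)
  | 0 => inferInstanceAs (Fintype Unit)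
  | l + 1 => letI := diagFintype l; inferInstanceAs (Fintype (Bool × DiagW l))

instance diagDecEq : ∀ l, DecidableEq (DiagW l)
  | 0 => inferInstanceAs (DecidableEq Unit)
  | l + 1 => letI := diagDecEq l; inferInstanceAs (DecidableEq (Bool × DiagW l))

instance diagNonempty : ∀ l, Nonempty (DiagW l)
  | 0 => inferInstanceAs (Nonempty Unit)
  | l + 1 => letI := diagNonempty l; inferInstanceAs (Nonempty (Bool × DiagW l))

lemma diag_sum_succ {V : Type*} [AddCommMonoid V] (l : ℕ) (f : DiagW (l + 1) → V) :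
    ∑ ν, f ν = ∑ β : Bool, ∑ ν : DiagW l, f (β, ν) :=
  Fintype.sum_prod_type (α₁ := Bool) (α₂ := DiagW l) f

lemma diag_card (l : ℕ) : Fintype.card (DiagW l) = 2 ^ l := by
  induction l with
  | zero => rfl
  | succ l ih =>
    rw [pow_succ', ← ih]
    exact Fintype.card_prod Bool (DiagW l)

/-- the product of the letters of a word -/
def diagS (p : A) (g : Bool → A) : ∀ l, DiagW l → A
  | 0, _ => p
  | l + 1, ν => g ν.1 * diagS p g l ν.2

/-- the Cuntz relations for a family indexed by `Bool` -/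
structure DiagC (p : A) (g : Bool → A) : Prop where
  proj : IsStarProjection p
  cen : Cen p
  orth : ∀ a b, star (g a) * g b = if a = b then p else 0
  sum : ∑ a, g a * star (g a) = p

namespace DiagC

variable {p : A} {g : Bool → A}

lemma pp (h : DiagC p g) : p * p = p := h.proj.isIdempotentElem

lemma sp (h : DiagC p g) : star p = p := h.proj.isSelfAdjoint

lemma g_mul (h : DiagC p g) (a : Bool) : g a * p = g a := by
  have e : star (g a * p - g a) * (g a * p - g a) = 0 := by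
    have e1 := h.orth a a
    rw [if_pos rfl] at e1
    have e2 : star (g a * p - g a) * (g a * p - g a) = p * (star (g a) * g a) * p
        - p * (star (g a) * g a) - (star (g a) * g a) * p + star (g a) * g a := by
      rw [star_sub, star_mul, h.sp]
      noncomm_ring
    rw [e2, e1, h.pp, h.pp]
    abel
  exact sub_eq_zero.1 ((CStarRing.star_mul_self_eq_zero_iff _).1 e)

lemma mul_g (h : DiagC p g) (a : Bool) : p * g a = g a := by rw [h.cen, h.g_mul]

lemma mul_S (h : DiagC p g) : ∀ l (ν : DiagW l), p * diagS p g l ν = diagS p g l ν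
  | 0, _ => h.pp
  | l + 1, ν => by
    change p * (g ν.1 * diagS p g l ν.2) = g ν.1 * diagS p g l ν.2
    rw [← mul_assoc, h.mul_g]

lemma S_mul (h : DiagC p g) (l : ℕ) (ν : DiagW l) : diagS p g l ν * p = diagS p g l ν := by
  rw [← h.cen, h.mul_S]

lemma star_S_mul (h : DiagC p g) (l : ℕ) (ν : DiagW l) :
    star (diagS p g l ν) * p = star (diagS p g l ν) := by
  conv_rhs => rw [← h.mul_S l ν, star_mul, h.sp]

lemma orth_S (h : DiagC p g) : ∀ l (μ ν : DiagW l),
    star (diagS p g l μ) * diagS p g l ν = if μ = ν then p else 0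
  | 0, μ, ν => by
    rw [if_pos (show μ = ν from rfl)]
    change star p * p = p
    rw [h.sp, h.pp]
  | l + 1, (a, μ), (b, ν) => by
    change star (g a * diagS p g l μ) * (g b * diagS p g l ν) = _
    rw [star_mul, mul_assoc, ← mul_assoc (star (g a)), h.orth]
    by_cases hab : a = b
    · rw [if_pos hab, h.mul_S, orth_S h l]
      by_cases hμ : μ = ν
      · rw [if_pos hμ, if_pos (by rw [hab, hμ])]
      · rw [if_neg hμ]
        exact (if_neg fun e => hμ (Prod.mk.inj e).2).symm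
    · rw [if_neg hab, zero_mul, mul_zero]
      exact (if_neg fun e => hab (Prod.mk.inj e).1).symm

lemma sum_S (h : DiagC p g) : ∀ l, ∑ ν : DiagW l, diagS p g l ν * star (diagS p g l ν) = p
  | 0 => by
    change ∑ _ν : Unit, p * star p = p
    rw [h.sp, h.pp]
    simp
  | l + 1 => by
    refine (diag_sum_succ l _).trans (Eq.trans (Finset.sum_congr rfl fun a _ => ?_) h.sum)
    have e : ∀ ν : DiagW l, diagS p g (l + 1) (a, ν) * star (diagS p g (l + 1) (a, ν)) =
        g a * (diagS p g l ν * star (diagS p g l ν)) * star (g a) := fun ν => by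
      change g a * diagS p g l ν * star (g a * diagS p g l ν) = _
      rw [star_mul]
      noncomm_ring
    rw [Finset.sum_congr rfl fun ν _ => e ν, ← Finset.sum_mul, ← Finset.mul_sum, sum_S h l, h.g_mul]

end DiagC

/-- the left functional -/
noncomputable def diagL (p : A) (g : Bool → A) (k l : ℕ) (Φ : Fm A) (a : A) : ℂ :=
  (Fintype.card (DiagW k) : ℂ)⁻¹ • ∑ μ : DiagW k, ∑ ν : DiagW l,
    Φ (a * (diagS p g l ν * star (diagS p g k μ))) (diagS p g k μ * star (diagS p g l ν))

/-- the right functional -/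
noncomputable def diagR (p : A) (g : Bool → A) (k l : ℕ) (Φ : Fm A) (a : A) : ℂ :=
  (Fintype.card (DiagW k) : ℂ)⁻¹ • ∑ μ : DiagW k, ∑ ν : DiagW l,
    Φ (diagS p g l ν * star (diagS p g k μ)) (diagS p g k μ * star (diagS p g l ν) * a)

lemma diagL_g {p : A} {g : Bool → A} (h : DiagC p g) (k l : ℕ) (Φ : Fm A) (β : Bool) :
    diagL p g k l Φ (g β) = diagR p g k (l + 1) Φ (g β) := by
  unfold diagL diagR
  congr 1
  refine Finset.sum_congr rfl fun μ _ => ?_
  rw [diag_sum_succ, Finset.sum_eq_single β]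
  · refine Finset.sum_congr rfl fun ν _ => ?_
    change _ = Φ (g β * diagS p g l ν * star (diagS p g k μ))
      (diagS p g k μ * star (g β * diagS p g l ν) * g β)
    rw [star_mul, mul_assoc (diagS p g k μ), mul_assoc (star (diagS p g l ν)), h.orth, if_pos rfl,
      h.star_S_mul, mul_assoc]
  · intro γ _ hγ
    refine Finset.sum_eq_zero fun ν _ => ?_
    change Φ (g γ * diagS p g l ν * star (diagS p g k μ))
      (diagS p g k μ * star (g γ * diagS p g l ν) * g β) = 0
    rw [star_mul, mul_assoc (diagS p g k μ), mul_assoc (star (diagS p g l ν)), h.orth, if_neg hγ,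
      mul_zero, mul_zero, map_zero]
  · intro hβ
    exact absurd (Finset.mem_univ β) hβ

lemma diagL_star {p : A} {g : Bool → A} (h : DiagC p g) (k l : ℕ) (Φ : Fm A) (β : Bool) :
    diagL p g k (l + 1) Φ (star (g β)) = diagR p g k l Φ (star (g β)) := by
  unfold diagL diagR
  congr 1
  refine Finset.sum_congr rfl fun μ _ => ?_
  rw [diag_sum_succ, Finset.sum_eq_single β]
  · refine Finset.sum_congr rfl fun ν _ => ?_
    change Φ (star (g β) * (g β * diagS p g l ν * star (diagS p g k μ)))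
      (diagS p g k μ * star (g β * diagS p g l ν)) = _
    rw [star_mul, ← mul_assoc, ← mul_assoc, h.orth, if_pos rfl, h.mul_S, mul_assoc]
  · intro γ _ hγ
    refine Finset.sum_eq_zero fun ν _ => ?_
    change Φ (star (g β) * (g γ * diagS p g l ν * star (diagS p g k μ)))
      (diagS p g k μ * star (g γ * diagS p g l ν)) = 0
    rw [← mul_assoc, ← mul_assoc, h.orth, if_neg hγ.symm, zero_mul, zero_mul, map_zero,
      LinearMap.zero_apply]
  · intro hβ
    exact absurd (Finset.mem_univ β) hβ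

lemma diag_ex_lin {ι Δ : Type*} [Fintype ι] [DecidableEq ι] [Fintype Δ] {c : Δ → ι → ι → ℂ}
    (hc : UDes c) (L : A →ₗ[ℂ] ℂ) (x : ι → ι → A) :
    ex (fun δ => L (∑ i, ∑ j, c δ i j • x i j)) = 0 ∧
      ex (fun δ => L (∑ i, ∑ j, conj (c δ i j) • x i j)) = 0 := by
  obtain ⟨e, he⟩ := hc.phase
  constructor
  · refine ex_eq_zero_of_equiv e (c := Complex.I) (fun h => by simpa using congrArg Complex.re h)
      fun δ => ?_
    rw [← map_smul]
    simp only [he, Finset.smul_sum, smul_smul]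
  · refine ex_eq_zero_of_equiv e (c := conj Complex.I)
      (fun h => by simpa using congrArg Complex.re h) fun δ => ?_
    rw [← map_smul]
    simp only [he, Finset.smul_sum, smul_smul, map_mul]

lemma diag_exists {p : A} {g : Bool → A} (h : DiagC p g) {k l : ℕ} (hl : l ≤ k) :
    ∃ m : Mn (Pair A), ∀ (Φ : Fm A) (a : A), p * a = a →
      m (fun q => Φ (a * q.1.1) q.1.2) = diagL p g k l Φ a ∧
      m (fun q => Φ q.1.1 (q.1.2 * a)) = diagR p g k l Φ a := by
  obtain ⟨Δ, _, _, c, hc⟩ := exists_udes (DiagW k)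
  obtain ⟨e⟩ : Nonempty (DiagW l ↪ DiagW k) := Function.Embedding.nonempty_of_card_le (by
    rw [diag_card, diag_card]
    exact Nat.pow_le_pow_right (by norm_num) hl)
  let S := diagS p g k
  let T : DiagW k → A := Function.extend e (diagS p g l) 0
  have hT : ∀ {V : Type} [AddCommMonoid V] (F : A → V), F 0 = 0 →
      ∑ j, F (T j) = ∑ ν, F (diagS p g l ν) := by
    intro V _ F hF
    refine (Fintype.sum_of_injective e e.injective _ _ (fun j hj => ?_) fun ν => ?_).symm
    · simp only [T]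
      rw [Function.extend_apply' _ _ _ hj]
      exact hF
    · simp only [T]
      rw [e.injective.extend_apply]
  have hTs : ∑ j, T j * star (T j) = p := by
    rw [← h.sum_S l]
    refine (Fintype.sum_of_injective e e.injective _ _ (fun j hj => ?_) fun ν => ?_).symm
    · simp only [T]
      rw [Function.extend_apply' _ _ _ hj]
      simp
    · simp only [T]
      rw [e.injective.extend_apply]
  have hTp : ∀ j, T j * p = T j := fun j => by
    by_cases hj : ∃ ν, e ν = j
    · obtain ⟨ν, rfl⟩ := hj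
      simp only [T]
      rw [e.injective.extend_apply, h.S_mul]
    · simp only [T]
      rw [Function.extend_apply' _ _ _ hj]
      simp
  let b : Δ → A := fun δ => ∑ i, ∑ j, conj (c δ i j) • (T j * star (S i))
  let b' : Δ → A := fun δ => ∑ i, ∑ j, c δ i j • (S i * star (T j))
  have hb : ∀ δ, star (b δ) = b' δ := fun δ => by
    simp only [b, b', star_sum, star_smul, star_mul, star_star, RCLike.star_def,
      Complex.conj_conj]
  have hbp : ∀ δ, b δ * p = b δ := fun δ => by
    simp only [b, Finset.sum_mul, smul_mul_assoc, mul_assoc, S, h.star_S_mul]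
  have hpb : ∀ δ, p * b' δ = b' δ := fun δ => by
    rw [← hb, ← hbp, star_mul, h.sp, ← mul_assoc, h.pp]
  have hbb : ∀ δ, b δ * b' δ = p := fun δ => by
    have e1 : ∀ i, star (S i) * b' δ = ∑ j', c δ i j' • (p * star (T j')) := fun i => by
      simp only [b', Finset.mul_sum, mul_smul_comm, ← mul_assoc, S, h.orth_S]
      rw [Finset.sum_eq_single i]
      · simp
      · intro i' _ hi
        simp [hi.symm]
      · intro hi
        exact absurd (Finset.mem_univ i) hi
    calc b δ * b' δ = ∑ i, ∑ j, ∑ j', (conj (c δ i j) * c δ i j') • (T j * star (T j')) := by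
          simp only [b, Finset.sum_mul, smul_mul_assoc, mul_assoc, e1]
          simp only [Finset.mul_sum, mul_smul_comm, ← mul_assoc, hTp, Finset.smul_sum, smul_smul]
      _ = ∑ j, ∑ j', (∑ i, conj (c δ i j) * c δ i j') • (T j * star (T j')) := by
          rw [Finset.sum_comm]
          refine Finset.sum_congr rfl fun j _ => ?_
          rw [Finset.sum_comm]
          simp only [Finset.sum_smul]
      _ = p := by
          simp only [hc.col, ite_smul, one_smul, zero_smul, Finset.sum_ite_eq, Finset.mem_univ,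
            if_true, hTs]
  have hx : ∀ δ, (1 - p + b δ) * (1 - p + b' δ) = 1 := fun δ => by
    have e1 : (1 - p + b δ) * (1 - p + b' δ) = 1 - p - p + p * p + (b' δ - p * b' δ) +
        (b δ - b δ * p) + b δ * b' δ := by noncomm_ring
    rw [e1, h.pp, hpb, hbp, hbb]
    abel
  have hst : ∀ δ, star (1 - p + b δ) = 1 - p + b' δ := fun δ => by
    rw [star_add, star_sub, star_one, h.sp, hb]
  have hn : ∀ δ, ‖1 - p + b δ‖ ≤ 1 := fun δ => by
    have h1 : ‖1 - p + b δ‖ * ‖1 - p + b δ‖ ≤ 1 := by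
      rw [← CStarRing.norm_self_mul_star, hst, hx]
      exact (IsStarProjection.one A).norm_le
    nlinarith [norm_nonneg (1 - p + b δ)]
  let q : Δ → Pair A := fun δ => ⟨(1 - p + b δ, 1 - p + b' δ), hn δ,
    by rw [← hst, norm_star]; exact hn δ, hx δ⟩
  refine ⟨Mn.ofEx q, fun Φ a ha => ⟨?_, ?_⟩⟩
  · have ha' : a * (1 - p) = 0 := by rw [mul_sub, mul_one, ← h.cen, ha, sub_self]
    let Ψ : Fm A := Φ.comp (LinearMap.mulLeft ℂ a)
    have e1 : ∀ δ, Φ (a * (q δ).1.1) (q δ).1.2 = (Ψ.flip (1 - p)) (b δ) + Ψ (b δ) (b' δ) :=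
      fun δ => by
        change Φ (a * (1 - p + b δ)) (1 - p + b' δ) = Φ (a * b δ) (1 - p) + Φ (a * b δ) (b' δ)
        rw [mul_add, ha', zero_add, map_add]
    rw [Mn.ofEx_apply, ex_congr e1, ex_add, (diag_ex_lin hc _ _).2, zero_add, hc.ex_bilin]
    unfold diagL
    congr 1
    refine Finset.sum_congr rfl fun μ _ => ?_
    exact hT (fun y => Φ (a * (y * star (S μ))) (S μ * star y)) (by simp)
  · have ha' : (1 - p) * a = 0 := by rw [sub_mul, one_mul, ha, sub_self]
    let Ψ : Fm A := Φ.compl₂ (LinearMap.mulRight ℂ a)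
    have e1 : ∀ δ, Φ (q δ).1.1 ((q δ).1.2 * a) = (Ψ (1 - p)) (b' δ) + Ψ (b δ) (b' δ) :=
      fun δ => by
        change Φ (1 - p + b δ) ((1 - p + b' δ) * a) = Φ (1 - p) (b' δ * a) + Φ (b δ) (b' δ * a)
        rw [add_mul, ha', zero_add, map_add, LinearMap.add_apply]
    rw [Mn.ofEx_apply, ex_congr e1, ex_add, (diag_ex_lin hc _ _).1, zero_add, hc.ex_bilin]
    unfold diagR
    congr 1
    refine Finset.sum_congr rfl fun μ _ => ?_
    exact hT (fun y => Φ (y * star (S μ)) (S μ * star y * a)) (by simp)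

lemma diag_norm_left {Φ : Fm A} {C : ℝ} (hC : 0 ≤ C) (hΦ : B0 Φ C) (a : A) (q : Pair A) :
    ‖Φ (a * q.1.1) q.1.2‖ ≤ C * ‖a‖ := by
  have h1 : ‖a * q.1.1‖ ≤ ‖a‖ :=
    (norm_mul_le _ _).trans (mul_le_of_le_one_right (norm_nonneg _) q.2.1)
  calc _ ≤ C * ‖a * q.1.1‖ * ‖q.1.2‖ := hΦ _ _
    _ ≤ C * ‖a‖ * 1 := by gcongr; exact q.2.2.1
    _ = _ := mul_one _

lemma diag_norm_right {Φ : Fm A} {C : ℝ} (hC : 0 ≤ C) (hΦ : B0 Φ C) (a : A) (q : Pair A) :
    ‖Φ q.1.1 (q.1.2 * a)‖ ≤ C * ‖a‖ := by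
  have h1 : ‖q.1.2 * a‖ ≤ ‖a‖ :=
    (norm_mul_le _ _).trans (mul_le_of_le_one_left (norm_nonneg _) q.2.2.1)
  calc _ ≤ C * ‖q.1.1‖ * ‖q.1.2 * a‖ := hΦ _ _
    _ ≤ C * 1 * ‖a‖ := by gcongr; exact q.2.1
    _ = _ := by rw [mul_one]

lemma diag_approx {p : A} {g : Bool → A} (h : DiagC p g) (k : ℕ) :
    ∃ m : Mn (Pair A), ∀ (Φ : Fm A) (C : ℝ), 0 ≤ C → B0 Φ C → ∀ a : A,
      (∃ β, a = g β ∨ a = star (g β)) →
      ‖m (fun q => Φ (a * q.1.1) q.1.2 - Φ q.1.1 (q.1.2 * a))‖ ≤ 2 * (C * ‖a‖) / (k + 1) := by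
  choose m hm using fun l : Fin (k + 1) => diag_exists h (Nat.le_of_lt_succ l.2)
  refine ⟨(Mn.ofEx (fun l : Fin (k + 1) => l)).bind m, fun Φ C hC hΦ a ha => ?_⟩
  have hpa : p * a = a := by
    obtain ⟨β, rfl | rfl⟩ := ha
    · exact h.mul_g β
    · conv_rhs => rw [← h.g_mul β, star_mul, h.sp]
  have bL : ∀ l : Fin (k + 1), ‖diagL p g k l Φ a‖ ≤ C * ‖a‖ := fun l => by
    rw [← (hm l Φ a hpa).1]
    exact (m l).norm_le (diag_norm_left hC hΦ a)
  have bR : ∀ l : Fin (k + 1), ‖diagR p g k l Φ a‖ ≤ C * ‖a‖ := fun l => by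
    rw [← (hm l Φ a hpa).2]
    exact (m l).norm_le (diag_norm_right hC hΦ a)
  have e1 : ∀ l : Fin (k + 1), m l (fun q => Φ (a * q.1.1) q.1.2 - Φ q.1.1 (q.1.2 * a)) =
      diagL p g k l Φ a - diagR p g k l Φ a := fun l => by
    rw [(m l).map_sub, (hm l Φ a hpa).1, (hm l Φ a hpa).2]
  have e2 : ‖∑ l ∈ Finset.range (k + 1), (diagL p g k l Φ a - diagR p g k l Φ a)‖ ≤
      2 * (C * ‖a‖) := by
    obtain ⟨β, rfl | rfl⟩ := ha
    · simp only [diagL_g h]
      rw [Finset.sum_range_sub (fun l => diagR p g k l Φ (g β)), ← diagL_g h, two_mul]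
      exact (norm_sub_le _ _).trans (add_le_add (bL (Fin.last k)) (bR 0))
    · simp only [← diagL_star h]
      rw [Finset.sum_range_sub' (fun l => diagL p g k l Φ (star (g β))), diagL_star h, two_mul]
      exact (norm_sub_le _ _).trans (add_le_add (bL 0) (bR (Fin.last k)))
  rw [Mn.bind_apply, Mn.ofEx_apply, ex_congr e1, ex_def, Fintype.card_fin, norm_smul,
    Fin.sum_univ_eq_sum_range (fun l => diagL p g k l Φ a - diagR p g k l Φ a),
    Real.norm_of_nonneg (by positivity), div_eq_inv_mul]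
  push_cast
  gcongr

/-- For a word `ν` in `{s, t}` let `S ν` be the product, multiplied by `p` (so `S [] = p`); for
words of equal length `star (S μ) * S ν = δ p` and `∑_{|ν| = l} S ν * star (S ν) = p`. Fix `k`, let
`M` be the set of words of length `k`, `c` a `UDes` on `M`, and for `l ≤ k` let `e_l` be an
injection of the words of length `l` into `M`. Put `b' = ∑ μ ν, c μ (e_l ν) • S μ * star (S ν)`,
`b = star b'`; `b b' = p`, so `(1 - p + b, 1 - p + b')` is a `Pair`. For `a * (1 - p) = 0` the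
cross terms vanish (`UDes.ex_eq_zero`) and with
`D_l Φ = (card M)⁻¹ ∑_{|μ| = k, |ν| = l} Φ (S ν * star (S μ)) (S μ * star (S ν))` one has
`E Φ (a (1 - p + b)) (1 - p + b') = D_l (Φ (a ·) ·)` (`UDes.mom`), the same on the other side, and
`D_l (Φ (s ·) ·) = D_(l+1) (Φ · (· s))`, `D_(l+1) (Φ (s⋆ ·) ·) = D_l (Φ · (· s⋆))`, likewise for
`t`. Average over `l ≤ k` (`Mn.bind` of `Mn.ofEx`): the error is at most `2 C ‖a‖ / (k + 1)`.
Conclude with `Mn.exists_of_approx_norm`. -/
theorem exists_diag {p s t : A} (hp : Cuntz p s t) :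
    ∃ m : Mn (Pair A), ∀ (Φ : Fm A) (C : ℝ), 0 ≤ C → B0 Φ C →
      ∀ a ∈ ({s, t, star s, star t} : Set A),
      m (fun q => Φ (a * q.1.1) q.1.2) = m fun q => Φ q.1.1 (q.1.2 * a) := by
  let g : Bool → A := fun β => if β then s else t
  have hts : star t * s = 0 := by simpa using congrArg star hp.st
  have h : DiagC p g := ⟨hp.proj, hp.cen, fun a b => by
    cases a <;> cases b <;> simp [g, hp.ss, hp.tt, hp.st, hts], by simp [g, hp.sum]⟩
  let I := {x : Fm A × ℝ × A // 0 ≤ x.2.1 ∧ B0 x.1 x.2.1 ∧ ∃ β, x.2.2 = g β ∨ x.2.2 = star (g β)}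
  obtain ⟨m, hm⟩ := Mn.exists_of_approx_norm (X := Pair A) (I := I)
    (fun i q => i.1.1 (i.1.2.2 * q.1.1) q.1.2 - i.1.1 q.1.1 (q.1.2 * i.1.2.2))
    (fun i => ⟨_, fun q => (norm_sub_le _ _).trans
      (add_le_add (diag_norm_left i.2.1 i.2.2.1 _ q) (diag_norm_right i.2.1 i.2.2.1 _ q))⟩)
    (fun _ => 0) (fun S ε hε => by
      obtain ⟨k, hk⟩ := exists_nat_ge (2 * (∑ i ∈ S, i.1.2.1 * ‖i.1.2.2‖) / ε)
      obtain ⟨m, hm⟩ := diag_approx h k
      refine ⟨m, fun i hi => (hm _ _ i.2.1 i.2.2.1 _ i.2.2.2).trans ?_⟩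
      have h1 : i.1.2.1 * ‖i.1.2.2‖ ≤ ∑ i ∈ S, i.1.2.1 * ‖i.1.2.2‖ :=
        Finset.single_le_sum (f := fun i : I => i.1.2.1 * ‖i.1.2.2‖)
          (fun j _ => mul_nonneg j.2.1 (norm_nonneg _)) hi
      rw [div_le_iff₀ hε] at hk
      rw [zero_add, div_le_iff₀ (by positivity)]
      nlinarith)
  refine ⟨m, fun Φ C hC hΦ a ha => ?_⟩
  have ha' : ∃ β, a = g β ∨ a = star (g β) := by
    rcases ha with rfl | rfl | rfl | rfl
    · exact ⟨true, Or.inl rfl⟩
    · exact ⟨false, Or.inl rfl⟩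
    · exact ⟨true, Or.inr rfl⟩
    · exact ⟨false, Or.inr rfl⟩
  have := hm ⟨(Φ, C, a), hC, hΦ, ha'⟩
  rw [norm_le_zero_iff, m.map_sub, sub_eq_zero] at this
  exact this

end Crest.Agent.R121
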