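import Crest.Agent.R121.WMean
import Crest.Agent.R124.TrIneq
import Crest.Agent.R124.Amp

/-! Row 121: completely bounded maps and the energy inequality. -/

set_option autoImplicit false
set_option linter.unusedSectionVars false

open scoped ComplexOrder InnerProductSpace ComplexConjugate

namespace Crest.Agent.R121

open Crest.Agent.R095 (Tr lt)
open Crest.Agent.R124

variable {A : Type*} [CStarAlgebra A] [PartialOrder A] [StarOrderedRing A]
variable {K : Type*} [NormedAddCommGroup K] [InnerProductSpace ℂ K] [CompleteSpace K]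
variable {ι : A →⋆ₐ[ℂ] (K →L[ℂ] K)}

omit [PartialOrder A] [StarOrderedRing A] in
lemma vs_star_mul {J : Type*} [Fintype J] (ξ : J → K) (y : A) :
    (vs ι ξ (star y * y)).re = ∑ j, ‖ι y (ξ j)‖ ^ 2 := by
  rw [vs, Complex.re_sum]
  refine Finset.sum_congr rfl fun j _ => ?_
  rw [vn_mul_apply, ← vn_inner, inner_self_eq_norm_sq_to_K]
  norm_cast

omit [PartialOrder A] [StarOrderedRing A] in
lemma vs_ch {J : Type*} [Fintype J] (ξ : J → K) (P : Kr A) (y : A) :
    vs ι ξ (P.ch y) = vs ι (fun q : J × P.I => ι (P.m q.2) (ξ q.1)) y := by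
  simp only [vs, Kr.ch, Fintype.sum_prod_type, map_sum, _root_.sum_apply, inner_sum, vn_inner,
    vn_mul_apply]

omit [PartialOrder A] [StarOrderedRing A] in
lemma norm_vs_le {J : Type*} [Fintype J] (ξ : J → K) (y : A) :
    ‖vs ι ξ y‖ ≤ (∑ j, ‖ξ j‖ ^ 2) * ‖y‖ := by
  rw [vs, Finset.sum_mul]
  refine (norm_sum_le _ _).trans (Finset.sum_le_sum fun j _ => (norm_inner_le_norm _ _).trans ?_)
  rw [sq, mul_assoc, mul_comm _ ‖y‖]
  exact mul_le_mul_of_nonneg_left (((ι y).le_opNorm _).trans (mul_le_mul_of_nonneg_right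
    (NonUnitalStarAlgHom.norm_apply_le ι y) (norm_nonneg _))) (norm_nonneg _)

omit [PartialOrder A] [StarOrderedRing A] in
lemma energy_nsq_kr {J : Type*} [Fintype J] (ξ : J → K) (P : Kr A) :
    ∑ q : J × P.I, ‖ι (P.m q.2) (ξ q.1)‖ ^ 2 = ∑ j, ‖ξ j‖ ^ 2 := by
  have h1 := congrArg Complex.re (vs_ch (ι := ι) ξ P (star 1 * 1))
  have h2 : P.ch (star 1 * 1) = star 1 * 1 := by simp [Kr.ch, P.sum]
  rw [h2, vs_star_mul, vs_star_mul] at h1
  simpa using h1.symm

lemma Kr.norm_ch_le (P : Kr A) (y : A) : ‖P.ch y‖ ≤ ‖y‖ := by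
  have h := norm_sum_star_mul_mul_le Finset.univ P.m (fun _ => y) P.m ‖y‖ (norm_nonneg _)
    (fun _ _ => le_rfl)
  rw [P.sum] at h
  have h2 : √‖(1 : A)‖ ≤ 1 := Real.sqrt_le_one.mpr (IsStarProjection.one A).norm_le
  refine h.trans ?_
  rw [mul_assoc]
  exact mul_le_of_le_one_right (norm_nonneg _) (mul_le_one₀ h2 (Real.sqrt_nonneg _) h2)

lemma energy_conj_le {a : A} (ha : ‖a‖ ≤ 1) (w : A) : star (a * w) * (a * w) ≤ star w * w := by
  have h1 : star a * a ≤ 1 := by
    rw [← CStarAlgebra.norm_le_one_iff_of_nonneg _ (star_mul_self_nonneg a),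
      CStarRing.norm_star_mul_self]
    exact mul_le_one₀ ha (norm_nonneg _) ha
  simpa only [star_mul, mul_assoc, one_mul] using star_left_conjugate_le_conjugate h1 w

lemma energy_matLe_mul {I J : Type*} [Fintype I] [Fintype J] {x : I → J → A} (hx : MatLe x) {a : A}
    (ha : ‖a‖ ≤ 1) : MatLe fun i j => a * x i j := fun b => by
  refine le_trans (Finset.sum_le_sum fun i _ => ?_) (hx b)
  simp only [mul_assoc, ← Finset.mul_sum]
  exact energy_conj_le ha _

omit [PartialOrder A] [StarOrderedRing A] in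
lemma energy_exists_smul (a : A) : ∃ a' : A, ‖a'‖ ≤ 1 ∧ a = (‖a‖ : ℂ) • a' := by
  rcases eq_or_ne a 0 with rfl | h
  · exact ⟨0, by simp, by simp⟩
  · have h1 : (‖a‖ : ℂ) ≠ 0 := by simpa using h
    exact ⟨(‖a‖ : ℂ)⁻¹ • a, by simp [norm_smul, h], by rw [smul_inv_smul₀ h1]⟩

/-- A representation is completely contractive. -/
lemma energy_isCB_id : IsCB ι (fun y => y) 1 := by
  refine ⟨⟨fun _ _ => rfl, fun _ _ => rfl⟩, zero_le_one, fun I J _ _ x hx ξ => ?_⟩
  classical
  let π : Hom A K := (ι : A →⋆ₙₐ[ℂ] (K →L[ℂ] K)).toNonUnitalAlgHom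
  have hπ : dual π = π := by
    apply DFunLike.ext
    intro y
    change star (ι (star y)) = ι y
    rw [map_star, star_star]
  let φ : Mat (I ⊕ J) A →⋆ₙₐ[ℂ] (HI (I ⊕ J) K →L[ℂ] HI (I ⊕ J) K) :=
    { amp π with
      map_star' := fun y => by
        have := DFunLike.congr_fun (dual_amp (I := I ⊕ J) π) (star y)
        rw [dual_apply, star_star, hπ] at this
        exact this.symm }
  let x' : I ⊕ J → I ⊕ J → A := fun a b =>
    Sum.elim (fun i => Sum.elim (fun _ => 0) (fun j => x i j) b) (fun _ => 0) a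
  let ξ' : HI (I ⊕ J) K := WithLp.toLp 2 (Sum.elim (fun _ => 0) ξ)
  have hx' : MatLe x' := fun b => by
    have h1 := hx fun j => b (Sum.inr j)
    simp only [x', Fintype.sum_sum_type, Sum.elim_inl, Sum.elim_inr, zero_mul,
      Finset.sum_const_zero, add_zero, zero_add, mul_zero]
    exact h1.trans (le_add_of_nonneg_left (Finset.sum_nonneg fun _ _ => star_mul_self_nonneg _))
  have h1 : ‖amp π (CStarMatrix.ofMatrix x' : Mat (I ⊕ J) A)‖ ≤ 1 :=
    (NonUnitalStarAlgHom.norm_apply_le φ _).trans (norm_le_one_of_matLe x' hx')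
  have h2 := pow_le_pow_left₀ (norm_nonneg _) (ContinuousLinearMap.le_of_opNorm_le _ h1 ξ') 2
  rw [amp_norm_sq, one_mul, PiLp.norm_sq_eq_of_L2] at h2
  simpa [x', ξ', π] using h2

/-- Use the `1 × 1` matrix `‖y‖⁻¹ • y`. -/
theorem IsCB.bl (hι : IsVN ι) {T : A → A} {C : ℝ} (hT : IsCB ι T C) : BL T C := by
  refine ⟨hT.lin, hT.nonneg, fun y => ?_⟩
  obtain ⟨a, ha, e⟩ := energy_exists_smul y
  have h1 : ‖T a‖ ≤ C := by
    rw [← NonUnitalStarAlgHom.norm_map ι hι.inj]
    refine ContinuousLinearMap.opNorm_le_bound _ hT.nonneg fun ξ => ?_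
    have := hT.cb Unit Unit (fun _ _ => a) (fun b => by simpa using energy_conj_le ha _) fun _ => ξ
    rw [Fintype.sum_unique, Fintype.sum_unique, Fintype.sum_unique, ← mul_pow] at this
    exact le_of_sq_le_sq this (mul_nonneg hT.nonneg (norm_nonneg _))
  conv_lhs => rw [e, hT.lin.map_smul, norm_smul, Complex.norm_real, norm_norm, mul_comm]
  exact mul_le_mul_of_nonneg_right h1 (norm_nonneg _)

theorem IsCB.mul_left {T : A → A} {C : ℝ} (hT : IsCB ι T C) (a : A) :
    IsCB ι (fun y => a * T y) (‖a‖ * C) := by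
  refine ⟨⟨fun x y => by rw [hT.lin.map_add, mul_add],
    fun c x => by rw [hT.lin.map_smul, mul_smul_comm]⟩, mul_nonneg (norm_nonneg _) hT.nonneg,
    fun I J _ _ x hx ξ => ?_⟩
  rw [mul_pow, mul_assoc]
  refine le_trans ?_ (mul_le_mul_of_nonneg_left (hT.cb I J x hx ξ) (sq_nonneg _))
  rw [Finset.mul_sum]
  refine Finset.sum_le_sum fun i _ => ?_
  simp only [vn_mul_apply, ← map_sum]
  rw [← mul_pow]
  exact pow_le_pow_left₀ (norm_nonneg _) (((ι a).le_opNorm _).trans (mul_le_mul_of_nonneg_right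
    (NonUnitalStarAlgHom.norm_apply_le ι a) (norm_nonneg _))) 2

theorem IsCB.comp_mul {T : A → A} {C : ℝ} (hT : IsCB ι T C) (a : A) :
    IsCB ι (fun y => T (a * y)) (C * ‖a‖) := by
  refine ⟨⟨fun x y => by rw [mul_add, hT.lin.map_add],
    fun c x => by rw [mul_smul_comm, hT.lin.map_smul]⟩, mul_nonneg hT.nonneg (norm_nonneg _),
    fun I J _ _ x hx ξ => ?_⟩
  obtain ⟨a', ha, e⟩ := energy_exists_smul a
  have h1 : ∀ y, T (a * y) = (‖a‖ : ℂ) • T (a' * y) := fun y => by
    rw [← hT.lin.map_smul, ← smul_mul_assoc, ← e]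
  rw [mul_comm C, mul_pow, mul_assoc]
  refine le_trans (le_of_eq ?_)
    (mul_le_mul_of_nonneg_left (hT.cb I J _ (energy_matLe_mul hx ha) ξ) (sq_nonneg _))
  simp only [h1, map_smul, _root_.smul_apply, ← Finset.smul_sum, norm_smul, Complex.norm_real,
    norm_norm, mul_pow, Finset.mul_sum]

theorem isCB_mul (c : A) : IsCB ι (fun y => c * y) ‖c‖ := by
  simpa only [mul_one] using (energy_isCB_id (ι := ι)).mul_left c

omit [PartialOrder A] [StarOrderedRing A] in
lemma energy_row (P : Kr A) {J : Type*} [Fintype J] (x : J → A) (b : J × P.I → A) :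
    ∑ q : J × P.I, x q.1 * star (P.m q.2) * b q = ∑ j, x j * ∑ k, star (P.m k) * b (j, k) := by
  simp only [Fintype.sum_prod_type, Finset.mul_sum, mul_assoc]

omit [PartialOrder A] [StarOrderedRing A] in
lemma energy_act_vec (P : Kr A) (T : A → A) {J : Type*} [Fintype J] (x : J → A) (ξ : J → K) :
    ∑ q : J × P.I, ι (T (x q.1 * star (P.m q.2))) (ι (P.m q.2) (ξ q.1)) =
      ∑ j, ι (P.act T (x j)) (ξ j) := by
  simp only [Fintype.sum_prod_type, Kr.act, map_sum, _root_.sum_apply, vn_mul_apply]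

/-- Matrix `x i j * star (m k)` indexed by `i` and `(j, k)` (`cs_le`), vectors `ι (m k) (ξ j)`. -/
theorem IsCB.act {T : A → A} {C : ℝ} (hT : IsCB ι T C) (P : Kr A) : IsCB ι (P.act T) C := by
  refine ⟨⟨fun x y => ?_, fun c x => ?_⟩, hT.nonneg, fun I J _ _ x hx ξ => ?_⟩
  · simp only [Kr.act, add_mul, hT.lin.map_add, Finset.sum_add_distrib]
  · simp only [Kr.act, smul_mul_assoc, hT.lin.map_smul, Finset.smul_sum]
  · have := hT.cb I (J × P.I) (fun i q => x i q.1 * star (P.m q.2)) (fun b => ?_)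
      fun q => ι (P.m q.2) (ξ q.1)
    · simpa only [energy_act_vec, energy_nsq_kr] using this
    · simp only [energy_row]
      rw [Fintype.sum_prod_type]
      exact (hx _).trans (Finset.sum_le_sum fun j _ => cs_le _ _ _ P.sum.le)

theorem IsCB.actL {T : A → A} {C : ℝ} (hT : IsCB ι T C) (ps : List (Kr A)) :
    IsCB ι (actL ps T) C := by
  induction ps with
  | nil => exact hT
  | cons P ps ih => exact ih.act P

omit [PartialOrder A] [StarOrderedRing A] in
lemma energy_defect (P : Kr A) (b : P.I → A) :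
    star (∑ k, star (P.m k) * b k) * (∑ k, star (P.m k) * b k) +
      ∑ k, star (b k - P.m k * ∑ k, star (P.m k) * b k) * (b k - P.m k * ∑ k, star (P.m k) * b k) =
      ∑ k, star (b k) * b k := by
  obtain ⟨c, hc⟩ : ∃ c, c = ∑ k, star (P.m k) * b k := ⟨_, rfl⟩
  have hc' : star c = ∑ k, star (b k) * P.m k := by simp only [hc, star_sum, star_mul, star_star]
  have h : ∀ k, star (b k - P.m k * c) * (b k - P.m k * c) = star (b k) * b k -
      star (b k) * P.m k * c - star c * (star (P.m k) * b k) +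
        star c * (star (P.m k) * P.m k) * c := fun k => by
    rw [star_sub, star_mul]
    noncomm_ring
  simp only [← hc, h, Finset.sum_add_distrib, Finset.sum_sub_distrib, ← Finset.sum_mul,
    ← Finset.mul_sum, ← hc', P.sum, mul_one]
  abel

lemma energy_aux {T : A → A} {C : ℝ} (hT : IsCB ι T C) (ps : List (Kr A)) :
    ∀ (I J : Type) [Fintype I] [Fintype J] (x : I → J → A), MatLe x → ∀ ξ : J → K,
      ∑ i, ‖∑ j, ι (actL ps T (x i j)) (ξ j)‖ ^ 2 + En T ps (fun y => (vs ι ξ y).re) ≤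
        C ^ 2 * ∑ j, ‖ξ j‖ ^ 2 := by
  induction ps with
  | nil => exact fun I J _ _ x hx ξ => (add_zero _).trans_le (hT.cb I J x hx ξ)
  | cons P ps ih =>
    intro I J _ _ x hx ξ
    classical
    have hl := (hT.actL ps).lin
    have := ih (I ⊕ J × P.I) (J × P.I) (Sum.elim (fun i q => x i q.1 * star (P.m q.2))
      fun r q => if q.1 = r.1 then (if q.2 = r.2 then 1 else 0) - P.m r.2 * star (P.m q.2) else 0)
      (fun b => ?_) fun q => ι (P.m q.2) (ξ q.1)
    · rw [energy_nsq_kr, Fintype.sum_sum_type] at this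
      refine le_trans (le_of_eq ?_) this
      simp only [Sum.elim_inl, Sum.elim_inr, energy_act_vec, En, vs_ch, vs_star_mul, add_assoc]
      congr 2
      rw [Fintype.sum_prod_type_right]
      refine Finset.sum_congr rfl fun k _ => Finset.sum_congr rfl fun j _ => ?_
      congr 2
      rw [Fintype.sum_prod_type, Finset.sum_eq_single j
        (fun j' _ h => by simp only [if_neg h, hl.map_zero, map_zero, _root_.zero_apply,
          Finset.sum_const_zero]) (fun h => absurd (Finset.mem_univ j) h)]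
      simp only [if_true, hl.map_sub, apply_ite (actL ps T), hl.map_zero, ← vn_mul_apply, sub_mul,
        ite_mul, zero_mul, ← _root_.sum_apply, ← map_sum, Finset.sum_sub_distrib,
        Finset.sum_ite_eq', Finset.mem_univ]
      rfl
    · have h1 : ∀ r : J × P.I, ∑ q : J × P.I, (if q.1 = r.1 then
          (if q.2 = r.2 then 1 else 0) - P.m r.2 * star (P.m q.2) else 0) * b q =
          b r - P.m r.2 * ∑ k, star (P.m k) * b (r.1, k) := fun r => by
        simp [Fintype.sum_prod_type, Finset.sum_comm (γ := J), sub_mul, Finset.mul_sum, mul_assoc]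
      rw [Fintype.sum_sum_type]
      simp only [Sum.elim_inl, Sum.elim_inr, energy_row, h1]
      rw [Fintype.sum_prod_type, Fintype.sum_prod_type]
      refine (add_le_add_left (hx _) _).trans_eq ?_
      rw [← Finset.sum_add_distrib]
      exact Finset.sum_congr rfl fun j _ => energy_defect P fun k => b (j, k)

/-- Prove by induction on `ps`, for all finite `I`, `J`, contractive `x : I → J → A` and `ξ`:
`∑ i, ‖∑ j, ι (actL ps T (x i j)) (ξ j)‖² + En T ps (re vs ξ) ≤ C² ∑ ‖ξ j‖²`. For `P :: ps` use the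
vectors `ι (m k) (ξ j)` (`vs_ch`) and the matrix with columns `J × P.I` and rows `I ⊕ J × P.I`:
row `i` is `x i j * star (m k)`, row `(j₀, k₀)` is `δ j j₀ (δ k k₀ - m k₀ * star (m k))`. It is
contractive: with `c j = ∑ k, star (m k) * b (j, k)` the first rows give at most `∑ |c j|²` and
the others exactly `∑ |b|² - ∑ |c j|²`. (`actL ps T` is linear: `IsCB.actL`.) -/
theorem energy {T : A → A} {C : ℝ} (hT : IsCB ι T C) (ps : List (Kr A)) {J : Type} [Fintype J]
    (ξ : J → K) : En T ps (fun y => (vs ι ξ y).re) ≤ C ^ 2 * ∑ j, ‖ξ j‖ ^ 2 := by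
  simpa using energy_aux hT ps Empty J (fun i => i.elim) (fun b => by
    simpa using Finset.sum_nonneg fun j _ => star_mul_self_nonneg (b j)) ξ

end Crest.Agent.R121
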