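import Crest.Agent.R121.Basic

/-! Row 121: ℓ² estimates for the expansion. -/

set_option autoImplicit false

open scoped ComplexOrder InnerProductSpace ComplexConjugate

namespace Crest.Agent.R121

open Crest.Agent.R095 (Tr lt)
open Crest.Agent.R124

section aux

variable {α : Type}

/-- the embedding of the group algebra in `ℓ²` -/
noncomputable def l2J : MonoidAlgebra ℂ (FreeGroup α) →ₗ[ℂ] lp (fun _ : FreeGroup α => ℂ) 2 :=
  Finsupp.linearCombination ℂ
      (default : HilbertBasis (FreeGroup α) ℂ (lp (fun _ : FreeGroup α => ℂ) 2)) ∘ₗ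
    (MonoidAlgebra.coeffLinearEquiv ℂ).toLinearMap

lemma l2J_inner (ξ η : MonoidAlgebra ℂ (FreeGroup α)) :
    ⟪l2J ξ, l2J η⟫_ℂ = ξ.coeff.sum fun w c => conj c * η.coeff w :=
  (default : HilbertBasis (FreeGroup α) ℂ
    (lp (fun _ : FreeGroup α => ℂ) 2)).orthonormal.inner_finsupp_eq_sum_left ξ.coeff η.coeff

lemma l2J_norm_sq (ξ : MonoidAlgebra ℂ (FreeGroup α)) : ‖l2J ξ‖ ^ 2 = l2 ξ := by
  have h := l2J_inner ξ ξ
  rw [inner_self_eq_norm_sq_to_K] at h
  have h2 : ((‖l2J ξ‖ ^ 2 : ℝ) : ℂ) = ((l2 ξ : ℝ) : ℂ) := by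
    rw [l2, Complex.ofReal_sum]
    push_cast
    refine h.trans (Finset.sum_congr rfl fun w _ => ?_)
    exact Complex.conj_mul' _
  exact_mod_cast h2

lemma l2_nonneg (ξ : MonoidAlgebra ℂ (FreeGroup α)) : 0 ≤ l2 ξ := by
  rw [← l2J_norm_sq]; positivity

lemma l2_sqrt (ξ : MonoidAlgebra ℂ (FreeGroup α)) : √(l2 ξ) = ‖l2J ξ‖ := by
  rw [← l2J_norm_sq, Real.sqrt_sq (norm_nonneg _)]

lemma l2J_adj (g : FreeGroup α) (ξ η : MonoidAlgebra ℂ (FreeGroup α)) :
    ⟪l2J (ξ * MonoidAlgebra.single g 1), l2J η⟫_ℂ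
      = ⟪l2J ξ, l2J (η * MonoidAlgebra.single g⁻¹ 1)⟫_ℂ := by
  induction ξ using MonoidAlgebra.induction_linear with
  | zero => simp
  | add x y hx hy => simp only [add_mul, map_add, inner_add_left, hx, hy]
  | single w c =>
    rw [MonoidAlgebra.single_mul_single, l2J_inner, l2J_inner, MonoidAlgebra.coeff_single,
      MonoidAlgebra.coeff_single, Finsupp.sum_single_index (by simp),
      Finsupp.sum_single_index (by simp)]
    simp

lemma l2J_norm_single (g : FreeGroup α) (ξ : MonoidAlgebra ℂ (FreeGroup α)) :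
    ‖l2J (ξ * MonoidAlgebra.single g 1)‖ = ‖l2J ξ‖ := by
  have h := l2J_adj g ξ (ξ * MonoidAlgebra.single g 1)
  rw [mul_assoc, MonoidAlgebra.single_mul_single, mul_inv_cancel, mul_one,
    ← MonoidAlgebra.one_def, mul_one] at h
  rw [norm_eq_sqrt_re_inner (𝕜 := ℂ), h, ← norm_eq_sqrt_re_inner]

/-- the element `a + a⁻¹` -/
noncomputable def l2X (a : α) : MonoidAlgebra ℂ (FreeGroup α) :=
  MonoidAlgebra.single (FreeGroup.of a) 1 + MonoidAlgebra.single (FreeGroup.of a)⁻¹ 1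

lemma l2X_adj (a : α) (ξ η : MonoidAlgebra ℂ (FreeGroup α)) :
    ⟪l2J (ξ * l2X a), l2J η⟫_ℂ = ⟪l2J ξ, l2J (η * l2X a)⟫_ℂ := by
  simp only [l2X, mul_add, map_add, inner_add_left, inner_add_right, l2J_adj, inv_inv]
  ring

lemma l2X_norm (a : α) (ξ : MonoidAlgebra ℂ (FreeGroup α)) :
    ‖l2J (ξ * l2X a)‖ ≤ 2 * ‖l2J ξ‖ := by
  rw [l2X, mul_add, map_add]
  refine (norm_add_le _ _).trans ?_
  rw [l2J_norm_single, l2J_norm_single]
  linarith

lemma l2_Icc : Finset.Icc (-2 : ℤ) 2 = {-2, -1, 0, 1, 2} := by decide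

lemma l2_Vh (θ : ℝ) (a : α) : Vh θ a
    = 1 + (Complex.I * θ) • l2X a + (-(θ : ℂ) ^ 2 / 2) • (l2X a * l2X a) := by
  rw [Vh, l2_Icc, Finset.sum_insert (by decide), Finset.sum_insert (by decide),
    Finset.sum_insert (by decide), Finset.sum_insert (by decide), Finset.sum_singleton]
  have e1 : FreeGroup.of a ^ (-2 : ℤ) = (FreeGroup.of a)⁻¹ * (FreeGroup.of a)⁻¹ := by group
  have e2 : FreeGroup.of a ^ (2 : ℤ) = FreeGroup.of a * FreeGroup.of a := by
    rw [zpow_two]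
  have t1 : tay θ (-2) = -(θ : ℂ) ^ 2 / 2 := by simp [tay]
  have t2 : tay θ (-1) = Complex.I * θ := by simp [tay]
  have t3 : tay θ 0 = 1 - (θ : ℂ) ^ 2 := by simp [tay]
  have t4 : tay θ 1 = Complex.I * θ := by simp [tay]
  have t5 : tay θ 2 = -(θ : ℂ) ^ 2 / 2 := by simp [tay]
  have hs : ∀ (g : FreeGroup α) (c : ℂ),
      MonoidAlgebra.single g c = c • MonoidAlgebra.single g (1 : ℂ) := fun g c => by
    simp
  rw [e1, e2, t1, t2, t3, t4, t5, zpow_neg_one, zpow_zero, zpow_one, hs _ (-(θ : ℂ) ^ 2 / 2),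
    hs _ (Complex.I * θ), hs _ (1 - (θ : ℂ) ^ 2), hs (FreeGroup.of a) (Complex.I * θ),
    hs (FreeGroup.of a * FreeGroup.of a) (-(θ : ℂ) ^ 2 / 2)]
  simp only [l2X, mul_add, add_mul, MonoidAlgebra.single_mul_single, mul_one, mul_inv_cancel,
    inv_mul_cancel, MonoidAlgebra.one_def]
  module

lemma l2_hilb {H : Type*} [NormedAddCommGroup H] [InnerProductSpace ℂ H] (θ : ℝ) {u p q : H}
    (h1 : ⟪p, u⟫_ℂ = ⟪u, p⟫_ℂ) (h2 : ⟪p, p⟫_ℂ = ⟪u, q⟫_ℂ) (h3 : ⟪q, p⟫_ℂ = ⟪p, q⟫_ℂ) :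
    ‖u + (Complex.I * θ) • p + (-(θ : ℂ) ^ 2 / 2) • q‖ ^ 2 = ‖u‖ ^ 2 + θ ^ 4 / 4 * ‖q‖ ^ 2 := by
  have h4 : ⟪q, u⟫_ℂ = ⟪p, p⟫_ℂ := by
    rw [← inner_conj_symm q u, ← h2, inner_conj_symm]
  have e : ∀ x : H, ((‖x‖ ^ 2 : ℝ) : ℂ) = ⟪x, x⟫_ℂ := fun x => by
    rw [inner_self_eq_norm_sq_to_K]; push_cast; rfl
  have : ((‖u + (Complex.I * θ) • p + (-(θ : ℂ) ^ 2 / 2) • q‖ ^ 2 : ℝ) : ℂ)
      = ((‖u‖ ^ 2 + θ ^ 4 / 4 * ‖q‖ ^ 2 : ℝ) : ℂ) := by
    rw [Complex.ofReal_add, Complex.ofReal_mul, e, e, e]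
    simp only [inner_add_left, inner_add_right, inner_smul_left, inner_smul_right, h1, ← h2, h3, h4,
      map_mul, map_div₀, map_neg, map_pow, Complex.conj_I, Complex.conj_ofReal, map_ofNat]
    push_cast
    linear_combination (-(θ : ℂ) ^ 2 * ⟪p, p⟫_ℂ) * Complex.I_mul_I
  exact_mod_cast this

lemma l2_coeff_Vh_mul (θ : ℝ) (a : α) (η : MonoidAlgebra ℂ (FreeGroup α)) (y : FreeGroup α) :
    (Vh θ a * η).coeff y
      = ∑ k ∈ Finset.Icc (-2 : ℤ) 2, tay θ k * η.coeff ((FreeGroup.of a ^ k)⁻¹ * y) := by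
  rw [Vh, Finset.sum_mul, MonoidAlgebra.coeff_sum, Finsupp.finsetSum_apply]
  simp only [MonoidAlgebra.coeff_single_mul_apply]

lemma l2_xi_cons (θ : ℝ) (a : α) (ps : List α) : xi θ (a :: ps) = Vh θ a * xi θ ps := by
  simp [xi]

lemma l2_xi_append (θ : ℝ) (ps qs : List α) : xi θ (ps ++ qs) = xi θ ps * xi θ qs := by
  simp [xi]

lemma l2_xi_supp (θ : ℝ) (H : Subgroup (FreeGroup α)) (P : List α)
    (hP : ∀ a ∈ P, FreeGroup.of a ∈ H) {y : FreeGroup α} (hy : y ∉ H) : (xi θ P).coeff y = 0 := by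
  induction P generalizing y with
  | nil =>
    have : y ≠ 1 := fun h => hy (h ▸ H.one_mem)
    simp [xi, MonoidAlgebra.one_def, this]
  | cons a P ih =>
    rw [l2_xi_cons, l2_coeff_Vh_mul]
    refine Finset.sum_eq_zero fun k _ => ?_
    rw [ih (fun b hb => hP b (List.mem_cons_of_mem _ hb)), mul_zero]
    intro h
    exact hy ((H.mul_mem_cancel_left (H.inv_mem (H.zpow_mem (hP a List.mem_cons_self) k))).1 h)

lemma l2_xi_one (θ : ℝ) {P : List α} (hP : P.Nodup) :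
    (xi θ P).coeff 1 = (1 - (θ : ℂ) ^ 2) ^ P.length := by
  classical
  induction P with
  | nil => simp [xi]
  | cons a P ih =>
    rw [List.nodup_cons] at hP
    rw [l2_xi_cons, l2_coeff_Vh_mul, Finset.sum_eq_single 0]
    · simp [tay, ih hP.2, pow_succ']
    · intro k _ hk
      let φ : FreeGroup α →* Multiplicative ℤ :=
        FreeGroup.lift fun b => if b = a then Multiplicative.ofAdd 1 else 1
      rw [l2_xi_supp θ φ.ker P, mul_zero]
      · intro b hb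
        have : b ≠ a := fun h => hP.1 (h ▸ hb)
        simp [φ, MonoidHom.mem_ker, this]
      · simp [φ, MonoidHom.mem_ker, ← ofAdd_zsmul, hk]
    · simp

variable [DecidableEq α]

/-- the words in the letters of type `true` -/
def l2H (ty : α → Bool) : Subgroup (FreeGroup α) where
  carrier := {y | ∀ b ∈ lets y.toWord, ty b = true}
  one_mem' := by simp
  mul_mem' := by
    intro x y hx hy b hb
    have := ((FreeGroup.toWord_mul_sublist x y).map Prod.fst).subset hb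
    rw [List.map_append, List.mem_append] at this
    exact this.elim (hx b) (hy b)
  inv_mem' := by
    intro x hx b hb
    rw [FreeGroup.toWord_inv, lets_invRev, List.mem_reverse] at hb
    exact hx b hb

lemma l2_endsIn_mul {ty : α → Bool} {w y : FreeGroup α} (hw : ¬ EndsIn ty w) (hy : y ∈ l2H ty)
    (h1 : y ≠ 1) : EndsIn ty (w * y) := by
  have hy' : ∀ x ∈ y.toWord, ty x.1 = true := fun x hx => hy x.1 (List.mem_map_of_mem hx)
  have hred : FreeGroup.IsReduced (w.toWord ++ y.toWord) := by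
    refine List.isChain_append.2 ⟨FreeGroup.isReduced_toWord, FreeGroup.isReduced_toWord, ?_⟩
    intro x hx z hz e
    exfalso
    obtain ⟨l, hl⟩ := List.getLast?_eq_some_iff.1 (Option.mem_def.1 hx)
    exact hw ⟨l, x, hl, by rw [e]; exact hy' z (List.mem_of_mem_head? hz)⟩
  have hne : y.toWord ≠ [] := fun h => h1 (FreeGroup.toWord_eq_nil_iff.1 h)
  refine ⟨w.toWord ++ y.toWord.dropLast, y.toWord.getLast hne, ?_, hy' _ (List.getLast_mem hne)⟩
  rw [FreeGroup.toWord_mul, hred.reduce_eq, List.append_assoc, List.dropLast_append_getLast]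

open Classical in
/-- the part supported on the words that do not end in type `true` -/
noncomputable def l2P (ty : α → Bool) (ξ : MonoidAlgebra ℂ (FreeGroup α)) :
    MonoidAlgebra ℂ (FreeGroup α) := .ofCoeff (ξ.coeff.filter fun w => ¬ EndsIn ty w)

open Classical in
lemma l2P_coeff (ty : α → Bool) (ξ : MonoidAlgebra ℂ (FreeGroup α)) (w : FreeGroup α) :
    (l2P ty ξ).coeff w = if EndsIn ty w then 0 else ξ.coeff w := by
  simp [l2P, Finsupp.filter_apply]

omit [DecidableEq α] in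
lemma l2_eq_sum {ξ : MonoidAlgebra ℂ (FreeGroup α)} {s : Finset (FreeGroup α)}
    (h : ∀ w, w ∉ s → ξ.coeff w = 0) : l2 ξ = ∑ w ∈ s, ‖ξ.coeff w‖ ^ 2 := by
  refine Finset.sum_subset (fun w hw => ?_) fun w _ hw => ?_
  · by_contra h'
    exact Finsupp.mem_support_iff.1 hw (h w h')
  · rw [Finsupp.notMem_support_iff.1 hw]; simp

lemma l2_endMass (ty : α → Bool) (ξ : MonoidAlgebra ℂ (FreeGroup α)) :
    endMass ty ξ = l2 (l2P ty ξ) := by
  rw [l2_eq_sum (s := ξ.coeff.support), endMass]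
  · refine Finset.sum_congr rfl fun w _ => ?_
    rw [l2P_coeff]; split_ifs <;> simp
  · intro w hw
    rw [l2P_coeff, Finsupp.notMem_support_iff.1 hw, ite_self]

lemma l2_sub_endMass (ty : α → Bool) (ξ : MonoidAlgebra ℂ (FreeGroup α)) :
    l2 ξ - endMass ty ξ = l2 (ξ - l2P ty ξ) := by
  rw [l2_eq_sum (ξ := ξ - l2P ty ξ) (s := ξ.coeff.support), endMass, l2, ← Finset.sum_sub_distrib]
  · refine Finset.sum_congr rfl fun w _ => ?_
    rw [MonoidAlgebra.coeff_sub, Finsupp.sub_apply, l2P_coeff]; split_ifs <;> simp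
  · intro w hw
    rw [MonoidAlgebra.coeff_sub, Finsupp.sub_apply, l2P_coeff, Finsupp.notMem_support_iff.1 hw,
      ite_self, sub_zero]

lemma l2_endMass_le (ty : α → Bool) (ξ : MonoidAlgebra ℂ (FreeGroup α)) :
    endMass ty ξ ≤ l2 ξ := by
  have := l2_nonneg (ξ - l2P ty ξ)
  rw [← l2_sub_endMass] at this
  linarith

lemma l2P_add (ty : α → Bool) (ξ η : MonoidAlgebra ℂ (FreeGroup α)) :
    l2P ty (ξ + η) = l2P ty ξ + l2P ty η := by
  ext w
  simp only [MonoidAlgebra.coeff_add, Finsupp.add_apply, l2P_coeff]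
  split_ifs <;> simp

lemma l2P_mul (ty : α → Bool) (θ : ℝ) {P : List α} (hP : P.Nodup) (hty : ∀ a ∈ P, ty a = true)
    (ξ : MonoidAlgebra ℂ (FreeGroup α)) :
    l2P ty (l2P ty ξ * xi θ P) = (1 - (θ : ℂ) ^ 2) ^ P.length • l2P ty ξ := by
  ext z
  rw [MonoidAlgebra.coeff_smul_apply, l2P_coeff]
  split_ifs with hz
  · rw [l2P_coeff, if_pos hz, smul_zero]
  · rw [MonoidAlgebra.coeff_mul_apply_right, Finsupp.sum_eq_single 1, l2_xi_one θ hP]
    · simp [mul_comm]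
    · intro y hy h1
      have hyH : y ∈ l2H ty := by
        by_contra h
        refine hy (l2_xi_supp θ (l2H ty) P (fun a ha b hb => ?_) h)
        rw [FreeGroup.toWord_of] at hb
        simp only [lets_cons, lets_nil, List.mem_singleton] at hb
        rw [hb]; exact hty a ha
      rw [l2P_coeff, if_pos (l2_endsIn_mul hz ((l2H ty).inv_mem hyH) (inv_ne_one.2 h1)), zero_mul]
    · simp

lemma l2_compl {ty ty' : α → Bool} (h : ∀ a, ty a = true → ty' a = false)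
    (ξ : MonoidAlgebra ℂ (FreeGroup α)) : l2 ξ - endMass ty ξ ≤ endMass ty' ξ := by
  rw [endMass, endMass, l2, ← Finset.sum_sub_distrib]
  refine Finset.sum_le_sum fun w _ => ?_
  split_ifs with h1 h2 h2
  · exfalso
    obtain ⟨l, x, e, hx⟩ := h1
    obtain ⟨l', x', e', hx'⟩ := h2
    rw [e] at e'
    have := (List.append_inj' e' rfl).2
    rw [List.singleton_inj] at this
    subst this
    rw [h _ hx] at hx'
    exact Bool.noConfusion hx'
  · simp
  · simp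
  · simp

end aux

variable {α : Type} [DecidableEq α]

omit [DecidableEq α] in
/-- With `R` the right translation by `of a` (unitary on `ℓ²`) and `X = R + R⁻¹`:
`ξ * Vh θ a = (1 + i θ X - θ² X² / 2) ξ` has squared norm `‖ξ‖² + θ⁴ ‖X² ξ‖² / 4`, `‖X‖ ≤ 2`. -/
theorem l2_mul_Vh (θ : ℝ) (a : α) (ξ : MonoidAlgebra ℂ (FreeGroup α)) :
    l2 ξ ≤ l2 (ξ * Vh θ a) ∧ l2 (ξ * Vh θ a) ≤ (1 + 4 * θ ^ 4) * l2 ξ := by
  have h := l2_hilb θ (u := l2J ξ) (p := l2J (ξ * l2X a)) (q := l2J (ξ * l2X a * l2X a))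
    (l2X_adj a ξ ξ) (l2X_adj a ξ _) (l2X_adj a _ _)
  have e : l2J (ξ * Vh θ a) = l2J ξ + (Complex.I * θ) • l2J (ξ * l2X a)
      + (-(θ : ℂ) ^ 2 / 2) • l2J (ξ * l2X a * l2X a) := by
    rw [l2_Vh, mul_add, mul_add, mul_one, mul_smul_comm, mul_smul_comm, map_add, map_add, map_smul,
      map_smul, mul_assoc]
  rw [← e, l2J_norm_sq, l2J_norm_sq ξ] at h
  have h1 := l2X_norm a ξ
  have h2 := l2X_norm a (ξ * l2X a)
  have h3 : ‖l2J (ξ * l2X a * l2X a)‖ ^ 2 ≤ 16 * l2 ξ := by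
    rw [← l2J_norm_sq]
    have : ‖l2J (ξ * l2X a * l2X a)‖ ≤ 4 * ‖l2J ξ‖ := by linarith
    nlinarith [norm_nonneg (l2J (ξ * l2X a * l2X a))]
  have h4 : 0 ≤ θ ^ 4 / 4 := by positivity
  rw [h]
  constructor
  · nlinarith [sq_nonneg ‖l2J (ξ * l2X a * l2X a)‖]
  · nlinarith [mul_le_mul_of_nonneg_left h3 h4]

omit [DecidableEq α] in
lemma l2_mul_xi (θ : ℝ) (ps : List α) (ξ : MonoidAlgebra ℂ (FreeGroup α)) :
    l2 ξ ≤ l2 (ξ * xi θ ps) ∧ l2 (ξ * xi θ ps) ≤ (1 + 4 * θ ^ 4) ^ ps.length * l2 ξ := by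
  induction ps generalizing ξ with
  | nil => simp [xi]
  | cons a ps ih =>
    rw [l2_xi_cons, ← mul_assoc]
    obtain ⟨h1, h2⟩ := l2_mul_Vh θ a ξ
    obtain ⟨h3, h4⟩ := ih (ξ * Vh θ a)
    refine ⟨h1.trans h3, h4.trans ?_⟩
    rw [List.length_cons, pow_succ _ ps.length, mul_assoc]
    exact mul_le_mul_of_nonneg_left h2 (by positivity)

omit [DecidableEq α] in
lemma l2_one : l2 (1 : MonoidAlgebra ℂ (FreeGroup α)) = 1 := by
  rw [l2_eq_sum (s := {1})]
  · simp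
  · intro w hw
    rw [Finset.mem_singleton] at hw
    simp [MonoidAlgebra.one_def, hw]

omit [DecidableEq α] in
theorem l2_xi (θ : ℝ) (ps : List α) :
    1 ≤ l2 (xi θ ps) ∧ l2 (xi θ ps) ≤ (1 + 4 * θ ^ 4) ^ ps.length := by
  have := l2_mul_xi θ ps 1
  rwa [one_mul, l2_one, mul_one] at this

/-- Split `ξ = ξ₀ + ξ₁` with `ξ₀` supported on the words that do not end in type `true`. The
support of `xi θ P` consists of products of letters of `P`, and its coefficient at `1` is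
`(1 - θ²) ^ P.length` (distinct letters). If `w` does not end in type `true` and `y ≠ 1` is a
product of letters of type `true`, then `w * y` ends in type `true`. So the part of `ξ₀ * xi θ P`
that does not end in type `true` is `(1 - θ²) ^ m • ξ₀`. -/
theorem endMass_mul (ty : α → Bool) {θ : ℝ} (h1 : |θ| ≤ 1) {P : List α} (hP : P.Nodup)
    (hty : ∀ a ∈ P, ty a = true) (ξ : MonoidAlgebra ℂ (FreeGroup α)) :
    √(endMass ty (ξ * xi θ P)) ≤ (1 - θ ^ 2) ^ P.length * √(l2 ξ)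
      + √((1 + 4 * θ ^ 4) ^ P.length) * √(l2 ξ - endMass ty ξ) := by
  have e : l2P ty (ξ * xi θ P) = (1 - (θ : ℂ) ^ 2) ^ P.length • l2P ty ξ
      + l2P ty ((ξ - l2P ty ξ) * xi θ P) := by
    rw [← l2P_mul ty θ hP hty, ← l2P_add, ← add_mul, add_sub_cancel]
  have hθ : 0 ≤ 1 - θ ^ 2 := by
    have := sq_le_sq' (abs_le.1 h1).1 (abs_le.1 h1).2
    linarith
  rw [l2_endMass, l2_sqrt, e, map_add, map_smul]
  refine (norm_add_le _ _).trans (add_le_add ?_ ?_)
  · have : ‖(1 - (θ : ℂ) ^ 2) ^ P.length‖ = (1 - θ ^ 2) ^ P.length := by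
      rw [norm_pow, show (1 - (θ : ℂ) ^ 2) = ((1 - θ ^ 2 : ℝ) : ℂ) by push_cast; rfl,
        Complex.norm_real, Real.norm_of_nonneg hθ]
    rw [norm_smul, this, ← l2_sqrt, ← l2_endMass]
    exact mul_le_mul_of_nonneg_left (Real.sqrt_le_sqrt (l2_endMass_le ty ξ)) (by positivity)
  · rw [← l2_sqrt, ← l2_endMass, l2_sub_endMass, ← Real.sqrt_mul (by positivity)]
    exact Real.sqrt_le_sqrt ((l2_endMass_le ty _).trans (l2_mul_xi θ P _).2)

/-- Induction over the `2 k` blocks: a word ending in type `true` does not end in type `false`,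
so `l2 ξ - endMass ty ξ ≤ endMass (!ty) ξ`; for `ξ = 1` it is `0`. After `j` blocks
`√endMass ≤ j κ R ^ j`, `κ = (1 - θ²) ^ m`, `R = √((1 + 4 θ⁴) ^ m)`. -/
theorem endMass_rounds (ty : α → Bool) {θ : ℝ} (h1 : |θ| ≤ 1) {P P' : List α} {m : ℕ}
    (hP : P.Nodup) (hP' : P'.Nodup) (hm : P.length = m) (hm' : P'.length = m)
    (hty : ∀ a ∈ P, ty a = false) (hty' : ∀ a ∈ P', ty a = true) {k : ℕ} (hk : 1 ≤ k) :
    endMass ty (xi θ (rounds P P' k))
      ≤ (2 * k * (1 - θ ^ 2) ^ m) ^ 2 * (1 + 4 * θ ^ 4) ^ (2 * m * k) := by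
  set κ : ℝ := (1 - θ ^ 2) ^ m with hκ
  set R : ℝ := √((1 + 4 * θ ^ 4) ^ m) with hR
  have hθ : 0 ≤ 1 - θ ^ 2 := by
    have := sq_le_sq' (abs_le.1 h1).1 (abs_le.1 h1).2
    linarith
  have hκ0 : 0 ≤ κ := by positivity
  have hb : (1 : ℝ) ≤ (1 + 4 * θ ^ 4) ^ m := one_le_pow₀ (by nlinarith [sq_nonneg (θ ^ 2)])
  have hR1 : 1 ≤ R := Real.one_le_sqrt.2 hb
  have hR2 : R ^ 2 = (1 + 4 * θ ^ 4) ^ m := Real.sq_sqrt (by positivity)
  -- one block
  have step : ∀ (t : α → Bool) (Q : List α), Q.Nodup → Q.length = m → (∀ a ∈ Q, t a = true) →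
      ∀ (ξ : MonoidAlgebra ℂ (FreeGroup α)) (j : ℕ), √(l2 ξ) ≤ R ^ j →
      √(l2 ξ - endMass t ξ) ≤ j * κ * R ^ j →
      √(l2 (ξ * xi θ Q)) ≤ R ^ (j + 1) ∧
        √(endMass t (ξ * xi θ Q)) ≤ ((j + 1 : ℕ) : ℝ) * κ * R ^ (j + 1) := by
    intro t Q hQ hQm hQt ξ j a1 a2
    constructor
    · have := (l2_mul_xi θ Q ξ).2
      rw [hQm] at this
      refine (Real.sqrt_le_sqrt this).trans ?_
      rw [Real.sqrt_mul (by positivity), ← hR, pow_succ']
      exact mul_le_mul_of_nonneg_left a1 (by positivity)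
    · have := endMass_mul t h1 hQ hQt ξ
      rw [hQm, ← hκ, ← hR] at this
      refine this.trans ?_
      have b1 : κ * √(l2 ξ) ≤ κ * R ^ (j + 1) :=
        mul_le_mul_of_nonneg_left (a1.trans (pow_le_pow_right₀ hR1 (Nat.le_succ j))) hκ0
      have b2 : R * √(l2 ξ - endMass t ξ) ≤ R * (j * κ * R ^ j) :=
        mul_le_mul_of_nonneg_left a2 (by positivity)
      push_cast
      calc _ ≤ κ * R ^ (j + 1) + R * (j * κ * R ^ j) := add_le_add b1 b2
        _ = _ := by ring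
  have c1 : ∀ a, (fun a => !ty a) a = true → ty a = false := fun a h => by simpa using h
  have c2 : ∀ a, ty a = true → (fun a => !ty a) a = false := fun a h => by simpa using h
  have two : ∀ j : ℕ, √(l2 (xi θ (rounds P P' j))) ≤ R ^ (2 * j) →
      √(l2 (xi θ (rounds P P' j)) - endMass (fun a => !ty a) (xi θ (rounds P P' j)))
        ≤ ((2 * j : ℕ) : ℝ) * κ * R ^ (2 * j) →
      √(l2 (xi θ (rounds P P' (j + 1)))) ≤ R ^ (2 * (j + 1)) ∧
        √(endMass ty (xi θ (rounds P P' (j + 1))))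
          ≤ ((2 * (j + 1) : ℕ) : ℝ) * κ * R ^ (2 * (j + 1)) := by
    intro j a1 a2
    have e : xi θ (rounds P P' (j + 1)) = xi θ (rounds P P' j) * xi θ P * xi θ P' := by
      rw [rounds, List.replicate_succ', List.flatten_concat, l2_xi_append, l2_xi_append,
        mul_assoc, rounds]
    obtain ⟨b1, b2⟩ := step (fun a => !ty a) P hP hm (fun a ha => by simp [hty a ha]) _ _ a1 a2
    rw [e]
    exact step ty P' hP' hm' hty' _ _ b1 ((Real.sqrt_le_sqrt (l2_compl c2 _)).trans b2)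
  have all : ∀ j : ℕ, √(l2 (xi θ (rounds P P' j))) ≤ R ^ (2 * j) ∧
      √(l2 (xi θ (rounds P P' j)) - endMass (fun a => !ty a) (xi θ (rounds P P' j)))
        ≤ ((2 * j : ℕ) : ℝ) * κ * R ^ (2 * j) := by
    intro j
    induction j with
    | zero =>
      have e : xi θ (rounds P P' 0) = 1 := by simp [rounds, xi]
      have e2 : l2P (fun a => !ty a) (1 : MonoidAlgebra ℂ (FreeGroup α)) = 1 := by
        ext w
        rw [l2P_coeff]
        split_ifs with hw
        · have : w ≠ 1 := by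
            rintro rfl
            obtain ⟨l, x, e, -⟩ := hw
            simp at e
          simp [MonoidAlgebra.one_def, this]
        · rfl
      rw [e, l2_endMass, e2, l2_one]
      simp
    | succ j ih =>
      obtain ⟨b1, b2⟩ := two j ih.1 ih.2
      exact ⟨b1, (Real.sqrt_le_sqrt (l2_compl c1 _)).trans b2⟩
  obtain ⟨j, rfl⟩ : ∃ j, k = j + 1 := ⟨k - 1, by omega⟩
  have h2 := (two j (all j).1 (all j).2).2
  rw [Real.sqrt_le_left (by positivity)] at h2
  refine h2.trans (le_of_eq ?_)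
  rw [mul_pow, ← pow_mul, mul_comm (2 * (j + 1)) 2, pow_mul, hR2, ← pow_mul]
  push_cast
  ring

end Crest.Agent.R121
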