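import Crest.Agent.R121.Basic

/-! Row 121: the main estimate of the expansion. -/

set_option autoImplicit false

open scoped ComplexOrder InnerProductSpace ComplexConjugate

namespace Crest.Agent.R121

open Crest.Agent.R095 (Tr lt)
open Crest.Agent.R124

variable {Q : Type*} [CStarAlgebra Q]

/-- `gam β (evA g ξ) = ∑ w w', conj (ξ w) * ξ w' * β (ev w)⋆ (ev w')`. Off-diagonal terms:
at most `C * badSum ξ + η * l1 ξ ^ 2`. Diagonal terms `‖ξ w‖² G w` with `G w ≥ -C`, and `G w ≥ a`
if `w.toWord = l ++ [x]` with `ty x.1` and `x.1 ∉ lets l`; if `x.1 ∈ lets l` then `Bad w w`. -/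
theorem main_est {α : Type} [DecidableEq α] {β : Fm Q} {C : ℝ} (hC : 0 ≤ C) (h0 : B0 β C)
    {ty : α → Bool} {a η : ℝ} (ha : |a| ≤ C) (hη : 0 ≤ η) {Ω : Type} [Fintype Ω] [Nonempty Ω]
    {g : Ω → α → Q} (hg : Let1 β ty a η g) (ξ : MonoidAlgebra ℂ (FreeGroup α)) (hξ : 1 ≤ l2 ξ) :
    a - (C * (l2 ξ - 1) + 2 * C * endMass ty ξ + 3 * C * badSum ξ + η * l1 ξ ^ 2)
      ≤ ex fun ω => (gam β (evA (g ω) ξ)).re := by
  classical
  set S := ξ.coeff.support with hS
  set c : FreeGroup α → ℂ := fun w => ξ.coeff w with hc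
  set Γ : FreeGroup α → FreeGroup α → ℂ := fun w w' =>
    ex fun ω => β (star (ev (g ω) w.toWord)) (ev (g ω) w'.toWord) with hΓ
  have hu : ∀ ω (w : FreeGroup α), ev (g ω) w.toWord ∈ unitary Q := fun ω w =>
    ev_mem_unitary (hg.unit ω) _
  have hΓC : ∀ w w', ‖Γ w w'‖ ≤ C := fun w w' => norm_ex_le_const fun ω => (h0 _ _).trans (by
    rw [norm_star, mul_assoc]
    exact mul_le_of_le_one_right hC (mul_le_one₀ (norm_le_one_of_unitary (hu ω w))
      (norm_nonneg _) (norm_le_one_of_unitary (hu ω w'))))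
  have h1 : ex (fun ω => (gam β (evA (g ω) ξ)).re)
      = ∑ w ∈ S, ∑ w' ∈ S, (conj (c w) * c w' * Γ w w').re := by
    rw [← re_ex]
    simp only [← Complex.re_sum]
    congr 1
    simp only [gam, evA, star_sum, star_smul, map_sum, map_smul, LinearMap.sum_apply,
      LinearMap.smul_apply, ex_sum, ex_complex_smul, hΓ]
    rw [Finset.sum_comm]
    refine Finset.sum_congr rfl fun w _ => ?_
    rw [Finset.smul_sum]
    refine Finset.sum_congr rfl fun w' _ => ?_
    simp only [smul_eq_mul, Complex.star_def, hc]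
    ring
  have h2 : ∀ w w', (if w = w' then a * ‖c w‖ ^ 2
        - 2 * C * (if EndsIn ty w then 0 else ‖c w‖ ^ 2) else 0)
      - 3 * C * (if Bad w w' then ‖c w‖ * ‖c w'‖ else 0) - η * (‖c w‖ * ‖c w'‖)
      ≤ (conj (c w) * c w' * Γ w w').re := fun w w' => by
    have hn : 0 ≤ ‖c w‖ * ‖c w'‖ := by positivity
    have hre : ∀ {D : ℝ}, ‖Γ w w'‖ ≤ D →
        -(D * (‖c w‖ * ‖c w'‖)) ≤ (conj (c w) * c w' * Γ w w').re := fun {D} hD => by
      refine le_trans ?_ (abs_le.1 (Complex.abs_re_le_norm _)).1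
      rw [norm_mul, norm_mul, Complex.norm_conj, neg_le_neg_iff, mul_comm D]
      exact mul_le_mul_of_nonneg_left hD hn
    have ha' := abs_le.1 ha
    by_cases hw : w = w'
    · subst hw
      rw [if_pos rfl]
      have hn2 : ‖c w‖ * ‖c w‖ = ‖c w‖ ^ 2 := (sq _).symm
      have h3 := hre (hΓC w w)
      rw [hn2] at h3 hn ⊢
      by_cases hb : Bad w w
      · rw [if_pos hb]
        split_ifs <;> nlinarith [mul_nonneg hC hn, mul_nonneg hη hn]
      · rw [if_neg hb]
        by_cases he : EndsIn ty w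
        · rw [if_pos he]
          obtain ⟨l, x, hl, hx⟩ := he
          have hxl : x.1 ∉ lets l := fun hm => hb ⟨fun b => ⟨_, rfl⟩, x.1, by
            have := List.count_pos_iff.2 hm
            simp only [cnt, hl, lets_append, lets_cons, lets_nil, List.count_append,
              List.count_cons_self, List.count_nil]
            omega⟩
          have h4 := hg.up l x hxl hx
          have h5 : (conj (c w) * c w * Γ w w).re
              = ‖c w‖ ^ 2 * ex fun ω => (gam β (ev (g ω) (l ++ [x]))).re := by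
            rw [Complex.conj_mul', ← Complex.ofReal_pow, Complex.re_ofReal_mul, hΓ]
            simp only [re_ex, gam, hl]
          rw [h5]
          nlinarith [mul_le_mul_of_nonneg_left h4 hn, mul_nonneg hη hn]
        · rw [if_neg he]
          nlinarith [mul_nonneg hC hn, mul_nonneg hη hn]
    · rw [if_neg hw]
      by_cases hb : Bad w w'
      · rw [if_pos hb]
        nlinarith [hre (hΓC w w'), mul_nonneg hC hn, mul_nonneg hη hn]
      · rw [if_neg hb]
        nlinarith [hre (hg.off w w' hw hb)]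
  rw [h1]
  refine le_trans ?_ (Finset.sum_le_sum fun w _ => Finset.sum_le_sum fun w' _ => h2 w w')
  have e1 : ∑ w ∈ S, ∑ w' ∈ S, (if w = w' then a * ‖c w‖ ^ 2
        - 2 * C * (if EndsIn ty w then 0 else ‖c w‖ ^ 2) else 0)
      = a * l2 ξ - 2 * C * endMass ty ξ := by
    rw [l2, endMass, Finset.mul_sum, Finset.mul_sum, ← Finset.sum_sub_distrib]
    refine Finset.sum_congr rfl fun w hw => ?_
    rw [Finset.sum_ite_eq, if_pos hw]
  have e2 : ∑ w ∈ S, ∑ w' ∈ S, 3 * C * (if Bad w w' then ‖c w‖ * ‖c w'‖ else 0)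
      = 3 * C * badSum ξ := by
    simp only [badSum, Finset.mul_sum]
    rfl
  have e3 : ∑ w ∈ S, ∑ w' ∈ S, η * (‖c w‖ * ‖c w'‖) = η * l1 ξ ^ 2 := by
    rw [l1, sq, Finset.sum_mul_sum]
    simp only [Finset.mul_sum]
    rfl
  simp only [Finset.sum_sub_distrib]
  rw [e1, e2, e3]
  nlinarith [mul_nonneg (show 0 ≤ a + C by linarith [(abs_le.1 ha).1]) (sub_nonneg.2 hξ)]

end Crest.Agent.R121
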