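import Crest.Agent.R121.Basic

/-! Row 121: unitaries close to the Taylor polynomials. -/

set_option autoImplicit false

open scoped ComplexOrder InnerProductSpace ComplexConjugate

namespace Crest.Agent.R121

open Crest.Agent.R095 (Tr lt)
open Crest.Agent.R124

variable {Q : Type*} [CStarAlgebra Q]

lemma star_Vq (θ : ℝ) (x : Q) : star (Vq θ x) = Vq (-θ) x := by
  simp [Vq, tay, add_comm]

/-- `X = x + x⋆` is self-adjoint, `‖X‖ ≤ 2`, `Vq θ x = 1 + i θ X - θ² X² / 2`; take
`U = exp (i θ X)` (`selfAdjoint.expUnitary`, or `cfc`). -/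
theorem exists_unitary_near {x : Q} (hx : x ∈ unitary Q) {θ : ℝ} (h1 : |θ| ≤ 1) :
    ∃ U ∈ unitary Q, ‖U - Vq θ x‖ ≤ 10 * |θ| ^ 3 := by
  set X := x + star x with hX
  have hXs : IsSelfAdjoint X := IsSelfAdjoint.add_star_self x
  have hXn : ‖X‖ ≤ 2 := by
    have := norm_le_one_of_unitary hx
    have h2 := norm_add_le x (star x)
    rw [norm_star] at h2
    linarith
  have hN : IsStarNormal X := hXs.isStarNormal
  have hsp : ∀ z ∈ spectrum ℂ X, ∃ t : ℝ, z = t ∧ |t| ≤ 2 := fun z hz => by
    refine ⟨z.re, hXs.mem_spectrum_eq_re hz, (Complex.abs_re_le_norm z).trans ?_⟩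
    rcases subsingleton_or_nontrivial Q with hQ | hQ
    · simp [spectrum.of_subsingleton] at hz
    · exact (spectrum.norm_le_norm_of_mem hz).trans hXn
  have hV : Vq θ x = cfc (fun z : ℂ => 1 + (Complex.I * θ) * z + (-(θ : ℂ) ^ 2 / 2) * (z * z)) X := by
    rw [cfc_add .., cfc_add .., cfc_const_mul .., cfc_const_mul .., cfc_mul .., cfc_id' ℂ X,
      cfc_const_one ℂ X]
    have e1 : X * X = x * x + star x * star x + (2 : ℂ) • (1 : Q) := by
      rw [hX, add_mul, mul_add, mul_add, Unitary.mul_star_self_of_mem hx,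
        Unitary.star_mul_self_of_mem hx, two_smul]
      abel
    rw [e1]
    simp only [Vq, tay, ← hX]
    norm_num
    module
  refine ⟨cfc (fun z : ℂ => Complex.exp (Complex.I * θ * z)) X, ?_, ?_⟩
  · rw [cfc_unitary_iff ..]
    intro z hz
    obtain ⟨t, rfl, -⟩ := hsp z hz
    rw [Complex.star_def, ← Complex.exp_conj, ← Complex.exp_add]
    simp
  · rw [hV, ← cfc_sub ..]
    refine norm_cfc_le (by positivity) fun z hz => ?_
    obtain ⟨t, rfl, ht⟩ := hsp z hz
    have h2 : ‖Complex.I * θ * t‖ ≤ 2 * |θ| := by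
      simp only [norm_mul, Complex.norm_I, Complex.norm_real, Real.norm_eq_abs, one_mul]
      nlinarith [abs_nonneg θ]
    have h3 := Complex.exp_bound' (x := Complex.I * θ * t) (n := 3) (by
      norm_num at h2 ⊢
      linarith)
    have e : ∑ m ∈ Finset.range 3, (Complex.I * θ * t) ^ m / (m.factorial : ℂ)
        = 1 + Complex.I * θ * t + -(θ : ℂ) ^ 2 / 2 * (t * t) := by
      simp only [Finset.sum_range_succ, Finset.range_zero, Finset.sum_empty, Nat.factorial]
      norm_num
      linear_combination (θ ^ 2 * t ^ 2 / 2 : ℂ) * Complex.I_sq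
    rw [e] at h3
    refine h3.trans ?_
    have h4 := pow_le_pow_left₀ (norm_nonneg _) h2 3
    have h5 : 0 ≤ |θ| ^ 3 := by positivity
    norm_num [Nat.factorial] at h4 ⊢
    nlinarith

theorem norm_prod_sub_prod_le {α : Type*} (U W : α → Q) (hU : ∀ a, U a ∈ unitary Q) {ε : ℝ}
    (hε : 0 ≤ ε) (h : ∀ a, ‖U a - W a‖ ≤ ε) (ps : List α) :
    ‖(ps.map U).prod - (ps.map W).prod‖ ≤ (1 + ε) ^ ps.length - 1 := by
  induction ps with
  | nil => simp
  | cons a ps ih =>
    simp only [List.map_cons, List.prod_cons, List.length_cons]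
    have hP : (ps.map U).prod ∈ unitary Q := list_prod_mem fun y hy => by
      obtain ⟨b, -, rfl⟩ := List.mem_map.1 hy
      exact hU b
    have hW : ‖W a‖ ≤ 1 + ε := by
      have := norm_sub_le (U a) (U a - W a)
      rw [sub_sub_cancel] at this
      linarith [norm_le_one_of_unitary (hU a), h a]
    have e : U a * (ps.map U).prod - W a * (ps.map W).prod
        = (U a - W a) * (ps.map U).prod + W a * ((ps.map U).prod - (ps.map W).prod) := by
      noncomm_ring
    rw [e]
    refine (norm_add_le _ _).trans ?_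
    rw [CStarRing.norm_mul_mem_unitary _ hP]
    have h2 : ‖W a * ((ps.map U).prod - (ps.map W).prod)‖ ≤ (1 + ε) * ((1 + ε) ^ ps.length - 1) :=
      (norm_mul_le _ _).trans (mul_le_mul hW ih (norm_nonneg _) (by positivity))
    rw [pow_succ']
    linarith [h a]

/-- `w ↦ ev g w.toWord` is a monoid homomorphism (`ev_toWord_mul`) and `evA g` is the algebra
homomorphism `MonoidAlgebra.lift` of it. -/
theorem evA_xi {α : Type} [DecidableEq α] {g : α → Q} (hg : ∀ a, g a ∈ unitary Q) (θ : ℝ)
    (ps : List α) : evA g (xi θ ps) = (ps.map fun a => Vq θ (g a)).prod := by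
  let F : FreeGroup α →* Q :=
    { toFun := fun w => ev g w.toWord
      map_one' := by simp
      map_mul' := ev_toWord_mul hg }
  have h1 : ∀ ξ, evA g ξ = MonoidAlgebra.lift ℂ Q (FreeGroup α) F ξ := fun ξ => by
    rw [MonoidAlgebra.lift_apply]
    rfl
  have hF : ∀ a, F (FreeGroup.of a) = g a := fun a => by
    change ev g (FreeGroup.of a).toWord = _
    simp [FreeGroup.toWord_of]
  have hF' : ∀ a, F (FreeGroup.of a)⁻¹ = star (g a) := fun a => by
    change ev g (FreeGroup.of a)⁻¹.toWord = _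
    simp [FreeGroup.toWord_of, FreeGroup.toWord_inv, FreeGroup.invRev]
  rw [h1, xi, map_list_prod, List.map_map]
  congr 1
  refine List.map_congr_left fun a _ => ?_
  have e : Finset.Icc (-2 : ℤ) 2 = {-2, -1, 0, 1, 2} := by decide
  simp only [Function.comp, Vh, map_sum, MonoidAlgebra.lift_single, e]
  rw [Finset.sum_insert (by decide), Finset.sum_insert (by decide), Finset.sum_insert (by decide),
    Finset.sum_insert (by decide), Finset.sum_singleton]
  have e2 : FreeGroup.of a ^ (2 : ℤ) = FreeGroup.of a * FreeGroup.of a := by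
    rw [zpow_two]
  have e3 : FreeGroup.of a ^ (-2 : ℤ) = (FreeGroup.of a)⁻¹ * (FreeGroup.of a)⁻¹ := by
    rw [zpow_neg, zpow_two, mul_inv_rev]
  rw [e2, e3, zpow_neg_one, zpow_zero, zpow_one, map_mul, map_mul, map_one, hF, hF']
  simp only [Vq, tay]
  norm_num
  module

/-- Continuity of `gam`. -/
theorem B0.gam_sub_le {β : Fm Q} {C : ℝ} (h : B0 β C) (hC : 0 ≤ C) {u x : Q} (hu : u ∈ unitary Q)
    {ε : ℝ} (hε : ‖u - x‖ ≤ ε) : ‖gam β u - gam β x‖ ≤ C * ε * (2 + ε) := by
  have h0 : 0 ≤ ε := (norm_nonneg _).trans hε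
  have hu1 := norm_le_one_of_unitary hu
  have hx : ‖x‖ ≤ 1 + ε := by
    have := norm_sub_le u (u - x)
    rw [sub_sub_cancel] at this
    linarith
  have e : gam β u - gam β x = β (star (u - x)) u + β (star x) (u - x) := by
    simp [gam]
  rw [e]
  refine (norm_add_le _ _).trans ?_
  have h1 : ‖β (star (u - x)) u‖ ≤ C * ε * 1 := (h _ _).trans (by rw [norm_star]; gcongr)
  have h2 : ‖β (star x) (u - x)‖ ≤ C * (1 + ε) * ε := (h _ _).trans (by rw [norm_star]; gcongr)
  nlinarith

end Crest.Agent.R121
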