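import Crest.Agent.R121.Letters
import Crest.Agent.R121.Count
import Crest.Agent.R121.L2
import Crest.Agent.R121.UApprox
import Crest.Agent.R121.MainEst

/-! Row 121: the random unitary. -/

set_option autoImplicit false

open scoped ComplexOrder InnerProductSpace ComplexConjugate

namespace Crest.Agent.R121

open Crest.Agent.R095 (Tr lt)
open Crest.Agent.R124

variable {Q : Type*} [CStarAlgebra Q]

lemma existsH_pow_le {x y : ℝ} (hx : 0 ≤ 1 + x) (N : ℕ) (h : N * x ≤ y) :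
    (1 + x) ^ N ≤ Real.exp y := by
  calc (1 + x) ^ N ≤ Real.exp x ^ N :=
        pow_le_pow_left₀ hx (by linarith [Real.add_one_le_exp x]) N
    _ = Real.exp (N * x) := (Real.exp_nat_mul x N).symm
    _ ≤ _ := Real.exp_le_exp.2 h

/-- Choose `c : ℕ` with `(2 K exp (-c))²` small, then `M` large, `θ = (√M)⁻¹`, `m = c M`
(`(1 - θ²) ^ m ≤ exp (-c)`; `N = 2 m K`; `N θ³`, `N θ⁴` and `2 m θ³ 25 ^ K exp (2 c 25 ^ K)` tend to
`0` as `M → ∞`), then `η` with `η 25 ^ N` small. -/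
theorem exists_params {C ε : ℝ} (hC : 0 ≤ C) (hε : 0 < ε) (K : ℕ) :
    ∃ (m : ℕ) (θ η : ℝ), 0 ≤ θ ∧ θ ≤ 1 ∧ 0 < η ∧ ∀ k ≤ K,
      C * ((1 + 4 * θ ^ 4) ^ (2 * m * k) - 1)
        + 2 * C * ((2 * k * (1 - θ ^ 2) ^ m) ^ 2 * (1 + 4 * θ ^ 4) ^ (2 * m * k))
        + 3 * C * ((2 * m : ℕ) * θ ^ 3 * 25 ^ k * Real.exp ((2 * m : ℕ) * θ ^ 2 * 25 ^ k))
        + η * (5 ^ (2 * m * k)) ^ 2
        + C * ((1 + 10 * θ ^ 3) ^ (2 * m * k) - 1) * (2 + ((1 + 10 * θ ^ 3) ^ (2 * m * k) - 1))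
        ≤ ε := by
  obtain ⟨c, hc⟩ : ∃ c : ℕ, 2 * C * (2 * K * Real.exp (-(c : ℝ))) ^ 2 < ε / 2 := by
    have h := (((Real.tendsto_exp_neg_atTop_nhds_zero.comp
      tendsto_natCast_atTop_atTop).const_mul (2 * (K : ℝ))).pow 2).const_mul (2 * C)
    have h0 : 2 * C * (2 * (K : ℝ) * 0) ^ 2 < ε / 2 := by simpa using hε
    exact (h.eventually (gt_mem_nhds h0)).exists
  let F : ℝ → ℝ := fun t => C * (Real.exp (8 * c * K * t ^ 2) - 1)
    + 2 * C * ((2 * K * Real.exp (-(c : ℝ))) ^ 2 * Real.exp (8 * c * K * t ^ 2))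
    + 3 * C * (2 * c * t * 25 ^ K * Real.exp (2 * c * 25 ^ K))
    + C * (Real.exp (20 * c * K * t) - 1) * (2 + (Real.exp (20 * c * K * t) - 1))
  have hF : Continuous F := by fun_prop
  have hF0 : F 0 < ε / 2 := by simpa [F] using hc
  obtain ⟨n, hn⟩ := (((hF.tendsto 0).comp tendsto_one_div_add_atTop_nhds_zero_nat).eventually
    (gt_mem_nhds hF0)).exists
  have hn' : F (1 / ((n : ℝ) + 1)) < ε / 2 := hn
  set θ : ℝ := 1 / ((n : ℝ) + 1) with hθ
  have hn1 : (0 : ℝ) < (n : ℝ) + 1 := by positivity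
  have hθ0 : 0 ≤ θ := by positivity
  have hθ1 : θ ≤ 1 := by
    rw [hθ, div_le_one hn1]
    linarith [Nat.cast_nonneg (α := ℝ) n]
  obtain ⟨m, hm⟩ : ∃ m : ℕ, (m : ℝ) * θ ^ 2 = c :=
    ⟨c * (n + 1) ^ 2, by rw [hθ]; push_cast; field_simp⟩
  refine ⟨m, θ, ε / 2 / (5 ^ (2 * m * K)) ^ 2, hθ0, hθ1, by positivity, fun k hk => ?_⟩
  have hk' : (k : ℝ) ≤ K := by exact_mod_cast hk
  have hc0 : (0 : ℝ) ≤ c := Nat.cast_nonneg c
  have e1 : (1 + 4 * θ ^ 4) ^ (2 * m * k) ≤ Real.exp (8 * c * K * θ ^ 2) := by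
    refine existsH_pow_le (by positivity) _ ?_
    calc ((2 * m * k : ℕ) : ℝ) * (4 * θ ^ 4) = 8 * (m * θ ^ 2) * k * θ ^ 2 := by push_cast; ring
      _ ≤ _ := by rw [hm]; gcongr
  have e2 : (1 + 10 * θ ^ 3) ^ (2 * m * k) ≤ Real.exp (20 * c * K * θ) := by
    refine existsH_pow_le (by positivity) _ ?_
    calc ((2 * m * k : ℕ) : ℝ) * (10 * θ ^ 3) = 20 * (m * θ ^ 2) * k * θ := by push_cast; ring
      _ ≤ _ := by rw [hm]; gcongr
  have hθ2 : 0 ≤ 1 - θ ^ 2 := by nlinarith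
  have e3 : (1 - θ ^ 2) ^ m ≤ Real.exp (-(c : ℝ)) := by
    rw [sub_eq_add_neg]
    refine existsH_pow_le (by linarith) _ ?_
    rw [← hm]
    linarith
  have e4 : 1 ≤ (1 + 10 * θ ^ 3) ^ (2 * m * k) := one_le_pow₀ (by linarith [pow_nonneg hθ0 3])
  have t1 : C * ((1 + 4 * θ ^ 4) ^ (2 * m * k) - 1) ≤ C * (Real.exp (8 * c * K * θ ^ 2) - 1) := by
    gcongr
  have t2 : 2 * C * ((2 * k * (1 - θ ^ 2) ^ m) ^ 2 * (1 + 4 * θ ^ 4) ^ (2 * m * k)) ≤
      2 * C * ((2 * K * Real.exp (-(c : ℝ))) ^ 2 * Real.exp (8 * c * K * θ ^ 2)) := by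
    gcongr
  have t3 : 3 * C * ((2 * m : ℕ) * θ ^ 3 * 25 ^ k * Real.exp ((2 * m : ℕ) * θ ^ 2 * 25 ^ k)) ≤
      3 * C * (2 * c * θ * 25 ^ K * Real.exp (2 * c * 25 ^ K)) := by
    have a1 : ((2 * m : ℕ) : ℝ) * θ ^ 3 = 2 * c * θ := by rw [← hm]; push_cast; ring
    have a2 : ((2 * m : ℕ) : ℝ) * θ ^ 2 = 2 * c := by rw [← hm]; push_cast; ring
    rw [a1, a2]
    gcongr <;> norm_num
  have t4 : ε / 2 / (5 ^ (2 * m * K)) ^ 2 * (5 ^ (2 * m * k)) ^ 2 ≤ ε / 2 := by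
    rw [div_mul_eq_mul_div, div_le_iff₀ (by positivity)]
    gcongr
    norm_num
  have t5 : C * ((1 + 10 * θ ^ 3) ^ (2 * m * k) - 1) * (2 + ((1 + 10 * θ ^ 3) ^ (2 * m * k) - 1)) ≤
      C * (Real.exp (20 * c * K * θ) - 1) * (2 + (Real.exp (20 * c * K * θ) - 1)) := by
    have a1 : 0 ≤ Real.exp (20 * c * K * θ) - 1 := by linarith
    have a2 : 0 ≤ 2 + ((1 + 10 * θ ^ 3) ^ (2 * m * k) - 1) := by linarith
    gcongr
  simp only [F] at hn'
  linarith

lemma existsH_rounds_succ {α : Type} (P P' : List α) (k : ℕ) :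
    rounds P P' (k + 1) = (P ++ P') ++ rounds P P' k := by
  simp [rounds, List.replicate_succ]

lemma existsH_length_rounds {α : Type} (P P' : List α) (k : ℕ) :
    (rounds P P' k).length = (P.length + P'.length) * k := by
  induction k with
  | zero => simp [rounds]
  | succ k ih => rw [existsH_rounds_succ, List.length_append, List.length_append, ih]; ring

lemma existsH_count_rounds {α : Type} [DecidableEq α] {P P' : List α} (h : (P ++ P').Nodup)
    (k : ℕ) (a : α) : (rounds P P' k).count a ≤ k := by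
  induction k with
  | zero => simp [rounds]
  | succ k ih =>
    rw [existsH_rounds_succ, List.count_append]
    have := List.nodup_iff_count_le_one.1 h a
    omega

lemma existsH_prod_rounds {α : Type} (U : α → Q) (P P' : List α) (k : ℕ) :
    ((rounds P P' k).map U).prod = ((P ++ P').map U).prod ^ k := by
  induction k with
  | zero => simp [rounds]
  | succ k ih => rw [existsH_rounds_succ, List.map_append, List.prod_append, ih, pow_succ']

lemma existsH_star_prod {α : Type} (U : α → Q) (l : List α) :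
    star (l.map U).prod = (l.reverse.map fun a => star (U a)).prod := by
  induction l with
  | nil => simp
  | cons a l ih =>
    rw [List.map_cons, List.prod_cons, star_mul, ih, List.reverse_cons, List.map_append,
      List.prod_append]
    simp

lemma existsH_prod_unitary {α : Type} {U : α → Q} (hU : ∀ a, U a ∈ unitary Q) (l : List α) :
    (l.map U).prod ∈ unitary Q := by
  induction l with
  | nil => exact one_mem _
  | cons a l ih => rw [List.map_cons, List.prod_cons]; exact mul_mem (hU a) ih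

lemma existsH_core {α : Type} [Fintype α] [DecidableEq α] {β : Fm Q} {C : ℝ} (hC : 0 ≤ C)
    (h0 : B0 β C) {ty : α → Bool} {a η : ℝ} (ha : |a| ≤ C) (hη : 0 ≤ η) {Ω : Type} [Fintype Ω]
    [Nonempty Ω] {g : Ω → α → Q} (hg : Let1 β ty a η g) {P P' : List α} {m : ℕ}
    (hcard : Fintype.card α = 2 * m) (hP : P.Nodup) (hP' : P'.Nodup) (hm : P.length = m)
    (hm' : P'.length = m) (hty : ∀ x ∈ P, ty x = false) (hty' : ∀ x ∈ P', ty x = true)
    {θ θ' : ℝ} (hθ : |θ'| = θ) (hθ1 : θ ≤ 1) {U : Ω → α → Q} (hU : ∀ ω x, U ω x ∈ unitary Q)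
    (hUV : ∀ ω x, ‖U ω x - Vq θ' (g ω x)‖ ≤ 10 * θ ^ 3) {k : ℕ} (hk : 1 ≤ k) :
    a - (C * ((1 + 4 * θ ^ 4) ^ (2 * m * k) - 1)
        + 2 * C * ((2 * k * (1 - θ ^ 2) ^ m) ^ 2 * (1 + 4 * θ ^ 4) ^ (2 * m * k))
        + 3 * C * ((2 * m : ℕ) * θ ^ 3 * 25 ^ k * Real.exp ((2 * m : ℕ) * θ ^ 2 * 25 ^ k))
        + η * (5 ^ (2 * m * k)) ^ 2
        + C * ((1 + 10 * θ ^ 3) ^ (2 * m * k) - 1) * (2 + ((1 + 10 * θ ^ 3) ^ (2 * m * k) - 1)))
      ≤ ex fun ω => (gam β (((P ++ P').map (U ω)).prod ^ k)).re := by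
  have hθ0 : 0 ≤ θ := hθ ▸ abs_nonneg θ'
  have hθ' : |θ'| ≤ 1 := hθ ▸ hθ1
  have s2 : θ' ^ 2 = θ ^ 2 := by rw [← hθ, sq_abs]
  have s4 : θ' ^ 4 = θ ^ 4 := by
    rw [show θ' ^ 4 = (θ' ^ 2) ^ 2 by ring, s2]; ring
  have hnd : (P ++ P').Nodup := by
    refine List.nodup_append.2 ⟨hP, hP', fun x hx y hy hxy => ?_⟩
    have := hty x hx
    rw [hxy, hty' y hy] at this
    cases this
  have hlen : (rounds P P' k).length = 2 * m * k := by
    rw [existsH_length_rounds, hm, hm']; ring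
  obtain ⟨l2a, l2b⟩ := l2_xi θ' (rounds P P' k)
  have hmain := main_est hC h0 ha hη hg (xi θ' (rounds P P' k)) l2a
  have b1 := endMass_rounds ty hθ' hP hP' hm hm' hty hty' hk
  have b2 := badSum_xi_le hθ' (rounds P P' k) (existsH_count_rounds hnd k)
  have b3 := l1_xi_le hθ' (rounds P P' k)
  have b4 : 0 ≤ l1 (xi θ' (rounds P P' k)) := Finset.sum_nonneg fun _ _ => norm_nonneg _
  rw [hlen] at l2b b3
  rw [s4] at l2b
  rw [s2, s4] at b1
  rw [hcard, hθ, s2] at b2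
  have c1 : C * (l2 (xi θ' (rounds P P' k)) - 1) ≤ C * ((1 + 4 * θ ^ 4) ^ (2 * m * k) - 1) := by
    gcongr
  have c2 := mul_le_mul_of_nonneg_left b1 (show 0 ≤ 2 * C by positivity)
  have c3 := mul_le_mul_of_nonneg_left b2 (show 0 ≤ 3 * C by positivity)
  have c4 : η * l1 (xi θ' (rounds P P' k)) ^ 2 ≤ η * (5 ^ (2 * m * k)) ^ 2 := by gcongr
  have c5 : ex (fun ω => (gam β (evA (g ω) (xi θ' (rounds P P' k)))).re -
      C * ((1 + 10 * θ ^ 3) ^ (2 * m * k) - 1) * (2 + ((1 + 10 * θ ^ 3) ^ (2 * m * k) - 1))) ≤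
      ex fun ω => (gam β (((P ++ P').map (U ω)).prod ^ k)).re := by
    refine ex_mono fun ω => ?_
    have d1 := norm_prod_sub_prod_le (U ω) (fun x => Vq θ' (g ω x)) (hU ω)
      (show 0 ≤ 10 * θ ^ 3 by positivity) (hUV ω) (rounds P P' k)
    rw [hlen, ← evA_xi (hg.unit ω)] at d1
    have d2 := h0.gam_sub_le hC (existsH_prod_unitary (hU ω) (rounds P P' k)) d1
    rw [existsH_prod_rounds] at d2
    have d3 := (abs_le.1 ((Complex.abs_re_le_norm _).trans d2)).1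
    rw [Complex.sub_re] at d3
    linarith
  rw [ex_sub, ex_const] at c5
  linarith

/-- Letters `Fin (2 m)`, `ty x = (m ≤ x)`, `P` the list of the first `m` letters, `P'` of the last
`m`. `U ω x` from `exists_unitary_near`, `h ω = ((P ++ P').map (U ω)).prod`, so
`h ^ k = ((rounds P P' k).map U).prod` and
`star h ^ k = ((rounds P'.reverse P.reverse k).map (star ∘ U)).prod`, with
`‖star U - Vq (-θ) g‖ ≤ 10 θ³`. Combine `main_est`, `evA_xi`, `norm_prod_sub_prod_le`,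
`gam_sub_le` and the bounds of `Count` and `L2`. -/
theorem exists_h (τ : Tr Q) (hQ : Halving Q) {β : Fm Q} {C : ℝ} (hC : 0 ≤ C) (h1 : B1 τ β C)
    (h2 : B2 τ β C) {a b C' : ℝ} (hCC : C ≤ C') (ha : |a| ≤ C') (hb : |b| ≤ C') (hp : Up β a)
    (hm : Up (-β) b) (K : ℕ) {ε : ℝ} (hε : 0 < ε) :
    ∃ (Ω : Type) (_ : Fintype Ω) (_ : Nonempty Ω) (h : Ω → Q), (∀ ω, h ω ∈ unitary Q) ∧
      ∀ k, 1 ≤ k → k ≤ K → a - ε ≤ ex (fun ω => (gam β (h ω ^ k)).re) ∧
        b - ε ≤ ex fun ω => (gam (-β) (star (h ω) ^ k)).re := by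
  have hC' : 0 ≤ C' := hC.trans hCC
  have h0 : B0 β C' := (h1.b0 hC).mono hCC
  obtain ⟨m, θ, η, hθ0, hθ1, hη, hk⟩ := exists_params hC' hε K
  obtain ⟨Ω, _, _, g, hg, hg'⟩ := exists_letters τ hQ hC h1 h2 hp hm (n := m + m)
    (fun x => decide (m ≤ (x : ℕ))) hη
  have habs : |θ| = θ := abs_of_nonneg hθ0
  choose U hU hUV using fun (ω : Ω) (x : Fin (m + m)) =>
    exists_unitary_near (hg.unit ω x) (θ := θ) (habs.trans_le hθ1)
  rw [habs] at hUV
  set P : List (Fin (m + m)) := (List.finRange m).map (Fin.castAdd m) with hPdef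
  set P' : List (Fin (m + m)) := (List.finRange m).map (Fin.natAdd m) with hP'def
  have hcard : Fintype.card (Fin (m + m)) = 2 * m := by rw [Fintype.card_fin]; ring
  have hP : P.Nodup := (List.nodup_finRange m).map (Fin.castAdd_injective m m)
  have hP' : P'.Nodup := (List.nodup_finRange m).map (Fin.natAdd_injective m m)
  have hl : P.length = m := by simp [hPdef]
  have hl' : P'.length = m := by simp [hP'def]
  have hty : ∀ x ∈ P, decide (m ≤ (x : ℕ)) = false := by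
    intro x hx
    obtain ⟨i, -, rfl⟩ := List.mem_map.1 hx
    simp
  have hty' : ∀ x ∈ P', decide (m ≤ (x : ℕ)) = true := by
    intro x hx
    obtain ⟨i, -, rfl⟩ := List.mem_map.1 hx
    simp
  refine ⟨Ω, inferInstance, inferInstance, fun ω => ((P ++ P').map (U ω)).prod,
    fun ω => existsH_prod_unitary (hU ω) _, fun k hk1 hkK => ⟨?_, ?_⟩⟩
  · have := existsH_core hC' h0 ha hη.le hg hcard hP hP' hl hl' hty hty' habs hθ1 hU hUV hk1
    linarith [hk k hkK]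
  · have := existsH_core hC' h0.neg hb hη.le hg' (P := P'.reverse) (P' := P.reverse) hcard
      (List.nodup_reverse.2 hP') (List.nodup_reverse.2 hP) (by rw [List.length_reverse, hl'])
      (by rw [List.length_reverse, hl])
      (fun x hx => by rw [hty' x (List.mem_reverse.1 hx)]; rfl)
      (fun x hx => by rw [hty x (List.mem_reverse.1 hx)]; rfl)
      (θ' := -θ) (by rw [abs_neg, habs]) hθ1 (U := fun ω x => star (U ω x))
      (fun ω x => Unitary.star_mem (hU ω x))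
      (fun ω x => by rw [← star_Vq, ← star_sub, norm_star]; exact hUV ω x) hk1
    simp only [existsH_star_prod, List.reverse_append]
    linarith [hk k hkK]

end Crest.Agent.R121
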