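import Crest.Agent.R121.Step

/-! Row 121: hierarchical systems of letters. -/

set_option autoImplicit false

open scoped ComplexOrder InnerProductSpace ComplexConjugate

namespace Crest.Agent.R121

open Crest.Agent.R095 (Tr lt)
open Crest.Agent.R124

variable {Q : Type*} [CStarAlgebra Q]

/-- The data of one letter. -/
structure LSysD (Q : Type*) where
  /-- the sample space -/
  Δ : Type
  [fin : Fintype Δ]
  [ne : Nonempty Δ]
  /-- the random unitary -/
  U : Δ → Q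
  /-- the values -/
  V : Set Q
  hV : V.Finite

attribute [instance] LSysD.fin LSysD.ne

/-- The values of the first `k` letters. -/
noncomputable def lsysT (D : ℕ) (f : {F : Set Q // F.Finite} → LSysD Q) :
    ℕ → {F : Set Q // F.Finite}
  | 0 => ⟨∅, Set.finite_empty⟩
  | k + 1 => ⟨(lsysT D f k).1 ∪ (f ⟨words (lsysT D f k).1 D, words_finite (lsysT D f k).2 D⟩).V,
      (lsysT D f k).2.union (LSysD.hV _)⟩

/-- The `k`-th letter. -/
noncomputable def lsysL (D : ℕ) (f : {F : Set Q // F.Finite} → LSysD Q) (k : ℕ) : LSysD Q :=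
  f ⟨words (lsysT D f k).1 D, words_finite (lsysT D f k).2 D⟩

lemma lsys_mem (D : ℕ) (f : {F : Set Q // F.Finite} → LSysD Q) {j k : ℕ} (h : j < k) {x : Q}
    (hx : x ∈ (lsysL D f j).V) : x ∈ (lsysT D f k).1 := by
  induction k with
  | zero => omega
  | succ k ih =>
    rcases Nat.lt_succ_iff_lt_or_eq.1 h with h | rfl
    · exact Or.inl (ih h)
    · exact Or.inr hx

/-- Bundle the output of `exists_step` in a structure; define the finite sets
`T 0 = ∅`, `T (k + 1) = T k ∪ V (words (T k) (2 n + 2))` by recursion (`words_finite`); the letter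
`a` is the output for `words (T a) (2 n + 2)`, and `T a = {x | ∃ b < a, x ∈ V b}`. -/
theorem exists_LS (τ : Tr Q) (hQ : Halving Q) (n : ℕ) {S : Set Q} (hS : S.Finite)
    (hSu : ∀ s ∈ S, s ∈ unitary Q) {η : ℝ} (hη : 0 < η) (hη1 : η ≤ 1) :
    ∃ (Δ : Fin n → Type) (_ : ∀ a, Fintype (Δ a)) (_ : ∀ a, Nonempty (Δ a)) (U : ∀ a, Δ a → Q)
      (V : Fin n → Set Q), (∀ a δ, U a δ ∈ unitary Q) ∧
      ∀ s₁ s₂ : Fin n → Q, (∀ a, s₁ a ∈ S) → (∀ a, s₂ a ∈ S) →
        LS τ η (fun a δ => star (s₁ a) * U a δ * s₂ a) V := by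
  have key : ∀ F : {F : Set Q // F.Finite}, ∃ d : LSysD Q, (∀ δ, d.U δ ∈ unitary Q) ∧
      ∀ s₁ ∈ S, ∀ s₂ ∈ S, ∀ e : Bool,
        Des τ η (fun δ => lt (star s₁ * d.U δ * s₂) e) d.V ∧
        Ad τ η (fun δ => lt (star s₁ * d.U δ * s₂) e) F.1 := fun F => by
    obtain ⟨Δ, _, _, U, V, hV, hU, h⟩ := exists_step τ hQ F.2 hS hSu hη hη1
    exact ⟨{ Δ := Δ, U := U, V := V, hV := hV }, hU, h⟩
  choose f hf1 hf2 using key
  refine ⟨fun a => (lsysL (2 * n + 2) f a).Δ, fun a => inferInstance, fun a => inferInstance,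
    fun a => (lsysL (2 * n + 2) f a).U, fun a => (lsysL (2 * n + 2) f a).V, fun a => hf1 _,
    fun s₁ s₂ h₁ h₂ => ⟨hη.le, hη1, fun a e => (hf2 _ _ (h₁ a) _ (h₂ a) e).1, fun a e Y hY =>
      (hf2 _ _ (h₁ a) _ (h₂ a) e).2 Y ?_⟩⟩
  obtain ⟨l, h1, h2, rfl⟩ := hY
  refine ⟨l, by simpa using h1, fun x hx => ?_, rfl⟩
  obtain ⟨b, hb, hx'⟩ := h2 x hx
  exact lsys_mem _ f hb hx'

end Crest.Agent.R121
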