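import Crest.Agent.R121.Basic

/-! Row 121: a letter occurring twice in one word. -/

set_option autoImplicit false

open scoped ComplexOrder InnerProductSpace ComplexConjugate

namespace Crest.Agent.R121

open Crest.Agent.R095 (Tr lt)
open Crest.Agent.R124

variable {Q : Type*} [CStarAlgebra Q] {τ : Tr Q} {η : ℝ} {α : Type} [Fintype α] [LinearOrder α]
variable {Δ : α → Type} [∀ a, Fintype (Δ a)] [∀ a, Nonempty (Δ a)] {g : ∀ a, Δ a → Q}
variable {V : α → Set Q} {β : Fm Q} {C : ℝ}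

lemma lemL_n2_sq {Ω : Type} [Fintype Ω] (x : Ω → Q) (B : Q) :
    τ.n2 (ex fun t => x t * B * star (x t)) ^ 2 = ex fun t' => ex fun t =>
      (τ (star B * (star (x t) * x t') * B * (star (x t') * x t))).re := by
  rw [τ.n2_sq, mul_ex, tr_ex, re_ex]
  refine ex_congr fun t' => ?_
  rw [star_ex, ex_mul, tr_ex, re_ex]
  refine ex_congr fun t => ?_
  rw [star_mul, star_star, mul_assoc, τ.comm]
  simp only [star_mul, mul_assoc]

/-- Let `x t = lt (g a t) e`, `B = ev m`, and let `b` be the largest letter of `m`,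
`m = m₁ ++ (b, e') :: m₂`, `B = B₁ y B₂`. If `b < a`: `‖E x B x⋆‖₂ ≤ dcs B + η²` (`ad`,
`ev_mem_words`, `m.length ≤ card α`), `dcs B = dcs (y B₂ B₁)` has mean at most `η²` (`ex_update b`,
`small`). If `a < b`: `‖E_t x t B (x t)⋆‖₂² = E_{t,t'} re τ (B⋆ p B p⋆)`, `p = (x t)⋆ x t'`, and
`B⋆ p B = B₂⋆ y⋆ (B₁⋆ p B₁) y B₂`; averaging over the letter `b` (`ad b (!e')`) bounds it by
`dcs p + η²`, and `dcs p = dcs (x t' (x t)⋆)` has mean at most `η²`; `ex_le_sqrt`. -/
theorem lemL_core (h : LS τ η g V) (a : α) (e : Bool) {m : List (α × Bool)} (hm : m ≠ [])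
    (hnd : (lets m).Nodup) (ha : a ∉ lets m) :
    ex (fun δ : ∀ a, Δ a => τ.n2 (ex fun t : Δ a =>
      lt (g a t) e * ev (fun b => g b (δ b)) m * star (lt (g a t) e))) ≤ 2 * η := by
  have hu : ∀ b δ e, lt (g b δ) e ∈ unitary Q := fun b δ e => (h.des b e).unit δ
  have hu' : ∀ (δ : ∀ a, Δ a) l, ev (fun b => g b (δ b)) l ∈ unitary Q := fun δ l =>
    ev_mem_unitary (fun b => hu b (δ b) true) l
  have h0 := h.nonneg
  have h1 := h.le_one
  obtain ⟨⟨b, e'⟩, hb, hmax⟩ := Finset.exists_max_image m.toFinset Prod.fst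
    (List.toFinset_nonempty_iff m |>.2 hm)
  simp only [List.mem_toFinset] at hb hmax
  have hlen : m.length ≤ Fintype.card α := by simpa [lets] using hnd.length_le_card
  have hba : b ≠ a := fun e => ha (e ▸ List.mem_map.2 ⟨_, hb, rfl⟩)
  obtain ⟨m₁, m₂, rfl⟩ := List.append_of_mem hb
  rw [lets_append, lets_cons, List.nodup_middle, List.nodup_cons, List.mem_append, not_or] at hnd
  have hev : ∀ (δ : ∀ a, Δ a) (s : Δ b),
      ev (fun c => g c (Function.update δ b s c)) (m₁ ++ (b, e') :: m₂) =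
        ev (fun c => g c (δ c)) m₁ * (lt (g b s) e' * ev (fun c => g c (δ c)) m₂) := by
    intro δ s
    rw [ev_append, ev_cons, ev_update g δ s hnd.1.1, ev_update g δ s hnd.1.2]
    simp only [Function.update_self]
  rcases lt_or_gt_of_ne hba with hlt | hlt
  · refine (ex_mono fun δ => h.ad a e _ (ev_mem_words (fun y hy => ?_) (by omega))).trans ?_
    · exact ⟨y.1, (hmax y hy).trans_lt hlt, (h.des y.1 y.2).mem _⟩
    rw [ex_add, ex_const, ex_update b]
    have : ex (fun δ : ∀ a, Δ a => ex fun s : Δ b =>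
        dcs τ (ev (fun c => g c (Function.update δ b s c)) (m₁ ++ (b, e') :: m₂))) ≤ η ^ 2 := by
      refine ex_le_const fun δ => ?_
      simp only [hev, dcs_comm τ (ev _ m₁), mul_assoc]
      exact (h.des b e').small _ (mul_mem (hu' δ _) (hu' δ _))
    nlinarith
  · refine (ex_le_sqrt _).trans (Real.sqrt_le_iff.2 ⟨by linarith, ?_⟩)
    simp only [lemL_n2_sq]
    rw [ex_comm]
    refine le_trans (ex_le_const fun t' => ?_) (by nlinarith : η ^ 2 + η ^ 2 ≤ (2 * η) ^ 2)
    rw [ex_comm]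
    refine (ex_mono (g := fun t => dcs τ (lt (g a t) (!e) * lt (g a t') e) + η ^ 2)
      fun t => ?_).trans ?_
    · rw [ex_update b]
      refine ex_le_const fun δ => ?_
      have hY : star (ev (fun c => g c (δ c)) m₁) * (lt (g a t) (!e) * lt (g a t') e) *
          ev (fun c => g c (δ c)) m₁ ∈
          words {x | ∃ c, c < b ∧ x ∈ V c} (2 * Fintype.card α + 2) := by
        have l1 : ∀ y : α × Bool, y.1 ∈ lets m₁ →
            lt (g y.1 (δ y.1)) y.2 ∈ {x | ∃ c, c < b ∧ x ∈ V c} := by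
          intro y hy
          obtain ⟨z, hz, hz'⟩ := List.mem_map.1 hy
          refine ⟨y.1, lt_of_le_of_ne (hz' ▸ hmax z (List.mem_append_left _ hz))
            fun e => hnd.1.1 (e ▸ hy), (h.des y.1 y.2).mem _⟩
        have l2 : m₁.length ≤ Fintype.card α := le_trans (by simp) hlen
        rw [star_ev]
        refine words_mono (by omega) (mul_mem_words (mul_mem_words
          (ev_mem_words (D := Fintype.card α) (fun y hy => l1 y ?_) (by simpa using l2))
          (mul_mem_words (mem_words_one ⟨a, hlt, (h.des a _).mem _⟩)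
            (mem_words_one ⟨a, hlt, (h.des a _).mem _⟩)))
          (ev_mem_words (fun y hy => l1 y (List.mem_map.2 ⟨y, hy, rfl⟩)) l2))
        rw [← List.mem_reverse, ← lets_invRev]
        exact List.mem_map.2 ⟨y, hy, rfl⟩
      have h2 := h.ad b (!e') _ hY
      rw [dcs_conj' τ (hu' δ _)] at h2
      refine le_trans ?_ h2
      rw [← τ.n2_unitary_mul (Unitary.star_mem (hu' δ m₂)), ← τ.n2_mul_unitary (hu' δ m₂),
        ← τ.n2_mul_unitary (mul_mem (Unitary.star_mem (hu a t' e)) (hu a t e))]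
      refine le_trans (le_of_eq ?_) ((Complex.re_le_norm _).trans (τ.norm_le_n2 _))
      rw [mul_ex, ex_mul, ex_mul, tr_ex, re_ex]
      refine ex_congr fun s => ?_
      simp only [hev, ← star_lt, star_mul, star_star, mul_assoc]
    · rw [ex_add, ex_const]
      exact add_le_add ((h.des a (!e)).small _ (hu _ _ _)) le_rfl

lemma lemL_ev (h : LS τ η g V) {l l' : List (α × Bool)} (hl : LForm l l') :
    ∃ a, a ∉ lets l' ∧ ex (fun δ : ∀ a, Δ a => τ.n2 (ex fun t : Δ a =>
      ev (fun b => g b (Function.update δ a t b)) l)) ≤ 2 * η := by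
  obtain ⟨l₁, m, l₂, a, e, rfl, hm, hnd, ha⟩ := hl
  simp only [lets_append, List.mem_append, not_or] at ha
  refine ⟨a, ha.2, le_trans (le_of_eq (ex_congr fun δ => ?_)) (lemL_core h a e hm hnd ha.1.1.2)⟩
  have hu : ∀ l, ev (fun b => g b (δ b)) l ∈ unitary Q :=
    ev_mem_unitary fun b => (h.des b true).unit _
  symm
  rw [← τ.n2_unitary_mul (hu l₁), ← τ.n2_mul_unitary (hu l₂), mul_ex, ex_mul]
  congr 1
  refine ex_congr fun t => ?_
  simp only [ev_append, ev_cons, ev_update g δ t ha.1.1.1, ev_update g δ t ha.1.1.2,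
    ev_update g δ t ha.1.2, Function.update_self, star_lt, mul_assoc]

/-- `ex_update a`, `ev_update`, `fm_ex_left`, `B2`, `lemL_core`. -/
theorem lemL_left (h : LS τ η g V) (hC : 0 ≤ C) (h2 : B2 τ β C) {l l' : List (α × Bool)}
    (hl : LForm l l') :
    ‖ex fun δ : ∀ a, Δ a => β (star (ev (fun b => g b (δ b)) l)) (ev (fun b => g b (δ b)) l')‖
      ≤ 2 * C * η := by
  obtain ⟨a, ha, hE⟩ := lemL_ev h hl
  rw [ex_update a]
  simp only [ev_update g _ _ ha, ← fm_ex_left, ← star_ex]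
  refine (norm_ex_le _).trans ((ex_mono fun δ => h2 _ _).trans ?_)
  have hu : ∀ δ : ∀ a, Δ a, τ.n2 (ev (fun b => g b (δ b)) l') = 1 := fun δ =>
    τ.n2_of_unitary (ev_mem_unitary (fun b => (h.des b true).unit _) _)
  simp only [τ.n2_star, hu, mul_one, ex_mul_left]
  linarith [mul_le_mul_of_nonneg_left hE hC]

theorem lemL_right (h : LS τ η g V) (hC : 0 ≤ C) (h2 : B2 τ β C) {l l' : List (α × Bool)}
    (hl : LForm l' l) :
    ‖ex fun δ : ∀ a, Δ a => β (star (ev (fun b => g b (δ b)) l)) (ev (fun b => g b (δ b)) l')‖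
      ≤ 2 * C * η := by
  obtain ⟨a, ha, hE⟩ := lemL_ev h hl
  rw [ex_update a]
  simp only [ev_update g _ _ ha, ← fm_ex_right]
  refine (norm_ex_le _).trans ((ex_mono fun δ => h2 _ _).trans ?_)
  have hu : ∀ δ : ∀ a, Δ a, τ.n2 (ev (fun b => g b (δ b)) l) = 1 := fun δ =>
    τ.n2_of_unitary (ev_mem_unitary (fun b => (h.des b true).unit _) _)
  simp only [τ.n2_star, hu, mul_one, ex_mul_left]
  linarith [mul_le_mul_of_nonneg_left hE hC]

end Crest.Agent.R121
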