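import Crest.Agent.R121.LemX0

/-! Row 121: crossing words. -/

set_option autoImplicit false

open scoped ComplexOrder InnerProductSpace ComplexConjugate

namespace Crest.Agent.R121

open Crest.Agent.R095 (Tr lt)
open Crest.Agent.R124

variable {Q : Type*} [CStarAlgebra Q] {τ : Tr Q} {η : ℝ} {α : Type} [Fintype α] [LinearOrder α]
variable {Δ : α → Type} [∀ a, Fintype (Δ a)] [∀ a, Nonempty (Δ a)] {g : ∀ a, Δ a → Q}
variable {V : α → Set Q} {β : Fm Q} {C : ℝ}

/-- The estimate when all the letters except two are frozen. -/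
theorem lemX_core {Δ₁ Δ₂ : Type} [Fintype Δ₁] [Nonempty Δ₁] [Fintype Δ₂] {X : Δ₁ → Q} {Y : Δ₂ → Q}
    {V₁ V₂ F : Set Q} (hη : 0 ≤ η) (hη1 : η ≤ 1) (hX : Des τ η X V₁) (hY : Des τ η Y V₂)
    (had : Ad τ η X F) (hC : 0 ≤ C) (h1 : B1 τ β C) (h2 : B2 τ β C) {M B' : Q}
    (hM : M ∈ unitary Q) (hB' : B' ∈ unitary Q) (hF : ∀ y ∈ V₂, M * y * star M ∈ F) :
    ‖ex fun t => ex fun s => β (star (Y s) * star M * star (X t)) (Y s * B' * X t)‖
      ≤ 4 * C * η := by
  obtain ⟨ι, _, _, _, G, l, hL, hl, hG, hn, hV, hd, hΦ⟩ := hY.units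
  have hL0 : (0 : ℝ) < Fintype.card ι := Nat.cast_pos.2 Fintype.card_pos
  have e1 : ∀ t, (ex fun s => β (star (Y s) * star M * star (X t)) (Y s * B' * X t)) =
      (Fintype.card ι : ℂ)⁻¹ • ∑ i, ∑ j,
        β (star (G i j) * star M * star (X t)) (G i j * B' * X t) := fun t => by
    have := hΦ (sand β 1 (star M * star (X t)) 1 (B' * X t))
    simpa only [sand_apply, one_mul, ← mul_assoc, smul_eq_mul] using this
  have hx0 : ex X = 0 := by
    obtain ⟨e, he⟩ := hX.phase
    exact ex_eq_zero_of_equiv e (c := Complex.I) (fun h => by simpa using congrArg Complex.re h) he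
  have row : ∀ i, ‖∑ j, ex fun t => β (star (G i j) * star M * star (X t)) (G i j * B' * X t)‖
      ≤ 4 * C * η := fun i => by
    have hGG : ∀ j, G i j * star (G i j) = l i := fun j => by rw [hG, if_pos rfl]
    have hlG : ∀ j, l i * G i j = G i j := fun j => by
      have : Piso (star (G i j)) := Piso.of_proj (by rw [star_star, hGG]; exact hl i)
      have := this.star
      rw [star_star] at this
      rw [← hGG j]
      exact this
    have hMM := Unitary.star_mul_self_of_mem hM
    have hn' : τ.n2 (M * l i * star M) = τ.n2 (l i) := by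
      rw [τ.n2_mul_unitary (Unitary.star_mem hM), τ.n2_unitary_mul hM]
    refine lemX0 hC h1 h2 (fun j => star (G i j) * star M) (fun j => G i j * B') (e := l i)
      (e' := M * l i * star M) ⟨?_, ?_⟩ (fun j k => ?_) (by rw [hn', hn]) (fun j => ?_) (hn i).le
      (fun j => ?_) X hX.unit hx0 ?_ hη hL
    · show M * l i * star M * (M * l i * star M) = M * l i * star M
      calc _ = M * l i * (star M * M) * l i * star M := by noncomm_ring
        _ = M * (l i * l i) * star M := by rw [hMM]; noncomm_ring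
        _ = _ := by rw [(hl i).isIdempotentElem.eq]
    · show star (M * l i * star M) = M * l i * star M
      rw [star_mul, star_mul, star_star, (hl i).isSelfAdjoint.star_eq, mul_assoc]
    · rw [star_mul, star_star, star_star,
        show M * G i j * (star (G i k) * star M) = M * (G i j * star (G i k)) * star M by
          noncomm_ring, hG]
      split_ifs <;> simp
    · rw [← mul_assoc, hlG]
    · rw [τ.n2_mul_unitary hB', ← τ.n2_star, τ.n2_sq, star_star, hGG, ← hn i, τ.n2_sq,
        (hl i).isSelfAdjoint.star_eq, (hl i).isIdempotentElem.eq]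
    · have a1 := had _ (hF _ (hV i))
      rw [dcs_conj τ hM] at a1
      have a2 : (ex fun δ => X δ * (M * ((Fintype.card ι : ℂ) • l i) * star M) * star (X δ)) =
          (Fintype.card ι : ℂ) • ex fun δ => X δ * (M * l i * star M) * star (X δ) := by
        rw [← ex_complex_smul]
        exact ex_congr fun δ => by simp only [mul_smul_comm, smul_mul_assoc]
      rw [a2, τ.n2_smul, Complex.norm_natCast] at a1
      rw [← div_eq_mul_inv, le_div_iff₀' hL0]
      have := hd i
      nlinarith
  simp only [e1]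
  rw [ex_complex_smul, ex_sum, norm_smul, norm_inv, Complex.norm_natCast, inv_mul_le_iff₀ hL0]
  refine (norm_sum_le _ _).trans ?_
  refine (Finset.sum_le_sum fun i _ => (le_of_eq ?_).trans (row i)).trans (le_of_eq ?_)
  · rw [ex_sum]
  · rw [Finset.sum_const, Finset.card_univ, nsmul_eq_mul]

theorem lemX_one (h : LS τ η g V) (hC : 0 ≤ C) (h1 : B1 τ β C) (h2 : B2 τ β C)
    {l₁ m l₂ l₁' m' l₂' : List (α × Bool)} {x v : α × Bool} (hv : v.1 < x.1)
    (hm : ∀ y ∈ m, y.1 < x.1) (hnd : (lets m).Nodup)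
    (hx : x.1 ∉ lets (l₁ ++ m ++ l₂ ++ l₁' ++ m' ++ l₂'))
    (hv' : v.1 ∉ lets (l₁ ++ m ++ l₂ ++ l₁' ++ m' ++ l₂')) :
    ‖ex fun δ : ∀ a, Δ a => β (star (ev (fun b => g b (δ b)) (l₁ ++ x :: m ++ v :: l₂)))
      (ev (fun b => g b (δ b)) (l₁' ++ v :: m' ++ x :: l₂'))‖ ≤ 4 * C * η := by
  simp only [lets_append, List.mem_append, not_or] at hx hv'
  obtain ⟨⟨⟨⟨⟨x1, x2⟩, x3⟩, x4⟩, x5⟩, x6⟩ := hx
  obtain ⟨⟨⟨⟨⟨v1, v2⟩, v3⟩, v4⟩, v5⟩, v6⟩ := hv'
  rw [ex_update v.1, ex_update x.1]
  refine norm_ex_le_const fun δ => ?_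
  have hu : ∀ a, g a (δ a) ∈ unitary Q := fun a => (h.des a true).unit (δ a)
  have U := ev_mem_unitary hu
  have hlen : m.length ≤ Fintype.card α := by
    have := hnd.length_le_card
    simpa [lets] using this
  have key := lemX_core h.nonneg h.le_one (h.des x.1 x.2) (h.des v.1 v.2) (h.ad x.1 x.2) hC
    (h1.sand (Unitary.star_mem (U l₂)) (Unitary.star_mem (U l₁)) (U l₁') (U l₂'))
    (h2.sand (Unitary.star_mem (U l₂)) (Unitary.star_mem (U l₁)) (U l₁') (U l₂'))
    (U m) (U m') fun y hy => by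
      have w1 : ev (fun b => g b (δ b)) m ∈ words {z | ∃ b, b < x.1 ∧ z ∈ V b} (Fintype.card α) :=
        ev_mem_words (S := {z | ∃ b, b < x.1 ∧ z ∈ V b})
          (fun z hz => ⟨z.1, hm z hz, (h.des z.1 z.2).mem _⟩) hlen
      have w2 : star (ev (fun b => g b (δ b)) m) ∈
          words {z | ∃ b, b < x.1 ∧ z ∈ V b} (Fintype.card α) := by
        rw [star_ev]
        refine ev_mem_words (S := {z | ∃ b, b < x.1 ∧ z ∈ V b})
          (fun z hz => ⟨z.1, ?_, (h.des z.1 z.2).mem _⟩) (by simpa using hlen)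
        have : z.1 ∈ lets (FreeGroup.invRev m) := List.mem_map_of_mem hz
        rw [lets_invRev, List.mem_reverse] at this
        obtain ⟨w, hw, e⟩ := List.mem_map.1 this
        exact e ▸ hm w hw
      exact words_mono (by omega)
        (mul_mem_words (mul_mem_words w1 (mem_words_one ⟨v.1, hv, hy⟩)) w2)
  refine le_of_eq_of_le (congrArg _ (ex_congr fun t => ex_congr fun s => ?_)) key
  simp only [ev_append, ev_cons, ev_update g _ s v1, ev_update g _ s v2, ev_update g _ s v3,
    ev_update g _ s v4, ev_update g _ s v5, ev_update g _ s v6, ev_update g _ t x1,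
    ev_update g _ t x2, ev_update g _ t x3, ev_update g _ t x4, ev_update g _ t x5,
    ev_update g _ t x6, Function.update_self, Function.update_of_ne hv.ne', sand_apply, star_mul,
    mul_assoc]

/-- First case `l = l₁ ++ x :: m ++ v :: l₂`, `l' = l₁' ++ v :: m' ++ x :: l₂'`: apply `ex_update`
for `x.1` and for `v.1`, absorb the outer words into the form (`sand`), use `units` of the letter
`v` for the form `(y, y') ↦ β' (y B X⋆) (y' B' X)`, `B = star (ev m)`, `B' = ev m'`, and for each
row `i` apply `lemX0` with `p j = star (G i j) * B`, `q j = G i j * B'`, `e = l i`,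
`e' = B⋆ * l i * B`. Here `L • e'` is a word of length at most `2 card α + 1` in letters below
`x.1`, with `dcs ≤ 1`, so `ad` gives `‖E X e' X⋆‖₂ ≤ L⁻¹ (1 + η²)`; `E X = 0` by `phase`
(`ex_eq_zero_of_equiv`). The second case follows from the first one for the form `cst β` and the
words `invRev l`, `invRev l'` (`star_ev`). -/
theorem lemX (h : LS τ η g V) (hC : 0 ≤ C) (h1 : B1 τ β C) (h2 : B2 τ β C)
    {l l' : List (α × Bool)} (hl : XForm l l') :
    ‖ex fun δ : ∀ a, Δ a => β (star (ev (fun b => g b (δ b)) l)) (ev (fun b => g b (δ b)) l')‖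
      ≤ 4 * C * η := by
  obtain ⟨l₁, m, l₂, l₁', m', l₂', x, v, hv, hm, hnd, hx, hv', ⟨rfl, rfl⟩ | ⟨rfl, rfl⟩⟩ := hl
  · exact lemX_one h hC h1 h2 hv hm hnd hx hv'
  · have key := lemX_one h hC h1.cst h2.cst (l₁ := FreeGroup.invRev l₂) (m := FreeGroup.invRev m)
      (l₂ := FreeGroup.invRev l₁) (l₁' := FreeGroup.invRev l₂') (m' := FreeGroup.invRev m')
      (l₂' := FreeGroup.invRev l₁') (x := (x.1, !x.2)) (v := (v.1, !v.2)) hv
      (fun z hz => by
        have : z.1 ∈ lets (FreeGroup.invRev m) := List.mem_map_of_mem hz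
        rw [lets_invRev, List.mem_reverse] at this
        obtain ⟨w, hw, e⟩ := List.mem_map.1 this
        exact e ▸ hm w hw)
      (by rw [lets_invRev]; exact List.nodup_reverse.2 hnd)
      (by
        simp only [lets_append, List.mem_append, not_or, lets_invRev, List.mem_reverse] at hx ⊢
        tauto)
      (by
        simp only [lets_append, List.mem_append, not_or, lets_invRev, List.mem_reverse] at hv' ⊢
        tauto)
    rw [← norm_star, star_ex]
    refine le_of_eq_of_le (congrArg _ (ex_congr fun δ => ?_)) key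
    simp only [cst_apply, star_star, ev_append, ev_cons, ← star_ev, ← star_lt, star_mul, mul_assoc,
      RCLike.star_def]

end Crest.Agent.R121
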