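import Crest.Agent.R121.Basic

/-! Row 121: the crossing estimate (analytic core). -/

set_option autoImplicit false

open scoped ComplexOrder InnerProductSpace ComplexConjugate

namespace Crest.Agent.R121

open Crest.Agent.R095 (Tr lt)
open Crest.Agent.R124

variable {Q : Type*} [CStarAlgebra Q]

lemma lemX0_trunc (τ : Tr Q) (Z : Q) {r : ℝ} (hr : 0 < r) :
    ∃ k : Q, ‖Z * k‖ ≤ r ∧ r * τ.n2 (Z * (1 - k)) ≤ τ.n2 (star Z * Z) := by
  let _ := CStarAlgebra.spectralOrder Q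
  let _ := CStarAlgebra.spectralOrderedRing Q
  have hG : 0 ≤ star Z * Z := star_mul_self_nonneg Z
  have e0 : ∀ k : Q, IsSelfAdjoint k → star (Z * k) * (Z * k) = k * (star Z * Z) * k := by
    intro k hk
    rw [star_mul, hk.star_eq]
    simp only [mul_assoc]
  generalize star Z * Z = G at hG e0
  have hGs : IsSelfAdjoint G := IsSelfAdjoint.of_nonneg hG
  obtain ⟨q, hqc, hq0, hq1, hqT, hqt⟩ := trineq_q (r ^ 2) (by positivity)
  have hsp : ∀ t ∈ spectrum ℝ G, 0 ≤ t := fun t ht => spectrum_nonneg_of_nonneg hG ht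
  have e1 : 1 - cfc q G = cfc (fun t => 1 - q t) G := by
    rw [cfc_sub _ _ G, cfc_const_one ℝ G]
  have hcj : ∀ g : ℝ → ℝ, Continuous g →
      cfc g G * G * cfc g G = cfc (fun t => g t * t * g t) G := fun g hg => by
    rw [cfc_mul _ _ G, cfc_mul _ _ G, cfc_id' ℝ G]
  refine ⟨cfc q G, ?_, ?_⟩
  · refine (abs_le_of_sq_le_sq' ?_ hr.le).2
    rw [sq, ← CStarRing.norm_star_mul_self, e0 _ IsSelfAdjoint.cfc, hcj q hqc]
    refine norm_cfc_le (sq_nonneg r) fun t ht => ?_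
    have h1 := mul_nonneg (hsp t ht) (hq0 t)
    rw [Real.norm_of_nonneg (by nlinarith [mul_nonneg h1 (hq0 t)])]
    nlinarith [hqt t, mul_nonneg h1 (sub_nonneg.2 (hq1 t))]
  · refine (abs_le_of_sq_le_sq' ?_ (τ.n2_nonneg _)).2
    rw [mul_pow, τ.n2_sq, τ.n2_sq, e1, e0 _ IsSelfAdjoint.cfc, hcj _ (by fun_prop), hGs.star_eq,
      ← Complex.re_ofReal_mul, ← τ.map_real_smul, ← cfc_const_mul _ _ G]
    refine tr_mono τ ?_
    have e2 : G * G = cfc (fun t : ℝ => t * t) G := by rw [cfc_mul _ _ G, cfc_id' ℝ G]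
    rw [e2]
    refine cfc_mono fun t ht => ?_
    have h0 := hsp t ht
    have h1 := sub_nonneg.2 (hq1 t)
    have h2 := mul_nonneg (hqT t) (mul_nonneg h0 h1)
    have h3 : t * (1 - q t) ≤ t := by nlinarith [mul_nonneg h0 (hq0 t)]
    have h4 := mul_self_le_mul_self (mul_nonneg h0 h1) h3
    nlinarith

lemma lemX0_point {τ : Tr Q} {β : Fm Q} {C : ℝ} (hC : 0 ≤ C) (h1 : B1 τ β C) (h2 : B2 τ β C)
    {e Z Z' : Q} (he : e * Z' = Z') {η : ℝ} (hη : 0 < η) (hn : τ.n2 e ≤ η ^ 2) :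
    ‖β Z Z'‖ ≤ C * η * (τ.n2 Z' + τ.n2 (star Z * Z) * τ.n2 Z') := by
  obtain ⟨k, hk1, hk2⟩ := lemX0_trunc τ Z (inv_pos.2 hη)
  have e1 : β Z Z' = β (Z * k) (e * Z') + β (Z * (1 - k)) Z' := by
    rw [he, ← LinearMap.add_apply, ← map_add, mul_sub, mul_one, add_sub_cancel]
  rw [inv_mul_le_iff₀ hη] at hk2
  have h0 := τ.n2_nonneg Z'
  have h3 : ‖Z * k‖ * τ.n2 e ≤ η := by
    refine (mul_le_mul hk1 hn (τ.n2_nonneg _) (inv_pos.2 hη).le).trans_eq ?_
    field_simp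
  have h4 := mul_le_mul_of_nonneg_left h3 (mul_nonneg hC h0)
  have h5 := mul_le_mul_of_nonneg_left hk2 (mul_nonneg hC h0)
  rw [e1]
  refine (norm_add_le _ _).trans ((add_le_add (h1 _ _ _) (h2 _ _)).trans ?_)
  linarith

lemma lemX0_indep (Φ : Fm Q) {J : Type} [Fintype J] [DecidableEq J] {Δ : Type} [Fintype Δ]
    [Nonempty Δ] (f g : J → Δ → Q) :
    (ex fun δ : J → Δ => Φ (∑ j, f j (δ j)) (∑ l, g l (δ l))) = ∑ j, ∑ l,
      if j = l then ex fun t => Φ (f j t) (g j t) else Φ (ex (f j)) (ex (g l)) := by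
  simp only [map_sum, LinearMap.sum_apply]
  rw [ex_sum, Finset.sum_comm]
  refine Finset.sum_congr rfl fun l _ => ?_
  rw [ex_sum]
  refine Finset.sum_congr rfl fun j _ => ?_
  split_ifs with h
  · subst h
    exact ex_eval (Δ := fun _ : J => Δ) j fun t => Φ (f j t) (g j t)
  · rw [ex_update l]
    simp only [Function.update_self, Function.update_of_ne h, ← fm_ex_right]
    rw [fm_ex_left]
    exact ex_eval (Δ := fun _ : J => Δ) j fun t => Φ (f j t) (ex (g l))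

lemma lemX0_n2 (τ : Tr Q) {J : Type} [Fintype J] [DecidableEq J] {Δ : Type} [Fintype Δ]
    [Nonempty Δ] (f : J → Δ → Q) {a b : ℝ} (hb : 0 ≤ b) (ha : ∀ j t, τ.n2 (f j t) ^ 2 ≤ a)
    (hb' : ∀ j, τ.n2 (ex (f j)) ≤ b) :
    (ex fun δ : J → Δ => τ.n2 (∑ j, f j (δ j)) ^ 2) ≤
      Fintype.card J * a + Fintype.card J ^ 2 * b ^ 2 := by
  have h := congrArg Complex.re (lemX0_indep ((LinearMap.mul ℂ Q).compr₂ τ.toLin)
    (fun j t => star (f j t)) f)
  simp only [LinearMap.compr₂_apply, LinearMap.mul_apply', ← star_sum, re_ex, Complex.re_sum,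
    ← star_ex] at h
  simp only [τ.n2_sq]
  refine h.trans_le ((Finset.sum_le_sum (g := fun j => ∑ l, ((if j = l then a else 0) + b ^ 2))
    fun j _ => Finset.sum_le_sum fun l _ => ?_).trans_eq ?_)
  · split_ifs
    · rw [re_ex]
      exact (ex_le_const fun t => (τ.n2_sq _).symm.trans_le (ha j t)).trans
        (le_add_of_nonneg_right (sq_nonneg b))
    · rw [zero_add, sq]
      exact (Complex.re_le_norm _).trans ((τ.norm_star_mul_le _ _).trans
        (mul_le_mul (hb' j) (hb' l) (τ.n2_nonneg _) hb))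
  · simp only [Finset.sum_add_distrib, Finset.sum_ite_eq, Finset.mem_univ, if_true,
      Finset.sum_const, Finset.card_univ, nsmul_eq_mul]
    ring

/-- Let `L = card J`, `δ : J → Δ` independent copies, `Z = ∑ j, p j * star (x (δ j))`,
`Z' = ∑ j, q j * x (δ j)`. As `E x = 0`, `E β Z Z'` is the sum in question, and
`E ‖Z'‖₂² = ∑ ‖q j‖₂² ≤ 1`. `W = Z⋆ Z = ∑ j, x (δ j) e' (x (δ j))⋆` has
`E re τ (W W) ≤ L * L⁻¹ + L² (2 / L)² = 5`. With `T = η⁻²` and
`k = cfc (fun w => √(T / max w T)) W`: `‖Z k‖² ≤ T`, `‖Z (1 - k)‖₂² ≤ re τ (W W) / T`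
(or use `R124.trunc`-like arguments). `‖β (Z k) (e Z')‖ ≤ C √T ‖e‖₂ ‖Z'‖₂ ≤ C η ‖Z'‖₂` by `B1`,
`‖β (Z (1 - k)) Z'‖ ≤ C ‖Z (1 - k)‖₂ ‖Z'‖₂` by `B2`; Cauchy–Schwarz (`ex_mul_le`);
`1 + √5 ≤ 4`. (Use `letI := CStarAlgebra.spectralOrder Q`.) -/
theorem lemX0 {τ : Tr Q} {β : Fm Q} {C : ℝ} (hC : 0 ≤ C) (h1 : B1 τ β C) (h2 : B2 τ β C)
    {J : Type} [Fintype J] [DecidableEq J] [Nonempty J] (p q : J → Q) {e e' : Q}
    (he' : IsStarProjection e') (hp : ∀ j l, star (p j) * p l = if j = l then e' else 0)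
    (hn' : τ.n2 e' ^ 2 ≤ (Fintype.card J : ℝ)⁻¹) (hq : ∀ j, e * q j = q j)
    (hn : τ.n2 e ^ 2 ≤ (Fintype.card J : ℝ)⁻¹) (hq2 : ∀ j, τ.n2 (q j) ^ 2 ≤ (Fintype.card J : ℝ)⁻¹)
    {Δ : Type} [Fintype Δ] [Nonempty Δ] (x : Δ → Q) (hx : ∀ δ, x δ ∈ unitary Q) (hx0 : ex x = 0)
    (hxe : τ.n2 (ex fun δ => x δ * e' * star (x δ)) ≤ 2 * (Fintype.card J : ℝ)⁻¹) {η : ℝ}
    (hη : 0 ≤ η) (hL : (Fintype.card J : ℝ)⁻¹ ≤ η ^ 4) :
    ‖∑ j, ex fun δ => β (p j * star (x δ)) (q j * x δ)‖ ≤ 4 * C * η := by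
  have hL0 : (0 : ℝ) < Fintype.card J := by exact_mod_cast Fintype.card_pos
  have hη0 : 0 < η := hη.lt_of_ne fun h => by
    rw [← h, zero_pow (by norm_num)] at hL
    exact absurd hL (not_le.2 (inv_pos.2 hL0))
  have hne : τ.n2 e ≤ η ^ 2 :=
    (abs_le_of_sq_le_sq' (hn.trans (hL.trans_eq (by ring))) (sq_nonneg η)).2
  have hq0 : ∀ l, ex (fun t => q l * x t) = 0 := fun l => by rw [← mul_ex, hx0, mul_zero]
  have e1 := lemX0_indep β (fun j t => p j * star (x t)) fun j t => q j * x t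
  simp only [hq0, map_zero, Finset.sum_ite_eq, Finset.mem_univ, if_true] at e1
  have e2 : ∀ δ : J → Δ, star (∑ j, p j * star (x (δ j))) * ∑ j, p j * star (x (δ j)) =
      ∑ j, x (δ j) * e' * star (x (δ j)) := fun δ => by
    rw [star_sum, Finset.sum_mul]
    refine Finset.sum_congr rfl fun j _ => ?_
    rw [Finset.mul_sum, Finset.sum_eq_single j]
    · rw [star_mul, star_star, mul_assoc, ← mul_assoc (star (p j)), hp, if_pos rfl, mul_assoc]
    · intro l _ hl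
      rw [star_mul, mul_assoc, ← mul_assoc (star (p j)), hp, if_neg hl.symm, zero_mul, mul_zero]
    · simp
  have b1 := lemX0_n2 τ (fun j t => q j * x t) le_rfl
    (fun j t => by rw [τ.n2_mul_unitary (hx t)]; exact hq2 j) fun j => by rw [hq0, τ.n2_zero]
  have b2 := lemX0_n2 τ (fun (_ : J) t => x t * e' * star (x t))
    (a := (Fintype.card J : ℝ)⁻¹) (by positivity)
    (fun j t => by
      rw [τ.n2_mul_unitary (Unitary.star_mem (hx t)), τ.n2_unitary_mul (hx t)]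
      exact hn') fun _ => hxe
  have c1 : √(ex fun δ : J → Δ => τ.n2 (∑ j, q j * x (δ j)) ^ 2) ≤ 1 := by
    refine Real.sqrt_le_one.2 (b1.trans_eq ?_)
    rw [mul_inv_cancel₀ hL0.ne']
    ring
  have c2 : √(ex fun δ : J → Δ => τ.n2 (∑ j, x (δ j) * e' * star (x (δ j))) ^ 2) ≤ 3 := by
    refine Real.sqrt_le_iff.2 ⟨by norm_num, b2.trans ?_⟩
    rw [← mul_pow, mul_left_comm, mul_inv_cancel₀ hL0.ne']
    norm_num
  have c3 := (ex_le_sqrt _).trans c1
  have c4 := (ex_mul_le _ _).trans (mul_le_mul c2 c1 (Real.sqrt_nonneg _) (by norm_num))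
  rw [← e1]
  refine (norm_ex_le _).trans ((ex_mono fun δ => lemX0_point hC h1 h2 (e := e) ?_ hη0 hne).trans ?_)
  · simp only [Finset.mul_sum, ← mul_assoc, hq]
  · simp only [e2]
    rw [ex_mul_left, ex_add]
    have := mul_le_mul_of_nonneg_left (add_le_add c3 c4) (mul_nonneg hC hη)
    linarith

end Crest.Agent.R121
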