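import Crest.Agent.R121.LemL
import Crest.Agent.R121.LemX
import Crest.Agent.R121.Comb

/-! Row 121: off-diagonal terms. -/

set_option autoImplicit false

open scoped ComplexOrder InnerProductSpace ComplexConjugate

namespace Crest.Agent.R121

open Crest.Agent.R095 (Tr lt)
open Crest.Agent.R124

variable {Q : Type*} [CStarAlgebra Q] {τ : Tr Q} {η : ℝ} {α : Type} [Fintype α] [LinearOrder α]
variable {Δ : α → Type} [∀ a, Fintype (Δ a)] [∀ a, Nonempty (Δ a)] {g : ∀ a, Δ a → Q}
variable {V : α → Set Q} {β : Fm Q} {C : ℝ}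

/-- Change the coordinate `a` by the equivalence of `phase` (for `e = true`): `ev l` gets multiplied
by `I ^ expo a l`; `ex_eq_zero_of_equiv`. -/
theorem ex_eq_zero_of_expo (h : LS τ η g V) (β : Fm Q) {l l' : List (α × Bool)} {a : α}
    (ha : ¬(4 : ℤ) ∣ expo a l' - expo a l) :
    (ex fun δ : ∀ a, Δ a => β (star (ev (fun b => g b (δ b)) l)) (ev (fun b => g b (δ b)) l'))
      = 0 := by
  obtain ⟨e, he⟩ := (h.des a true).phase
  simp only [R095.lt_true] at he
  let E : (∀ a, Δ a) ≃ (∀ a, Δ a) := Equiv.piCongrRight fun b =>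
    if hb : b = a then hb ▸ e else Equiv.refl _
  have hE : ∀ (δ : ∀ a, Δ a) (b : α),
      g b (E δ b) = (if b = a then Complex.I else 1) • g b (δ b) := fun δ b => by
    by_cases hb : b = a
    · subst hb
      simp [E, he]
    · simp [E, hb]
  have hev : ∀ (δ : ∀ a, Δ a) (l : List (α × Bool)), ev (fun b => g b (E δ b)) l
      = Complex.I ^ expo a l • ev (fun b => g b (δ b)) l := fun δ l => by
    induction l with
    | nil => simp [expo]
    | cons x l ih =>
      obtain ⟨b, c⟩ := x
      have h1 : expo a ((b, c) :: l)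
          = (if b = a then (if c then (1 : ℤ) else -1) else 0) + expo a l := by simp [expo]
      rw [ev_cons, ev_cons, ih, h1, zpow_add₀ Complex.I_ne_zero, ← smul_mul_smul_comm]
      congr 1
      simp only [hE]
      by_cases hb : b = a <;> cases c <;> simp [hb]
  refine ex_eq_zero_of_equiv E (c := Complex.I ^ (expo a l' - expo a l)) ?_ fun δ => ?_
  · intro h1
    apply ha
    have := (Complex.isPrimitiveRoot_I.zpow_eq_one_iff_dvd _).1 h1
    exact_mod_cast this
  · rw [hev, hev, star_smul, map_smul, map_smul, LinearMap.smul_apply, smul_smul]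
    congr 1
    rw [zpow_sub₀ Complex.I_ne_zero, div_eq_mul_inv, star_zpow₀, ← inv_zpow]
    simp

/-- If some `cnt a w w'` is odd use `expo_parity`; otherwise all counts are at most `2`: `comb`. -/
theorem offdiag (h : LS τ η g V) (hC : 0 ≤ C) (h1 : B1 τ β C) (h2 : B2 τ β C)
    {w w' : FreeGroup α} (hne : w ≠ w') (hb : ¬Bad w w') :
    ‖ex fun δ : ∀ a, Δ a =>
      β (star (ev (fun b => g b (δ b)) w.toWord)) (ev (fun b => g b (δ b)) w'.toWord)‖
      ≤ 4 * C * η := by
  have hη := h.nonneg
  have h0 : ∀ a, ¬(4 : ℤ) ∣ expo a w'.toWord - expo a w.toWord → ‖ex fun δ : ∀ a, Δ a =>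
      β (star (ev (fun b => g b (δ b)) w.toWord)) (ev (fun b => g b (δ b)) w'.toWord)‖
      ≤ 4 * C * η := fun a ha => by
    rw [ex_eq_zero_of_expo h β ha, norm_zero]
    positivity
  by_cases hev : ∀ a, Even (cnt a w w')
  · have hc : ∀ a, (lets w.toWord).count a + (lets w'.toWord).count a ≤ 2 := fun a => by
      by_contra hlt
      exact hb ⟨hev, a, by unfold cnt; omega⟩
    have h3 : 2 * C * η ≤ 4 * C * η := by gcongr; norm_num
    rcases comb FreeGroup.isReduced_toWord FreeGroup.isReduced_toWord
      (fun e => hne (FreeGroup.toWord_injective e)) hc with ⟨a, ha⟩ | hl | hl | hl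
    · exact h0 a ha
    · exact (lemL_left h hC h2 hl).trans h3
    · exact (lemL_right h hC h2 hl).trans h3
    · exact lemX h hC h1 h2 hl
  · push Not at hev
    obtain ⟨a, ha⟩ := hev
    refine h0 a fun hd => ha ?_
    have h3 : Even (expo a w'.toWord - expo a w.toWord) :=
      (even_iff_two_dvd.2 (dvd_trans (by norm_num) hd))
    rw [Int.even_sub, expo_parity, expo_parity] at h3
    unfold cnt
    rw [Nat.even_add]
    exact h3.symm

end Crest.Agent.R121
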