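import Crest.Agent.R121.LSys
import Crest.Agent.R121.Offdiag

/-! Row 121: random letters with prescribed ends. -/

set_option autoImplicit false

open scoped ComplexOrder InnerProductSpace ComplexConjugate

namespace Crest.Agent.R121

open Crest.Agent.R095 (Tr lt)
open Crest.Agent.R124

variable {Q : Type*} [CStarAlgebra Q]

lemma letters_le_ex {Ω : Type*} [Fintype Ω] [Nonempty Ω] {f : Ω → ℝ} {c : ℝ}
    (h : ∀ ω, c ≤ f ω) : c ≤ ex f := by
  simpa using ex_mono (f := fun _ => c) h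

lemma letters_gen {τ : Tr Q} {β : Fm Q} {C : ℝ} (hC : 0 ≤ C) (h1 : B1 τ β C) (h2 : B2 τ β C)
    {n : ℕ} {Θ : Type} [Fintype Θ] [Nonempty Θ] {σ : Fin n → Θ → Q}
    (hσ : ∀ x θ, σ x θ ∈ unitary Q) {Δ : Fin n → Type} [∀ x, Fintype (Δ x)] [∀ x, Nonempty (Δ x)]
    {U : ∀ x, Δ x → Q} (hU : ∀ x δ, U x δ ∈ unitary Q) {V : Fin n → Set Q} {η η' : ℝ}
    (hη : 4 * C * η' ≤ η)
    (hLS : ∀ θ₁ θ₂ : Fin n → Θ,
      LS τ η' (fun x δ => star (σ x (θ₁ x)) * U x δ * σ x (θ₂ x)) V)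
    {ty : Fin n → Bool} {a : ℝ}
    (hup : ∀ x, ty x = true → ∀ u ∈ unitary Q, a ≤ ex fun θ => (gam β (u * σ x θ)).re) :
    Let1 β ty a η fun (ω : (Fin n → Θ) × (Fin n → Θ) × (∀ x, Δ x)) x =>
      star (σ x (ω.1 x)) * U x (ω.2.2 x) * σ x (ω.2.1 x) := by
  have hu : ∀ (θ₁ θ₂ : Fin n → Θ) (δ : ∀ x, Δ x) (x : Fin n),
      star (σ x (θ₁ x)) * U x (δ x) * σ x (θ₂ x) ∈ unitary Q := fun θ₁ θ₂ δ x =>
    mul_mem (mul_mem (Unitary.star_mem (hσ _ _)) (hU _ _)) (hσ _ _)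
  refine ⟨fun ω x => hu _ _ _ _, fun w w' hne hb => ?_, fun l x hx hty => ?_⟩
  · rw [ex_prod]
    refine norm_ex_le_const fun θ₁ => ?_
    rw [ex_prod]
    refine norm_ex_le_const fun θ₂ => ?_
    exact (offdiag (hLS θ₁ θ₂) hC h1 h2 hne hb).trans hη
  · obtain ⟨x, e⟩ := x
    cases e with
    | true =>
      rw [ex_prod]
      refine letters_le_ex fun θ₁ => ?_
      rw [ex_prod, ex_comm]
      refine letters_le_ex fun δ => ?_
      rw [ex_update x]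
      refine letters_le_ex fun θ₂ => ?_
      refine (hup x hty (ev (fun y => star (σ y (θ₁ y)) * U y (δ y) * σ y (θ₂ y)) l *
        (star (σ x (θ₁ x)) * U x (δ x))) (mul_mem (ev_mem_unitary (hu θ₁ θ₂ δ) l)
        (mul_mem (Unitary.star_mem (hσ _ _)) (hU _ _)))).trans_eq (ex_congr fun t => ?_)
      rw [ev_append, ev_congr (g := fun y => star (σ y (θ₁ y)) * U y (δ y) *
        σ y (Function.update θ₂ x t y))
        (g' := fun y => star (σ y (θ₁ y)) * U y (δ y) * σ y (θ₂ y)) fun y hy => by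
          rw [Function.update_of_ne fun h : y = x => hx (h ▸ hy)]]
      simp [mul_assoc]
    | false =>
      rw [ex_prod, ex_comm]
      refine letters_le_ex fun ω => ?_
      rw [ex_update x]
      refine letters_le_ex fun θ₁ => ?_
      refine (hup x hty (ev (fun y => star (σ y (θ₁ y)) * U y (ω.2 y) * σ y (ω.1 y)) l *
        (star (σ x (ω.1 x)) * star (U x (ω.2 x)))) (mul_mem (ev_mem_unitary (hu θ₁ ω.1 ω.2) l)
        (mul_mem (Unitary.star_mem (hσ _ _)) (Unitary.star_mem (hU _ _))))).trans_eq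
        (ex_congr fun t => ?_)
      rw [ev_append, ev_congr (g := fun y => star (σ y (Function.update θ₁ x t y)) * U y (ω.2 y) *
        σ y (ω.1 y))
        (g' := fun y => star (σ y (θ₁ y)) * U y (ω.2 y) * σ y (ω.1 y)) fun y hy => by
          rw [Function.update_of_ne fun h : y = x => hx (h ▸ hy)]]
      simp [mul_assoc]

/-- Let `(Ω₊, s₊)`, `(Ω₋, s₋)` be given by `hp`, `hm`, `S = range s₊ ∪ range s₋`, `Θ = Ω₊ × Ω₋`,
`σ a θ = if ty a then s₊ θ.1 else s₋ θ.2`. `Ω = (Fin n → Θ) × (Fin n → Θ) × (∀ a, Δ a)`,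
`g ω a = star (σ a (ω.1 a)) * U a (ω.2.2 a) * σ a (ω.2.1 a)` with `exists_LS` for a small `η'`
(`4 C η' ≤ η`). `off`: `ex_prod`, `offdiag` for fixed `ω.1`, `ω.2.1`. `up`: `lt (g ω a) true` ends
with `σ a (ω.2.1 a)`, `lt (g ω a) false` ends with `σ a (ω.1 a)`, which is independent of the rest
(`ex_update`, `ex_comm`). -/
theorem exists_letters (τ : Tr Q) (hQ : Halving Q) {β : Fm Q} {C : ℝ} (hC : 0 ≤ C)
    (h1 : B1 τ β C) (h2 : B2 τ β C) {a b : ℝ} (hp : Up β a) (hm : Up (-β) b) {n : ℕ}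
    (ty : Fin n → Bool) {η : ℝ} (hη : 0 < η) :
    ∃ (Ω : Type) (_ : Fintype Ω) (_ : Nonempty Ω) (g : Ω → Fin n → Q),
      Let1 β ty a η g ∧ Let1 (-β) (fun x => !ty x) b η g := by
  obtain ⟨Ωp, _, _, sp, hsp, hp⟩ := hp
  obtain ⟨Ωm, _, _, sm, hsm, hm⟩ := hm
  set η' : ℝ := min 1 (η / (4 * C + 1)) with hη'
  have hη'0 : 0 < η' := lt_min one_pos (by positivity)
  have hη'1 : 4 * C * η' ≤ η := by
    have e1 : η' ≤ η / (4 * C + 1) := min_le_right _ _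
    rw [le_div_iff₀ (by positivity)] at e1
    nlinarith
  obtain ⟨Δ, _, _, U, V, hU, hLS⟩ := exists_LS τ hQ n (S := Set.range sp ∪ Set.range sm)
    ((Set.finite_range sp).union (Set.finite_range sm))
    (by rintro _ (⟨ω, rfl⟩ | ⟨ω, rfl⟩); exacts [hsp ω, hsm ω]) hη'0 (min_le_left _ _)
  let σ : Fin n → Ωp × Ωm → Q := fun x θ => if ty x then sp θ.1 else sm θ.2
  have hσS : ∀ x θ, σ x θ ∈ Set.range sp ∪ Set.range sm := fun x θ => by
    simp only [σ]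
    split_ifs
    exacts [Or.inl ⟨_, rfl⟩, Or.inr ⟨_, rfl⟩]
  have hσ : ∀ x θ, σ x θ ∈ unitary Q := fun x θ => by
    rcases hσS x θ with ⟨ω, h⟩ | ⟨ω, h⟩
    exacts [h ▸ hsp ω, h ▸ hsm ω]
  have hL : ∀ θ₁ θ₂ : Fin n → Ωp × Ωm,
      LS τ η' (fun x δ => star (σ x (θ₁ x)) * U x δ * σ x (θ₂ x)) V := fun θ₁ θ₂ =>
    hLS (fun x => σ x (θ₁ x)) (fun x => σ x (θ₂ x)) (fun x => hσS _ _) fun x => hσS _ _
  refine ⟨(Fin n → Ωp × Ωm) × (Fin n → Ωp × Ωm) × (∀ x, Δ x), inferInstance, inferInstance, _,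
    letters_gen hC h1 h2 hσ hU hη'1 hL fun x hx u hu => ?_,
    letters_gen hC h1.neg h2.neg hσ hU hη'1 hL fun x hx u hu => ?_⟩
  · rw [ex_prod]
    simpa [σ, hx] using hp u hu
  · have hx' : ty x = false := by simpa using hx
    rw [ex_prod, ex_comm]
    simpa [σ, hx'] using hm u hu

end Crest.Agent.R121
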