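import Crest.Agent.R121.Pre
import Crest.Agent.R121.Design

/-! Row 121: the finite type I case. -/

set_option autoImplicit false

open scoped ComplexOrder InnerProductSpace ComplexConjugate

namespace Crest.Agent.R121

open Crest.Agent.R095 (Tr lt)
open Crest.Agent.R124

variable {Q : Type*} [CStarAlgebra Q] [PartialOrder Q] [StarOrderedRing Q]

/-- If `n = 0` the algebra is trivial. Otherwise let `β₀ = avg β m₀` (`exists_pre`) and average over
the unitaries `∑ c i j • f i j`, `f i j = v i * star (v j)` (`exists_udes`, `UDes.ex_bilin`):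
`β' z z' = n⁻¹ ∑ i j, β₀ (z * star (f i j)) (f i j * z')` satisfies `β' (z y) z' = β' z (y z')` for
`y = f k l` and for central `y`. Every `x` is `∑ i j, f i j * c i j` with
`c i j = ∑ k, v k * (star (v i) * x * v j) * star (v k)` central (`Abelian e`). So
`gam β' u = β' (u⋆ u) 1`. Use `avg_avg`. -/
theorem flat_typeI (hQ : Baer Q) {n : ℕ} {v : Fin n → Q} {e : Q} (hv : Sys v e) (he : Abelian e)
    {β : Fm Q} {C : ℝ} (hC : 0 ≤ C) (hβ : B0 β C) : ∃ m : Mn (unitary Q), Flat (avg β m) := by
  rcases Nat.eq_zero_or_pos n with rfl | hn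
  · have h1 : (1 : Q) = 0 := by simpa using hv.sum.symm
    have : Subsingleton Q := subsingleton_of_zero_eq_one h1.symm
    exact ⟨Mn.pt 1, fun u _ => by rw [Subsingleton.elim u 1]⟩
  have : Nonempty (Fin n) := ⟨⟨0, hn⟩⟩
  obtain ⟨m₀, -, hm₀⟩ := exists_pre hQ
  obtain ⟨Δ, _, _, c, hc⟩ := exists_udes (Fin n)
  set β₀ := avg β m₀ with hβ₀
  have hcen := hm₀ β C hC hβ
  rw [← hβ₀] at hcen
  let U : Δ → unitary Q := fun δ => ⟨_, hc.mem_unitary hv δ⟩
  refine ⟨conv m₀ (Mn.ofEx U), ?_⟩
  rw [← avg_avg, ← hβ₀]
  set β' := avg β₀ (Mn.ofEx U) with hβ'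
  have hf : ∀ z z', β' z z' = (Fintype.card (Fin n) : ℂ)⁻¹ •
      ∑ i, ∑ j, β₀ (z * (v j * star (v i))) (v i * star (v j) * z') := fun z z' => by
    have := hc.ex_bilin (β₀.compl₁₂ (LinearMap.mulLeft ℂ z) (LinearMap.mulRight ℂ z'))
      (fun i j => v j * star (v i)) fun i j => v i * star (v j)
    simp only [LinearMap.compl₁₂_apply, LinearMap.mulLeft_apply, LinearMap.mulRight_apply] at this
    rw [← this, hβ', avg_apply, Mn.ofEx_apply]
    simp only [U, star_sum, star_smul, star_mul, star_star, Complex.star_def]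
  have h1 : ∀ i j k l, v i * star (v j) * (v k * star (v l))
      = if j = k then v i * star (v l) else 0 := fun i j k l => by
    rw [mul_assoc, ← mul_assoc (star (v j)), hv.mul]
    split_ifs
    · rw [← mul_assoc, hv.mul_e]
    · simp
  have hunit : ∀ k l z z', β' (z * (v k * star (v l))) z' = β' z (v k * star (v l) * z') := by
    intro k l z z'
    rw [hf, hf]
    congr 1
    refine Finset.sum_congr rfl fun i _ => ?_
    simp only [mul_assoc z, ← mul_assoc _ (v k * star (v l)) z', h1]
    rw [Finset.sum_eq_single l (fun j _ hj => by simp [hj.symm]) (by simp),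
      Finset.sum_eq_single k (fun j _ hj => by simp [hj]) (by simp)]
    simp
  have hcen' : ∀ a, Cen a → ∀ z z', β' (z * a) z' = β' z (a * z') := fun a ha z z' => by
    rw [hf, hf]
    congr 1
    refine Finset.sum_congr rfl fun i _ => Finset.sum_congr rfl fun j _ => ?_
    rw [mul_assoc z, ha, ← mul_assoc z, hcen a ha, ← mul_assoc a, ha, mul_assoc _ a]
  have hes : ∀ i, e * star (v i) = star (v i) := fun i => by
    have := congrArg star (hv.mul_e i)
    rwa [star_mul, hv.proj.isSelfAdjoint.star_eq] at this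
  have hblk : ∀ i j (x : Q), e * (star (v i) * x * v j) * e = star (v i) * x * v j := by
    intro i j x
    rw [← mul_assoc, ← mul_assoc, hes, mul_assoc, hv.mul_e]
  have hdec : ∀ x : Q, x = ∑ i, ∑ j, v i * (star (v i) * x * v j) * star (v j) := fun x => by
    have : ∀ i j, v i * (star (v i) * x * v j) * star (v j)
        = v i * star (v i) * x * (v j * star (v j)) := fun i j => by noncomm_ring
    simp only [this, ← Finset.mul_sum, ← Finset.sum_mul, hv.sum, one_mul, mul_one]
  have hl : ∀ (a : Q) i, e * a * e = a →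
      star (v i) * (∑ k, v k * a * star (v k)) = a * star (v i) := fun a i ha => by
    simp only [Finset.mul_sum, ← mul_assoc, hv.mul]
    rw [Finset.sum_eq_single i (fun j _ hj => by simp [hj.symm]) (by simp), if_pos rfl, ← ha]
    simp only [← mul_assoc, hv.proj.isIdempotentElem.eq]
  have hr : ∀ (a : Q) i, e * a * e = a →
      (∑ k, v k * a * star (v k)) * v i = v i * a := fun a i ha => by
    simp only [Finset.sum_mul, mul_assoc, hv.mul]
    rw [Finset.sum_eq_single i (fun j _ hj => by simp [hj]) (by simp), if_pos rfl, ← ha]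
    simp only [mul_assoc, hv.proj.isIdempotentElem.eq]
  have hc2 : ∀ a : Q, e * a * e = a → Cen (∑ k, v k * a * star (v k)) := fun a ha x => by
    rw [hdec x, Finset.mul_sum, Finset.sum_mul]
    refine Finset.sum_congr rfl fun i _ => ?_
    rw [Finset.mul_sum, Finset.sum_mul]
    refine Finset.sum_congr rfl fun j _ => ?_
    have h2 := he a (star (v i) * x * v j)
    rw [ha, hblk] at h2
    rw [← mul_assoc, ← mul_assoc, hr a i ha, mul_assoc _ (star (v j)), hl a j ha, mul_assoc (v i),
      h2]
    noncomm_ring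
  have hall : ∀ x z z', β' (z * x) z' = β' z (x * z') := fun x z z' => by
    have h2 : x = ∑ i, ∑ j, v i * star (v j) * ∑ k, v k * (star (v i) * x * v j) * star (v k) := by
      conv_lhs => rw [hdec x]
      refine Finset.sum_congr rfl fun i _ => Finset.sum_congr rfl fun j _ => ?_
      rw [mul_assoc (v i) (star (v j)), hl _ j (hblk i j x), mul_assoc (v i)]
    rw [h2]
    rw [Finset.mul_sum, Finset.sum_mul, map_sum, map_sum, LinearMap.sum_apply]
    refine Finset.sum_congr rfl fun i _ => ?_
    rw [Finset.mul_sum, Finset.sum_mul, map_sum, map_sum, LinearMap.sum_apply]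
    refine Finset.sum_congr rfl fun j _ => ?_
    rw [← mul_assoc z, hcen' _ (hc2 _ (hblk i j x)), hunit, ← mul_assoc]
  intro u hu
  have := hall u (star u) 1
  rw [mul_one, Unitary.star_mul_self_of_mem hu] at this
  rw [gam, gam, ← this, star_one]

end Crest.Agent.R121
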