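import Crest.Agent.R121.Osc
import Crest.Agent.R121.TypeI

/-! Row 121: one mean for all forms of the class. -/

set_option autoImplicit false

open scoped ComplexOrder InnerProductSpace ComplexConjugate

namespace Crest.Agent.R121

open Crest.Agent.R095 (Tr lt)
open Crest.Agent.R124

variable {Q : Type*} [CStarAlgebra Q] [PartialOrder Q] [StarOrderedRing Q]

omit [PartialOrder Q] [StarOrderedRing Q] in
theorem Cls.avg {β : Fm Q} (h : Cls β) (m : Mn (unitary Q)) : Cls (R121.avg β m) := by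
  obtain ⟨c, τ, C, hc, hC, h1, h2⟩ := h
  refine ⟨c, τ, C, hc, hC, h1.avg m, fun z z' => ?_⟩
  obtain ⟨-, hcen, -⟩ := hc
  rw [avg_apply, avg_apply]
  congr 1
  ext u
  rw [← mul_assoc (u : Q), ← hcen, mul_assoc, h2]

section lift

variable {A : Type*} [CStarAlgebra A] {c : A} {hc : IsStarProjection c}

/-- The sign attached to a Boolean. -/
def liftSign (σ : Bool) : ℂ := if σ then 1 else -1

lemma lift_mem (u : unitary (Cn hc)) (σ : Bool) :
    (u : Cn hc).val + liftSign σ • (1 - c) ∈ unitary A := by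
  have hcc : c * c = c := hc.isIdempotentElem.eq
  have hs : star (liftSign σ) = liftSign σ := by cases σ <;> simp [liftSign]
  have hss : liftSign σ * liftSign σ = 1 := by cases σ <;> simp [liftSign]
  have h1 : star (u : Cn hc).val * (u : Cn hc).val = c :=
    congrArg Cn.val (Unitary.star_mul_self_of_mem u.2)
  have h2 : (u : Cn hc).val * star (u : Cn hc).val = c :=
    congrArg Cn.val (Unitary.mul_star_self_of_mem u.2)
  have h3 : (u : Cn hc).val * (1 - c) = 0 := by rw [mul_sub, mul_one, Cn.mul_p, sub_self]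
  have h4 : (1 - c) * (u : Cn hc).val = 0 := by rw [sub_mul, one_mul, Cn.p_mul, sub_self]
  have h5 : star (u : Cn hc).val * (1 - c) = 0 := by
    rw [← Cn.val_star, mul_sub, mul_one, Cn.mul_p, sub_self]
  have h6 : (1 - c) * star (u : Cn hc).val = 0 := by
    rw [← Cn.val_star, sub_mul, one_mul, Cn.p_mul, sub_self]
  have h7 : (1 - c) * (1 - c) = 1 - c := by
    rw [mul_sub, mul_one, sub_mul, one_mul, hcc, sub_self, sub_zero]
  have h8 : star (1 - c) = 1 - c := by rw [star_sub, star_one, hc.isSelfAdjoint.star_eq]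
  refine ⟨?_, ?_⟩
  · simp only [star_add, star_smul, hs, h8, add_mul, mul_add, mul_smul_comm, smul_mul_assoc, h1,
      h4, h5, h7, smul_zero, smul_smul, hss, one_smul, add_zero, zero_add]
    abel
  · simp only [star_add, star_smul, hs, h8, add_mul, mul_add, mul_smul_comm, smul_mul_assoc, h2,
      h3, h6, h7, smul_zero, smul_smul, hss, one_smul, add_zero, zero_add]
    abel

/-- The lift of a mean on the unitary group of the corner. -/
noncomputable def liftMn (m : Mn (unitary (Cn hc))) : Mn (unitary A) :=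
  m.bind fun u => Mn.ofEx fun σ : Bool => ⟨_, lift_mem u σ⟩

/-- The restriction of a form to the corner. -/
noncomputable def liftRes (hc : IsStarProjection c) (β : Fm A) : Fm (Cn hc) :=
  β.compl₁₂ (Cn.incl hc : Cn hc →ₗ[ℂ] A) (Cn.incl hc : Cn hc →ₗ[ℂ] A)

lemma liftRes_apply (β : Fm A) (z z' : Cn hc) : liftRes hc β z z' = β z.val z'.val := rfl

lemma lift_avg {β : Fm A} (h : ∀ z z', β z (c * z') = β z z') (m : Mn (unitary (Cn hc)))
    (z z' : A) :
    avg β (liftMn m) z z' = m fun u => β (z * star (u : Cn hc).val) ((u : Cn hc).val * z') := by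
  have hcc : c * c = c := hc.isIdempotentElem.eq
  have h8 : star (1 - c) = 1 - c := by rw [star_sub, star_one, hc.isSelfAdjoint.star_eq]
  rw [avg_apply, liftMn, Mn.bind_apply]
  congr 1
  ext u
  have e : ∀ (σ : Bool) (y : A), β y (((u : Cn hc).val + liftSign σ • (1 - c)) * z')
      = β y ((u : Cn hc).val * z') := fun σ y => by
    rw [← h y, ← mul_assoc, mul_add, Cn.p_mul, mul_smul_comm, mul_sub, mul_one, hcc, sub_self,
      smul_zero, add_zero]
  rw [Mn.ofEx_apply]
  simp only [e]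
  rw [ex_def, Fintype.sum_bool, Fintype.card_bool]
  simp only [star_add, star_smul, h8, mul_add, mul_smul_comm, map_add, map_smul,
    LinearMap.add_apply, LinearMap.smul_apply, liftSign, smul_eq_mul, Complex.real_smul]
  simp
  ring

lemma lift_comp_mem (hcen : Cen c) {w : A} (hw : w ∈ unitary A) :
    Cn.comp hc w ∈ unitary (Cn hc) := by
  have hcc : c * c = c := hc.isIdempotentElem.eq
  have e : c * w * c = c * w := by rw [mul_assoc, ← hcen w, ← mul_assoc, hcc]
  refine ⟨Cn.ext ?_, Cn.ext ?_⟩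
  · rw [Cn.val_mul, Cn.val_star, Cn.val_comp, e, Cn.val_one, star_mul, hc.isSelfAdjoint.star_eq,
      mul_assoc, ← mul_assoc c c, hcc, hcen w, ← mul_assoc, Unitary.star_mul_self_of_mem hw,
      one_mul]
  · rw [Cn.val_mul, Cn.val_star, Cn.val_comp, e, Cn.val_one, star_mul, hc.isSelfAdjoint.star_eq,
      mul_assoc, ← mul_assoc w, Unitary.mul_star_self_of_mem hw, one_mul, hcc]

lemma lift_gam {β : Fm A} (hcen : Cen c) (h : ∀ z z', β z (c * z') = β z z')
    (m : Mn (unitary (Cn hc))) (w : A) :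
    gam (avg β (liftMn m)) w = gam (avg (liftRes hc β) m) (Cn.comp hc w) := by
  rw [gam_avg (liftRes hc β), gam, lift_avg h]
  congr 1
  ext u
  have e : ((u : Cn hc) * Cn.comp hc w).val = (u : Cn hc).val * w := by
    rw [Cn.val_mul, Cn.val_comp, mul_assoc c, ← hcen w, ← mul_assoc c, hc.isIdempotentElem.eq,
      ← mul_assoc, Cn.mul_p]
  rw [gam, liftRes_apply, Cn.val_star, e, star_mul]

lemma lift_flat {β : Fm A} (hcen : Cen c) (h : ∀ z z', β z (c * z') = β z z')
    {m : Mn (unitary (Cn hc))} (hm : Flat (avg (liftRes hc β) m)) : Flat (avg β (liftMn m)) := by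
  intro w hw
  rw [lift_gam hcen h, lift_gam hcen h, hm _ (lift_comp_mem hcen hw),
    hm _ (lift_comp_mem hcen (one_mem _))]

lemma lift_b1 {β : Fm A} {τ : Tr A} {C : ℝ} (h : B1 τ β C) (h0 : τ.n2 c ≠ 0) :
    B1 (Cn.tr τ hc h0) (liftRes hc β) (C * τ.n2 c ^ 2) := by
  intro z x y
  rw [liftRes_apply, Cn.val_mul]
  refine (h _ _ _).trans_eq ?_
  rw [Cn.n2_val τ h0 x, Cn.n2_val τ h0 y, Cn.norm_val]
  ring

end lift

/-- If `τ.n2 c = 0` then `β = 0`. Otherwise restrict `β` to the corner `Cn c` (`Cn.incl`, `Cn.tr`,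
`Cn.n2_val`, `Cn.baer`) and take `m₀` from `flat_II` or `flat_typeI`. Let `m` be the mean of
`u.val + σ • (1 - c)`, `u ∼ m₀`, `σ = ± 1` uniformly. Since `β z ((1 - c) z') = 0`,
`avg β m z z' = m₀ fun u => β (z u⋆) (u z') = avg β₀ m₀ (c z) (c z')`, and `c w` is a unitary of the
corner for `w` unitary. -/
theorem Cls.flat (hQ : Baer Q) {β : Fm Q} (h : Cls β) :
    ∃ m : Mn (unitary Q), Flat (R121.avg β m) := by
  obtain ⟨c, τ, C, ⟨hc, hcen, hty⟩, hC, h1, h2⟩ := h
  by_cases h0 : τ.n2 c = 0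
  · have hz : ∀ z z', β z z' = 0 := fun z z' => by
      have := h1 z c z'
      rw [h0, mul_zero, zero_mul, h2] at this
      exact norm_le_zero_iff.1 this
    refine ⟨Mn.pt 1, fun u _ => ?_⟩
    simp only [gam, avg_apply, Mn.pt_apply, hz]
  · have hb : B1 (Cn.tr τ hc h0) (liftRes hc β) (C * τ.n2 c ^ 2) := lift_b1 h1 h0
    have hC' : 0 ≤ C * τ.n2 c ^ 2 := by positivity
    have hB := R121.Cn.baer hQ hc
    obtain ⟨m, hm⟩ : ∃ m : Mn (unitary (Cn hc)), Flat (R121.avg (liftRes hc β) m) := by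
      rcases hty with hty | ⟨n, v, e, hv, he⟩
      · exact flat_II hB hty _ hC' hb
      · exact flat_typeI hB hv he hC' (hb.b0 hC')
    exact ⟨liftMn m, lift_flat hcen h2 hm⟩

lemma lift_finite (hQ : Baer Q) (l : List (Fm Q)) :
    ∃ m : Mn (unitary Q), ∀ β ∈ l, Cls β → Flat (avg β m) := by
  induction l with
  | nil => exact ⟨Mn.pt 1, by simp⟩
  | cons β l ih =>
    obtain ⟨m, hm⟩ := ih
    by_cases hβ : Cls β
    · obtain ⟨m', hm'⟩ := (hβ.avg m).flat hQ
      refine ⟨conv m m', fun β' hβ' hc => ?_⟩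
      rw [← avg_avg]
      rcases List.mem_cons.1 hβ' with rfl | hβ'
      · exact hm'
      · exact (hm β' hβ' hc).avg m'
    · refine ⟨m, fun β' hβ' hc => ?_⟩
      rcases List.mem_cons.1 hβ' with rfl | hβ'
      · exact absurd hc hβ
      · exact hm β' hβ' hc

/-- For finitely many forms use induction (`Cls.avg`, `Flat.avg`, `avg_avg`); then
`Mn.exists_of_approx_norm` for the functions `v ↦ gam β (v u) - gam β v` (`gam_avg`). -/
theorem exists_mean_fin (hQ : Baer Q) :
    ∃ m : Mn (unitary Q), ∀ β : Fm Q, Cls β → Flat (avg β m) := by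
  obtain ⟨m, hm⟩ := Mn.exists_of_approx_norm (X := unitary Q)
    (I := {β : Fm Q // Cls β} × unitary Q)
    (fun q v => gam q.1.1 ((v : Q) * q.2) - gam q.1.1 ((v : Q) * 1))
    (fun q => by
      obtain ⟨c, τ, C, -, hC, h1, -⟩ := q.1.2
      exact ⟨C + C, fun v => (norm_sub_le _ _).trans (add_le_add
        ((h1.b0 hC).norm_gam_le hC (mul_mem v.2 q.2.2))
        ((h1.b0 hC).norm_gam_le hC (mul_mem v.2 (one_mem _))))⟩)
    (fun _ => 0)
    (fun s ε hε => by
      obtain ⟨m, hm⟩ := lift_finite hQ (s.toList.map fun q => q.1.1)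
      refine ⟨m, fun q hq => ?_⟩
      rw [m.map_sub, ← gam_avg, ← gam_avg,
        hm q.1.1 (List.mem_map.2 ⟨q, Finset.mem_toList.2 hq, rfl⟩) q.1.2 _ q.2.2, sub_self,
        norm_zero, zero_add]
      exact hε.le)
  refine ⟨m, fun β hβ u hu => ?_⟩
  have := hm (⟨β, hβ⟩, ⟨u, hu⟩)
  rw [m.map_sub, ← gam_avg, ← gam_avg, norm_le_zero_iff, sub_eq_zero] at this
  exact this

end Crest.Agent.R121
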