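import Crest.Agent.R121.Defs

/-! Row 121: the primitive of a cocycle given by an averaging map. -/

set_option autoImplicit false

open scoped ComplexOrder InnerProductSpace ComplexConjugate

namespace Crest.Agent.R121

open Crest.Agent.R095 (Tr lt)
open Crest.Agent.R124

variable {A : Type*} [CStarAlgebra A]

theorem bar_append_two (G : List A → A) (l : List A) (x y : A) :
    bar G (l ++ [x, y])
      = bar (fun m => G (m ++ [y])) (l ++ [x]) + (-1 : ℤ) ^ l.length • G (l ++ [x * y]) := by
  induction l generalizing G with
  | nil => simp [bar_cons]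
  | cons a l ih =>
    cases l with
    | nil => simp [bar_cons, sub_eq_add_neg]
    | cons b t =>
      have h := ih (fun l => G (a :: l))
      simp only [List.cons_append, bar_cons, List.length_cons, pow_succ, List.append_assoc,
        List.nil_append, mul_neg, mul_one, neg_neg, neg_smul] at h ⊢
      rw [h]
      abel

theorem prim_bar_smul (c : ℂ) (G : List A → A) (l : List A) :
    bar (fun m => c • G m) l = c • bar G l := by
  induction l generalizing G with
  | nil => simp
  | cons a l ih =>
    cases l with
    | nil => simp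
    | cons b t => rw [bar_cons, bar_cons, ih (fun l => G (a :: l)), smul_sub]

theorem prim_bar_rho (ρ : (A → A) →ₗ[ℂ] A) (l : List A) (x : A) (F K : List A → A)
    (hK : ∀ l x, K (l ++ [x]) = ρ fun y => F (l ++ [x * y])) :
    ρ (fun y => bar F (l ++ [x * y])) = bar K (l ++ [x]) := by
  induction l generalizing F K with
  | nil =>
    simp only [List.nil_append, bar_single]
    exact ρ.map_zero
  | cons a l ih =>
    cases l with
    | nil =>
      have h := hK [] (a * x)
      simp only [List.nil_append, mul_assoc] at h
      simp [bar_cons, h]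
    | cons b t =>
      have h := ih (fun l => F (a :: l)) (fun l => K (a :: l)) fun l x => hK (a :: l) x
      have h2 := hK (a * b :: t) x
      simp only [List.cons_append] at h h2 ⊢
      rw [bar_cons, ← h, h2, ← map_sub]
      simp only [bar_cons]
      rfl

/-- Let `K₀ (l ++ [x]) = ρ fun y => G (l ++ [x * y, 1])` (use `List.dropLast`, `List.getLastD`);
for `l.length + 1 = N` this is `ρ (T l) * x` by `hρ.right`, `T l y = G (l ++ [y, 1])`. `ML` by
linearity of `ρ` and `hρ.norm_le`, `LM` by `hρ.left` (`l ≠ []` as `2 ≤ N`), `RM` is clear. For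
`l.length = N` the cocycle identity at `l ++ [x * y, 1]` and `bar_append_two` give
`bar (fun m => G (m ++ [1])) (l ++ [x * y]) = - (-1) ^ N • G (l ++ [x]) * y`; apply `ρ` in `y`:
`ρ (fun y => bar F (l ++ [x * y])) = bar (fun m => ρ fun y => F (m with last entry * y)) (l ++ [x])`
by induction on `l` (linearity of `ρ`), and `hρ.one`. Take `K = ± K₀`. -/
theorem exists_prim {Adm : (A → A) → ℝ → Prop} {ρ : (A → A) →ₗ[ℂ] A} (hρ : Rho Adm ρ)
    {G : List A → A} {N : ℕ} {C C' : ℝ} (hN : 2 ≤ N) (hG : Coch G (N + 1) C) (hc : Cyc G (N + 1))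
    (hC' : 0 ≤ C')
    (hA : ∀ l : List A, l.length + 1 = N → Adm (fun y => G (l ++ [y, 1])) (C' * nprod l)) :
    ∃ (K : List A → A) (C'' : ℝ), Coch K N C'' ∧
      ∀ l : List A, l.length = N + 1 → G l = bar K l := by
  let K₀ : List A → A := fun m => ρ fun y => G (m.dropLast ++ [m.getLastD 0 * y, 1])
  have hK : ∀ l x, K₀ (l ++ [x]) = ρ fun y => G (l ++ [x * y, 1]) := by
    intro l x
    simp [K₀]
  have hK' : ∀ l x, l.length + 1 = N → K₀ (l ++ [x]) = ρ (fun y => G (l ++ [y, 1])) * x :=
    fun l x hl => (hK l x).trans (hρ.right _ _ (hA l hl) x)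
  set c : ℂ := -(-1) ^ N with hc'
  have hcc : c * c = 1 := by
    rw [hc', neg_mul_neg, ← mul_pow]; simp
  have hcn : ‖c‖ = 1 := by simp [hc']
  refine ⟨fun m => c • K₀ m, C', ⟨⟨hC', fun l r hl => ?_, fun m hm => ?_⟩, fun a x r hr => ?_,
    fun l x a hl => ?_⟩, fun m hm => ?_⟩
  · suffices h : IsLinearMap ℂ fun x => K₀ (l ++ x :: r) from
      ⟨fun x y => by rw [h.map_add, smul_add], fun d x => by rw [h.map_smul, smul_comm]⟩
    rcases List.eq_nil_or_concat r with rfl | ⟨r', z, rfl⟩
    · have hl' : l.length + 1 = N := by simpa using hl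
      simp only [hK' l _ hl']
      exact ⟨fun x y => mul_add _ _ _, fun d x => mul_smul_comm _ _ _⟩
    · have e : ∀ x, K₀ (l ++ x :: r'.concat z) = ρ fun y => G (l ++ x :: (r' ++ [z * y, 1])) := by
        intro x
        have := hK (l ++ x :: r') z
        simpa using this
      have hlin : ∀ y, IsLinearMap ℂ fun x => G (l ++ x :: (r' ++ [z * y, 1])) := fun y =>
        hG.ml.lin l _ (by simp at hl ⊢; omega)
      simp only [e]
      refine ⟨fun x x' => ?_, fun d x => ?_⟩
      · rw [← map_add]
        congr 1
        funext y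
        exact (hlin y).map_add x x'
      · rw [← map_smul]
        congr 1
        funext y
        exact (hlin y).map_smul d x
  · rcases List.eq_nil_or_concat m with rfl | ⟨l, x, rfl⟩
    · simp at hm; omega
    · have hl : l.length + 1 = N := by simpa using hm
      have e : nprod (l ++ [x]) = nprod l * ‖x‖ := by simp [nprod]
      rw [List.concat_eq_append, norm_smul, hcn, one_mul, hK' l x hl, e, ← mul_assoc]
      exact (norm_mul_le _ _).trans
        (mul_le_mul_of_nonneg_right (hρ.norm_le _ _ (hA l hl)) (norm_nonneg _))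
  · rcases List.eq_nil_or_concat r with rfl | ⟨r', z, rfl⟩
    · simp at hr; omega
    · have hl : ∀ w : A, (w :: r').length + 1 = N := fun w => by simpa using hr
      have e : (fun y => G ((a * x :: r') ++ [y, 1])) = fun y => a * G ((x :: r') ++ [y, 1]) := by
        funext y
        exact hG.lm a x _ (by have := hl x; simp at this ⊢; omega)
      change c • K₀ ((a * x :: r'.concat z)) = a * c • K₀ (x :: r'.concat z)
      rw [List.concat_eq_append, ← List.cons_append, ← List.cons_append, hK' _ _ (hl _),
        hK' _ _ (hl _), e, hρ.left _ _ (hA _ (hl x)), mul_smul_comm, mul_assoc]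
  · rw [hK' _ _ hl, hK' _ _ hl, smul_mul_assoc, mul_assoc]
  · rcases List.eq_nil_or_concat m with rfl | ⟨l, x, rfl⟩
    · simp at hm
    · have hl : l.length = N := by simpa using hm
      have e : (fun y => bar (fun m => G (m ++ [1])) (l ++ [x * y])) =
          c • fun y => G (l ++ [x]) * y := by
        funext y
        have h1 := hc (l ++ [x * y, 1]) (by simp [hl])
        rw [bar_append_two, mul_one, hG.rm l x y (by rw [hl]), hl, add_eq_zero_iff_eq_neg] at h1
        rw [h1, Pi.smul_apply, hc', neg_smul, ← Int.cast_smul_eq_zsmul ℂ]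
        push_cast
        rfl
      rw [List.concat_eq_append, prim_bar_smul,
        ← prim_bar_rho ρ l x (fun m => G (m ++ [1])) K₀ (fun l x => by simpa using hK l x), e,
        map_smul, hρ.one, smul_smul, hcc, one_smul]

end Crest.Agent.R121
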