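import Crest.Agent.R121.Defs

/-! Row 121: the prism homotopy for a virtual diagonal. -/

set_option autoImplicit false

open scoped ComplexOrder InnerProductSpace ComplexConjugate

namespace Crest.Agent.R121

open Crest.Agent.R095 (Tr lt)
open Crest.Agent.R124

variable {A : Type*} [CStarAlgebra A]

/-- multiply the head of a list -/
def prismHd (a : A) : List A → List A
  | [] => []
  | x :: t => a * x :: t

theorem prism_bar_congr (l : List A) : ∀ {G G' : List A → A},
    (∀ x t, t.length + 2 = l.length → G (x :: t) = G' (x :: t)) → bar G l = bar G' l := by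
  induction l with
  | nil => intro G G' _; simp
  | cons x l ih =>
    intro G G' h
    cases l with
    | nil => simp
    | cons y t =>
      rw [bar_cons, bar_cons, h (x * y) t (by simp)]
      congr 1
      exact ih fun z s hs => h x (z :: s) (by simp at hs ⊢; omega)

theorem prism_bar_sub (l : List A) : ∀ (G G' : List A → A),
    bar (fun l => G l - G' l) l = bar G l - bar G' l := by
  induction l with
  | nil => intro G G'; simp
  | cons x l ih =>
    intro G G'
    cases l with
    | nil => simp
    | cons y t =>
      rw [bar_cons, bar_cons, bar_cons, ih (fun l => G (x :: l)) (fun l => G' (x :: l))]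
      abel

theorem prism_bar_W {X : Type*} (W : (X → A) →ₗ[ℂ] A) (l : List A) :
    ∀ (F : X → List A → A),
      bar (fun l => W fun q => F q l) l = W fun q => bar (F q) l := by
  induction l with
  | nil => intro F; simp only [bar_nil]; exact (map_zero W).symm
  | cons x l ih =>
    intro F
    cases l with
    | nil => simp only [bar_single]; exact (map_zero W).symm
    | cons y t =>
      rw [bar_cons, ih (fun q l => F q (x :: l)), ← map_sub]
      congr 1

theorem prism_bar_hd (G : List A → A) (a x : A) (t : List A) :
    bar (fun l => G (prismHd a l)) (x :: t) = bar G (a * x :: t) := by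
  cases t with
  | nil => simp
  | cons y t =>
    rw [bar_cons, bar_cons, mul_assoc]
    rfl

theorem bar_bar (G : List A → A) (l : List A) : bar (bar G) l = 0 := by
  induction l generalizing G with
  | nil => simp
  | cons x l ih =>
    cases l with
    | nil => simp
    | cons y t =>
      have h1 : bar (fun l => bar G (x :: l)) (y :: t) =
          bar (fun l => G (prismHd x l) - bar (fun l => G (x :: l)) l) (y :: t) :=
        prism_bar_congr _ fun z s _ => bar_cons G x z s
      rw [bar_cons, h1, prism_bar_sub, prism_bar_hd, ih, sub_zero, sub_self]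

section prism

variable (W : (Pair A → A) →ₗ[ℂ] A)

/-- the projection -/
noncomputable def prismP : (List A → A) → A → List A → A
  | G, x, [] => G [x]
  | G, x, y :: t => W fun q => prismP (fun l => G (x * q.1.1 :: l)) (q.1.2 * y) t

/-- the homotopy -/
noncomputable def prismH : (List A → A) → A → List A → A
  | _, _, [] => 0
  | G, x, y :: t => W fun q =>
      G (x * q.1.1 :: q.1.2 :: y :: t) - prismH (fun l => G (x * q.1.1 :: l)) (q.1.2 * y) t

/-- uncurrying -/
def prismL (F : A → List A → A) : List A → A
  | [] => 0
  | x :: t => F x t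

variable {W}

theorem prismP_congr (t : List A) : ∀ {G G' : List A → A} (x : A),
    (∀ l, l.length = t.length + 1 → G l = G' l) → prismP W G x t = prismP W G' x t := by
  induction t with
  | nil => intro G G' x h; exact h _ rfl
  | cons y t ih =>
    intro G G' x h
    simp only [prismP]
    congr 1
    ext q
    exact ih _ fun l hl => h _ (by simp [hl])

theorem prismH_congr (t : List A) : ∀ {G G' : List A → A} (x : A),
    (∀ l, l.length = t.length + 2 → G l = G' l) → prismH W G x t = prismH W G' x t := by
  induction t with
  | nil => intro G G' x _; rfl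
  | cons y t ih =>
    intro G G' x h
    simp only [prismH]
    congr 1
    ext q
    rw [h _ (by simp)]
    congr 1
    exact ih _ fun l hl => h _ (by simp [hl])

theorem prismP_add (t : List A) : ∀ (G G' : List A → A) (x : A),
    prismP W (fun l => G l + G' l) x t = prismP W G x t + prismP W G' x t := by
  induction t with
  | nil => intro G G' x; rfl
  | cons y t ih =>
    intro G G' x
    simp only [prismP]
    rw [← map_add]
    congr 1
    ext q
    exact ih (fun l => G (x * q.1.1 :: l)) (fun l => G' (x * q.1.1 :: l)) _

theorem prismP_smul (t : List A) : ∀ (c : ℂ) (G : List A → A) (x : A),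
    prismP W (fun l => c • G l) x t = c • prismP W G x t := by
  induction t with
  | nil => intro c G x; rfl
  | cons y t ih =>
    intro c G x
    simp only [prismP]
    rw [← map_smul]
    congr 1
    ext q
    exact ih c (fun l => G (x * q.1.1 :: l)) _

theorem prismH_add (t : List A) : ∀ (G G' : List A → A) (x : A),
    prismH W (fun l => G l + G' l) x t = prismH W G x t + prismH W G' x t := by
  induction t with
  | nil => intro G G' x; simp [prismH]
  | cons y t ih =>
    intro G G' x
    simp only [prismH]
    rw [← map_add]
    congr 1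
    ext q
    rw [ih (fun l => G (x * q.1.1 :: l)) (fun l => G' (x * q.1.1 :: l)), Pi.add_apply]
    abel

theorem prismH_smul (t : List A) : ∀ (c : ℂ) (G : List A → A) (x : A),
    prismH W (fun l => c • G l) x t = c • prismH W G x t := by
  induction t with
  | nil => intro c G x; simp [prismH]
  | cons y t ih =>
    intro c G x
    simp only [prismH]
    rw [← map_smul]
    congr 1
    ext q
    rw [ih c (fun l => G (x * q.1.1 :: l)), Pi.smul_apply, smul_sub]

theorem prismH_sub (t : List A) (G G' : List A → A) (x : A) :
    prismH W (fun l => G l - G' l) x t = prismH W G x t - prismH W G' x t := by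
  have h := prismH_add (W := W) t (fun l => G l - G' l) G' x
  simp only [sub_add_cancel] at h
  rw [h, add_sub_cancel_right]

theorem prismH_zero (t : List A) (x : A) : prismH W (fun _ => 0) x t = 0 := by
  have h := prismH_sub (W := W) t (fun _ => 0) (fun _ => 0) x
  simpa using h

theorem prismH_hd (G : List A → A) (a x : A) (t : List A) :
    prismH W (fun l => G (prismHd a l)) x t = prismH W G (a * x) t := by
  cases t with
  | nil => rfl
  | cons y t => simp only [prismH, prismHd, mul_assoc]

/-- the homotopy formula -/
theorem prism_homotopy (hW : Avg W) (t : List A) : ∀ (G : List A → A) (x : A),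
    bar (prismL (prismH W G)) (x :: t) + prismH W (bar G) x t = G (x :: t) - prismP W G x t := by
  induction t with
  | nil => intro G x; simp [prismH, prismP]
  | cons y t ih =>
    intro G x
    have h1 : bar (fun l => prismL (prismH W G) (x :: l)) (y :: t) =
        W fun q => bar (fun l => G (x * q.1.1 :: q.1.2 :: l)) (y :: t) -
          bar (prismL (prismH W (fun l => G (x * q.1.1 :: l)))) (q.1.2 * y :: t) := by
      have h2 : bar (fun l => prismL (prismH W G) (x :: l)) (y :: t) =
          bar (fun l => W fun q => G (x * q.1.1 :: q.1.2 :: l) -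
            prismL (prismH W (fun l => G (x * q.1.1 :: l))) (prismHd q.1.2 l)) (y :: t) :=
        prism_bar_congr _ fun z s _ => rfl
      rw [h2, prism_bar_W W (y :: t) (fun q l => G (x * q.1.1 :: q.1.2 :: l) -
            prismL (prismH W (fun l => G (x * q.1.1 :: l))) (prismHd q.1.2 l))]
      congr 1
      ext q
      rw [prism_bar_sub, prism_bar_hd]
    have h3 : prismH W (bar G) x (y :: t) = W fun q =>
        (G (x :: y :: t) - G (x * q.1.1 :: q.1.2 * y :: t) +
          bar (fun l => G (x * q.1.1 :: q.1.2 :: l)) (y :: t)) -
        (prismH W G (x * y) t - prismH W (bar fun l => G (x * q.1.1 :: l)) (q.1.2 * y) t) := by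
      simp only [prismH]
      congr 1
      ext q
      have hq : q.1.1 * q.1.2 = 1 := q.2.2.2
      have h4 : prismH W (fun l => bar G (x * q.1.1 :: l)) (q.1.2 * y) t =
          prismH W (fun l => G (prismHd (x * q.1.1) l) - bar (fun l => G (x * q.1.1 :: l)) l)
            (q.1.2 * y) t := by
        refine prismH_congr _ _ fun l hl => ?_
        cases l with
        | nil => simp at hl
        | cons z s => exact bar_cons G _ z s
      rw [h4, prismH_sub, prismH_hd, bar_cons, bar_cons, mul_assoc x, hq, mul_one,
        show x * q.1.1 * (q.1.2 * y) = x * y by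
          rw [mul_assoc, ← mul_assoc q.1.1, hq, one_mul]]
      abel
    rw [bar_cons, h1, h3]
    have h5 : prismL (prismH W G) (x * y :: t) = W fun _ => prismH W G (x * y) t :=
      (hW.const _).symm
    have h6 : G (x :: y :: t) - prismP W G x (y :: t) = W fun q =>
        G (x :: y :: t) - prismP W (fun l => G (x * q.1.1 :: l)) (q.1.2 * y) t := by
      conv_lhs => rw [← hW.const (G (x :: y :: t))]
      simp only [prismP]
      rw [← map_sub]
      rfl
    rw [h5, h6, ← map_sub, ← map_add]
    congr 1
    ext q
    have h7 := ih (fun l => G (x * q.1.1 :: l)) (q.1.2 * y)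
    simp only [Pi.add_apply, Pi.sub_apply]
    rw [← sub_eq_zero] at h7 ⊢
    rw [← h7]
    abel

theorem prism_nprod_cons (x : A) (l : List A) : nprod (x :: l) = ‖x‖ * nprod l := by
  simp [nprod]

theorem prism_nprod_nonneg (l : List A) : 0 ≤ nprod l := by
  induction l with
  | nil => simp [nprod]
  | cons x l ih => rw [prism_nprod_cons]; positivity

theorem prism_ML_cons {G : List A → A} {N : ℕ} {C : ℝ} (h : ML G (N + 1) C) (x : A) :
    ML (fun l => G (x :: l)) N (C * ‖x‖) where
  nonneg := mul_nonneg h.nonneg (norm_nonneg _)
  lin := fun l r hl => h.lin (x :: l) r (by simp; omega)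
  bound := fun l hl => by
    have := h.bound (x :: l) (by simp [hl])
    rwa [prism_nprod_cons, ← mul_assoc] at this

theorem prism_q1 (x : A) (q : Pair A) : ‖x * q.1.1‖ ≤ ‖x‖ :=
  (norm_mul_le _ _).trans (mul_le_of_le_one_right (norm_nonneg _) q.2.1)

theorem prism_q2 (y : A) (q : Pair A) : ‖q.1.2 * y‖ ≤ ‖y‖ :=
  (norm_mul_le _ _).trans (mul_le_of_le_one_left (norm_nonneg _) q.2.2.1)

theorem prismP_bound (hW : Avg W) (t : List A) : ∀ {G : List A → A} {C : ℝ} (x : A),
    ML G (t.length + 1) C → ‖prismP W G x t‖ ≤ C * (‖x‖ * nprod t) := by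
  induction t with
  | nil =>
    intro G C x h
    have := h.bound [x] rfl
    rwa [prism_nprod_cons] at this
  | cons y t ih =>
    intro G C x h
    refine hW.norm_le _ _ fun q => (ih _ (prism_ML_cons h _)).trans ?_
    rw [prism_nprod_cons, mul_assoc]
    have := h.nonneg
    have := prism_nprod_nonneg t
    have := prism_q1 x q
    have := prism_q2 y q
    gcongr

theorem prismP_bound' (hW : Avg W) {t : List A} {G : List A → A} {C : ℝ} (x y : A)
    (h : ML G (t.length + 2) C) (q : Pair A) :
    ‖prismP W (fun l => G (x * q.1.1 :: l)) (q.1.2 * y) t‖ ≤ C * (‖x‖ * (‖y‖ * nprod t)) := by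
  refine (prismP_bound hW t _ (prism_ML_cons h _)).trans ?_
  rw [mul_assoc]
  have := h.nonneg
  have := prism_nprod_nonneg t
  have := prism_q1 x q
  have := prism_q2 y q
  gcongr

theorem prismH_bound_aux {t : List A} {G : List A → A} {C : ℝ} (x y : A)
    (h : ML G (t.length + 3) C) (q : Pair A)
    (ih : ‖prismH W (fun l => G (x * q.1.1 :: l)) (q.1.2 * y) t‖ ≤
      t.length * (C * ‖x * q.1.1‖) * (‖q.1.2 * y‖ * nprod t)) :
    ‖G (x * q.1.1 :: q.1.2 :: y :: t) - prismH W (fun l => G (x * q.1.1 :: l)) (q.1.2 * y) t‖ ≤
      ((t.length + 1 : ℕ) : ℝ) * C * (‖x‖ * (‖y‖ * nprod t)) := by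
  have h0 := h.nonneg
  have h1 := prism_nprod_nonneg t
  have h2 := prism_q1 x q
  have h3 := prism_q2 y q
  have h4 : ‖G (x * q.1.1 :: q.1.2 :: y :: t)‖ ≤ C * (‖x‖ * (‖y‖ * nprod t)) := by
    refine (h.bound _ (by simp)).trans ?_
    rw [prism_nprod_cons, prism_nprod_cons, prism_nprod_cons]
    have h5 : ‖q.1.2‖ * (‖y‖ * nprod t) ≤ ‖y‖ * nprod t :=
      mul_le_of_le_one_left (by positivity) q.2.2.1
    gcongr
  have h5 : ‖prismH W (fun l => G (x * q.1.1 :: l)) (q.1.2 * y) t‖ ≤
      t.length * (C * ‖x‖) * (‖y‖ * nprod t) := by
    refine ih.trans ?_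
    gcongr
  refine (norm_sub_le _ _).trans ((add_le_add h4 h5).trans (le_of_eq ?_))
  push_cast
  ring

theorem prismH_bound (hW : Avg W) (t : List A) : ∀ {G : List A → A} {C : ℝ} (x : A),
    ML G (t.length + 2) C → ‖prismH W G x t‖ ≤ t.length * C * (‖x‖ * nprod t) := by
  induction t with
  | nil => intro G C x _; simp [prismH]
  | cons y t ih =>
    intro G C x h
    refine hW.norm_le _ _ fun q => ?_
    rw [prism_nprod_cons]
    exact prismH_bound_aux x y h q (ih _ (prism_ML_cons h _))

theorem prismH_bound' (hW : Avg W) {t : List A} {G : List A → A} {C : ℝ} (x y : A)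
    (h : ML G (t.length + 3) C) :
    Bd fun q : Pair A => G (x * q.1.1 :: q.1.2 :: y :: t) -
      prismH W (fun l => G (x * q.1.1 :: l)) (q.1.2 * y) t :=
  ⟨_, fun q => prismH_bound_aux x y h q (prismH_bound hW t _ (prism_ML_cons h _))⟩

theorem prism_lin_W {X : Type*} (W : (X → A) →ₗ[ℂ] A) {F : X → A → A}
    (h : ∀ q, IsLinearMap ℂ (F q)) : IsLinearMap ℂ fun x => W fun q => F q x where
  map_add := fun x y => by
    rw [← map_add]; congr 1; ext q; exact (h q).map_add x y
  map_smul := fun c x => by
    rw [← map_smul]; congr 1; ext q; exact (h q).map_smul c x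

theorem prism_lin_mul_right {T : A → A} (h : IsLinearMap ℂ T) (b : A) :
    IsLinearMap ℂ fun x => T (x * b) where
  map_add := fun x y => by rw [add_mul, h.map_add]
  map_smul := fun c x => by rw [smul_mul_assoc, h.map_smul]

theorem prism_lin_mul_left {T : A → A} (h : IsLinearMap ℂ T) (b : A) :
    IsLinearMap ℂ fun x => T (b * x) where
  map_add := fun x y => by rw [mul_add, h.map_add]
  map_smul := fun c x => by rw [mul_smul_comm, h.map_smul]

theorem prism_lin_sub {T T' : A → A} (h : IsLinearMap ℂ T) (h' : IsLinearMap ℂ T') :
    IsLinearMap ℂ fun x => T x - T' x where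
  map_add := fun x y => by rw [h.map_add, h'.map_add]; abel
  map_smul := fun c x => by rw [h.map_smul, h'.map_smul, smul_sub]

theorem prismP_lin_G {t : List A} {G : List A → A} {C : ℝ} (h : ML G (t.length + 2) C) (y : A) :
    IsLinearMap ℂ fun x => prismP W (fun l => G (x :: l)) y t where
  map_add := fun x x' => by
    rw [← prismP_add]
    exact prismP_congr _ _ fun l hl => (h.lin [] l (by simp [hl])).map_add x x'
  map_smul := fun c x => by
    rw [← prismP_smul]
    exact prismP_congr _ _ fun l hl => (h.lin [] l (by simp [hl])).map_smul c x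

theorem prismH_lin_G {t : List A} {G : List A → A} {C : ℝ} (h : ML G (t.length + 3) C) (y : A) :
    IsLinearMap ℂ fun x => prismH W (fun l => G (x :: l)) y t where
  map_add := fun x x' => by
    rw [← prismH_add]
    exact prismH_congr _ _ fun l hl => (h.lin [] l (by simp [hl])).map_add x x'
  map_smul := fun c x => by
    rw [← prismH_smul]
    exact prismH_congr _ _ fun l hl => (h.lin [] l (by simp [hl])).map_smul c x

theorem prismP_lin_head {t : List A} {G : List A → A} {C : ℝ} (h : ML G (t.length + 1) C) :
    IsLinearMap ℂ fun x => prismP W G x t := by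
  cases t with
  | nil => exact h.lin [] [] rfl
  | cons y t =>
    exact prism_lin_W W fun q => prism_lin_mul_right (prismP_lin_G h (q.1.2 * y)) q.1.1

theorem prismH_lin_head {t : List A} {G : List A → A} {C : ℝ} (h : ML G (t.length + 2) C) :
    IsLinearMap ℂ fun x => prismH W G x t := by
  cases t with
  | nil => exact ⟨fun _ _ => by simp [prismH], fun _ _ => by simp [prismH]⟩
  | cons y t =>
    exact prism_lin_W W fun q => prism_lin_sub
      (prism_lin_mul_right (h.lin [] (q.1.2 :: y :: t) (by simp)) q.1.1)
      (prism_lin_mul_right (prismH_lin_G h (q.1.2 * y)) q.1.1)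

theorem prismP_lin_tail (l r : List A) : ∀ {G : List A → A} {C : ℝ} (x₀ : A),
    ML G (l.length + r.length + 2) C → IsLinearMap ℂ fun x => prismP W G x₀ (l ++ x :: r) := by
  induction l with
  | nil =>
    intro G C x₀ h
    rw [List.length_nil, zero_add] at h
    exact prism_lin_W W fun q =>
      prism_lin_mul_left (prismP_lin_head (prism_ML_cons h (x₀ * q.1.1))) q.1.2
  | cons y l ih =>
    intro G C x₀ h
    rw [List.length_cons, show l.length + 1 + r.length + 2 = l.length + r.length + 2 + 1 by
      omega] at h
    exact prism_lin_W W fun q => ih (q.1.2 * y) (prism_ML_cons h (x₀ * q.1.1))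

theorem prismH_lin_tail (l r : List A) : ∀ {G : List A → A} {C : ℝ} (x₀ : A),
    ML G (l.length + r.length + 3) C → IsLinearMap ℂ fun x => prismH W G x₀ (l ++ x :: r) := by
  induction l with
  | nil =>
    intro G C x₀ h
    rw [List.length_nil, zero_add] at h
    exact prism_lin_W W fun q => prism_lin_sub
      (h.lin [x₀ * q.1.1, q.1.2] r (by simp; omega))
      (prism_lin_mul_left (prismH_lin_head (prism_ML_cons h (x₀ * q.1.1))) q.1.2)
  | cons y l ih =>
    intro G C x₀ h
    rw [List.length_cons, show l.length + 1 + r.length + 3 = l.length + r.length + 3 + 1 by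
      omega] at h
    exact prism_lin_W W fun q => prism_lin_sub
      (h.lin (x₀ * q.1.1 :: q.1.2 :: y :: l) r (by simp; omega))
      (ih (q.1.2 * y) (prism_ML_cons h (x₀ * q.1.1)))

theorem prismP_mul_left (hW : Avg W) (a : A) (t : List A) : ∀ {G : List A → A} {C : ℝ} (x : A),
    ML G (t.length + 1) C → prismP W (fun l => a * G l) x t = a * prismP W G x t := by
  induction t with
  | nil => intro G C x _; rfl
  | cons y t ih =>
    intro G C x h
    simp only [prismP]
    rw [← hW.mul_left a _ ⟨_, prismP_bound' hW x y h⟩]
    congr 1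
    ext q
    exact ih _ (prism_ML_cons h _)

theorem prismH_mul_left (hW : Avg W) (a : A) (t : List A) : ∀ {G : List A → A} {C : ℝ} (x : A),
    ML G (t.length + 2) C → prismH W (fun l => a * G l) x t = a * prismH W G x t := by
  induction t with
  | nil => intro G C x _; simp [prismH]
  | cons y t ih =>
    intro G C x h
    simp only [prismH]
    rw [← hW.mul_left a _ (prismH_bound' hW x y h)]
    congr 1
    ext q
    rw [mul_sub, ← ih _ (prism_ML_cons h _)]

theorem prismP_lm (hW : Avg W) {t : List A} {G : List A → A} {C : ℝ}
    (h : ML G (t.length + 1) C) (hl : LM G (t.length + 1)) (a x : A) :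
    prismP W G (a * x) t = a * prismP W G x t := by
  cases t with
  | nil => exact hl a x [] rfl
  | cons y t =>
    simp only [prismP]
    rw [← hW.mul_left a _ ⟨_, prismP_bound' hW x y h⟩]
    congr 1
    ext q
    rw [← prismP_mul_left hW a t _ (prism_ML_cons h _)]
    refine prismP_congr _ _ fun l hl' => ?_
    rw [mul_assoc, hl a _ l (by simp [hl'])]

theorem prismH_lm (hW : Avg W) {t : List A} {G : List A → A} {C : ℝ}
    (h : ML G (t.length + 2) C) (hl : LM G (t.length + 2)) (a x : A) :
    prismH W G (a * x) t = a * prismH W G x t := by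
  cases t with
  | nil => simp [prismH]
  | cons y t =>
    simp only [prismH]
    rw [← hW.mul_left a _ (prismH_bound' hW x y h)]
    congr 1
    ext q
    rw [mul_sub, ← prismH_mul_left hW a t _ (prism_ML_cons h _), mul_assoc,
      hl a _ _ (by simp)]
    congr 1
    refine prismH_congr _ _ fun l hl' => ?_
    rw [hl a _ l (by simp [hl'])]

theorem prism_RM_cons {G : List A → A} {N : ℕ} (h : RM G (N + 1)) (x : A) :
    RM (fun l => G (x :: l)) N :=
  fun l y a hl => h (x :: l) y a (by simp; omega)

theorem prismP_rm (hW : Avg W) (x a : A) (l : List A) : ∀ {G : List A → A} {C : ℝ} (x₀ : A),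
    ML G (l.length + 2) C → RM G (l.length + 2) →
      prismP W G x₀ (l ++ [x * a]) = prismP W G x₀ (l ++ [x]) * a := by
  induction l with
  | nil =>
    intro G C x₀ h hr
    simp only [List.nil_append, prismP]
    have hb := prismP_bound' hW (t := []) x₀ x h
    simp only [prismP] at hb
    rw [← hW.mul_right a _ ⟨_, hb⟩]
    congr 1
    ext q
    rw [← mul_assoc]
    exact hr [x₀ * q.1.1] _ a rfl
  | cons y l ih =>
    intro G C x₀ h hr
    simp only [List.cons_append, prismP]
    rw [← hW.mul_right a _ ⟨_, prismP_bound' hW (t := l ++ [x]) x₀ y (by simpa using h)⟩]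
    congr 1
    ext q
    exact ih _ (prism_ML_cons h _) (prism_RM_cons hr _)

theorem prismH_rm (hW : Avg W) (x a : A) (l : List A) : ∀ {G : List A → A} {C : ℝ} (x₀ : A),
    ML G (l.length + 3) C → RM G (l.length + 3) →
      prismH W G x₀ (l ++ [x * a]) = prismH W G x₀ (l ++ [x]) * a := by
  induction l with
  | nil =>
    intro G C x₀ h hr
    simp only [List.nil_append, prismH]
    have hb := prismH_bound' hW (t := []) x₀ x h
    simp only [prismH] at hb
    rw [← hW.mul_right a _ hb]
    congr 1
    ext q
    rw [sub_zero, sub_zero]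
    exact hr [x₀ * q.1.1, q.1.2] _ a rfl
  | cons y l ih =>
    intro G C x₀ h hr
    simp only [List.cons_append, prismH]
    rw [← hW.mul_right a _ (prismH_bound' hW (t := l ++ [x]) x₀ y (by simpa using h))]
    congr 1
    ext q
    rw [sub_mul, ih _ (prism_ML_cons h _) (prism_RM_cons hr _)]
    congr 1
    exact hr (x₀ * q.1.1 :: q.1.2 :: y :: l) _ a (by simp)

theorem prismP_bal_head (hW : Avg W) {S : Set A} (hD : Diag W S) {a : A} (ha : a ∈ S)
    {r : List A} {G : List A → A} {C : ℝ} (h : ML G (r.length + 2) C) (x y : A) :
    prismP W G (x * a) (y :: r) = prismP W G x (a * y :: r) := by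
  have h1 : ∀ β', IsLinearMap ℂ fun β => prismP W (fun l => G (x * β :: l)) (β' * y) r :=
    fun β' => prism_lin_mul_left (prismP_lin_G h (β' * y)) x
  have h2 : ∀ β, IsLinearMap ℂ fun β' => prismP W (fun l => G (x * β :: l)) (β' * y) r :=
    fun β => prism_lin_mul_right (prismP_lin_head (prism_ML_cons h (x * β))) y
  have h3 := hD (LinearMap.mk₂ ℂ (fun β β' => prismP W (fun l => G (x * β :: l)) (β' * y) r)
    (fun β₁ β₂ β' => (h1 β').map_add β₁ β₂) (fun c β β' => (h1 β').map_smul c β)
    (fun β β₁ β₂ => (h2 β).map_add β₁ β₂) (fun c β β' => (h2 β).map_smul c β'))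
    (C * ‖x‖ * ‖y‖ * nprod r) (fun β β' => by
      rw [LinearMap.mk₂_apply]
      refine (prismP_bound hW r _ (prism_ML_cons h _)).trans ?_
      have := h.nonneg
      have := prism_nprod_nonneg r
      calc C * ‖x * β‖ * (‖β' * y‖ * nprod r) ≤ C * (‖x‖ * ‖β‖) * (‖β'‖ * ‖y‖ * nprod r) := by
            gcongr <;> exact norm_mul_le _ _
        _ = _ := by ring) a ha
  simp only [LinearMap.mk₂_apply] at h3
  simp only [prismP, mul_assoc] at h3 ⊢
  exact h3

theorem prismP_bal_tail (hW : Avg W) {S : Set A} (hD : Diag W S) {a : A} (ha : a ∈ S)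
    (r : List A) (x y : A) (l : List A) : ∀ {G : List A → A} {C : ℝ} (x₀ : A),
    ML G (l.length + r.length + 3) C →
      prismP W G x₀ (l ++ x * a :: y :: r) = prismP W G x₀ (l ++ x :: a * y :: r) := by
  induction l with
  | nil =>
    intro G C x₀ h
    rw [List.length_nil, zero_add] at h
    rw [List.nil_append, List.nil_append, prismP, prismP]
    congr 1
    ext q
    rw [← mul_assoc]
    exact prismP_bal_head hW hD ha (prism_ML_cons h _) _ _
  | cons z l ih =>
    intro G C x₀ h
    rw [List.length_cons, show l.length + 1 + r.length + 3 = l.length + r.length + 3 + 1 by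
      omega] at h
    rw [List.cons_append, List.cons_append, prismP, prismP]
    congr 1
    ext q
    exact ih _ (prism_ML_cons h _)

end prism

/-- Write `G_y = fun l => G (y :: l)` and `(b, b') = q.1`. Define by recursion (on the length)
`Π G (x :: y :: t) = W fun q => Π G_(x b) (b' y :: t)`, `Π G l = G l` otherwise, and
`h G (x :: y :: t) = W fun q => G (x b :: b' :: y :: t) - h G_(x b) (b' y :: t)`, `h G l = 0`
otherwise (it is convenient to define `Π G x l`, `h G x l` for the list `x :: l`, by structural
recursion on `l`). Both are linear in `G` and only depend on the values of `G` on lists of the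
same length (resp. length plus one); `h (fun l => G (a * head l :: tail l)) (x :: l) = h G (a * x :: l)`.
Induction on the list (only linearity of `W`, `hW.const` and `b b' = 1` are used) gives
`bar (h G) l + h (bar G) l = G l - Π G l` for `l ≠ []`. Multilinearity, bounds (`hW.norm_le`),
`LM` (`hW.mul_left`; first show `Π (a * G) = a * Π G` for bounded `G`), `RM` (`hW.mul_right`) by
induction on `N`, generalising `G`. `Bal`: at the first comma apply `hD` to the bounded bilinear
map `(β, β') ↦ Π G_(x β) (β' y :: t)`, at the later ones use the induction hypothesis. `Cyc G'`: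
`G' = G - bar H` on lists of length `N + 1` and `bar_bar`. -/
theorem prism {W : (Pair A → A) →ₗ[ℂ] A} (hW : Avg W) {S : Set A} (hD : Diag W S)
    {G : List A → A} {N : ℕ} {C : ℝ} (hN : 1 ≤ N) (hG : Coch G (N + 1) C) (hc : Cyc G (N + 1)) :
    ∃ (G' H : List A → A) (C' : ℝ), Coch G' (N + 1) C' ∧ Cyc G' (N + 1) ∧ Bal G' (N + 1) S ∧
      Coch H N C' ∧ ∀ l : List A, l.length = N + 1 → G l = G' l + bar H l := by
  obtain ⟨M, rfl⟩ : ∃ M, N = M + 1 := ⟨N - 1, by omega⟩
  have hC := hG.ml.nonneg
  have hdec : ∀ l : List A, l.length = M + 1 + 1 →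
      G l = prismL (prismP W G) l + bar (prismL (prismH W G)) l := by
    intro l hl
    cases l with
    | nil => simp at hl
    | cons x t =>
      have h1 := prism_homotopy hW t G x
      have h2 : prismH W (bar G) x t = 0 := by
        rw [← prismH_zero (W := W) t x]
        refine prismH_congr _ _ fun l' hl' => hc l' ?_
        simp at hl
        omega
      rw [h2, add_zero] at h1
      rw [h1]
      simp [prismL]
  refine ⟨prismL (prismP W G), prismL (prismH W G), (M + 1) * C, ⟨⟨by positivity, ?_, ?_⟩, ?_, ?_⟩,
    ?_, ?_, ⟨⟨by positivity, ?_, ?_⟩, ?_, ?_⟩, hdec⟩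
  · intro l r hl
    cases l with
    | nil => exact prismP_lin_head (C := C) (by convert hG.ml using 1; simpa using hl)
    | cons x₀ l =>
      exact prismP_lin_tail l r (C := C) x₀ (by convert hG.ml using 1; simp at hl; omega)
  · intro l hl
    cases l with
    | nil => simp at hl
    | cons x t =>
      refine (prismP_bound hW t (C := C) x (by convert hG.ml using 1; simpa using hl)).trans ?_
      rw [prism_nprod_cons]
      have := prism_nprod_nonneg t
      have h1 : C ≤ (M + 1) * C := le_mul_of_one_le_left hC (by simp)
      gcongr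
  · intro a x r hr
    exact prismP_lm hW (C := C) (by rw [hr]; exact hG.ml) (by rw [hr]; exact hG.lm) a x
  · intro l x a hl
    cases l with
    | nil => simp at hl
    | cons x₀ l =>
      have h1 : l.length + 2 = M + 1 + 1 := by simpa using hl
      exact prismP_rm hW x a l (C := C) x₀ (by rw [h1]; exact hG.ml) (by rw [h1]; exact hG.rm)
  · intro l hl
    have h1 : bar (prismL (prismP W G)) l =
        bar (fun l => G l - bar (prismL (prismH W G)) l) l := by
      refine prism_bar_congr _ fun x t ht => ?_
      rw [hdec (x :: t) (by simp; omega), add_sub_cancel_right]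
    rw [h1, prism_bar_sub, hc l hl, bar_bar, sub_zero]
  · intro a ha l r x y hl
    cases l with
    | nil => exact prismP_bal_head hW hD ha (C := C) (by convert hG.ml using 1; simpa using hl) x y
    | cons x₀ l =>
      exact prismP_bal_tail hW hD ha r x y l (C := C) x₀
        (by convert hG.ml using 1; simp at hl; omega)
  · intro l r hl
    cases l with
    | nil => exact prismH_lin_head (C := C) (by convert hG.ml using 1; simp at hl; omega)
    | cons x₀ l =>
      exact prismH_lin_tail l r (C := C) x₀ (by convert hG.ml using 1; simp at hl; omega)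
  · intro l hl
    cases l with
    | nil => simp at hl
    | cons x t =>
      have h0 : t.length = M := by simpa using hl
      refine (prismH_bound hW t (C := C) x (by rw [h0]; exact hG.ml)).trans ?_
      rw [prism_nprod_cons, h0]
      have := prism_nprod_nonneg t
      gcongr
      simp
  · intro a x r hr
    have h0 : r.length = M := by omega
    exact prismH_lm hW (C := C) (by rw [h0]; exact hG.ml) (by rw [h0]; exact hG.lm) a x
  · intro l x a hl
    cases l with
    | nil => simp [prismL, prismH]
    | cons x₀ l =>
      have h1 : l.length + 3 = M + 1 + 1 := by simp at hl; omega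
      exact prismH_rm hW x a l (C := C) x₀ (by rw [h1]; exact hG.ml) (by rw [h1]; exact hG.rm)

end Crest.Agent.R121
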