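import Crest.Agent.R121.Return
import Crest.Agent.R121.Compact
import Crest.Agent.R121.Basic

/-! Row 121: the averaging map on completely bounded maps. -/

set_option autoImplicit false

open scoped ComplexOrder InnerProductSpace ComplexConjugate

namespace Crest.Agent.R121

open Crest.Agent.R095 (Tr lt)
open Crest.Agent.R124

variable {A : Type*} [CStarAlgebra A] [PartialOrder A] [StarOrderedRing A]
variable {K : Type*} [NormedAddCommGroup K] [InnerProductSpace ℂ K] [CompleteSpace K]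
variable {ι : A →⋆ₐ[ℂ] (K →L[ℂ] K)}

/-- The trivial Kraus family. -/
noncomputable def rhoCBTriv (A : Type*) [CStarAlgebra A] : Kr A where
  I := Unit
  m := fun _ => 1
  sum := by simp

/-- The composition of a list of Kraus families. -/
noncomputable def rhoCBComp : List (Kr A) → Kr A
  | [] => rhoCBTriv A
  | P :: ps => P.comp (rhoCBComp ps)

omit [PartialOrder A] [StarOrderedRing A] in
lemma rhoCBComp_act (T : A → A) (ps : List (Kr A)) : (rhoCBComp ps).act T = actL ps T := by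
  induction ps with
  | nil =>
    funext x
    change ∑ _i : Unit, T (x * star 1) * 1 = T x
    simp
  | cons P ps ih => rw [rhoCBComp, Kr.act_comp, ih, actL]

/-- The list `[P, Q, P, Q, …]` with `k` pairs. -/
def rhoCBList (P Q : Kr A) : ℕ → List (Kr A)
  | 0 => []
  | k + 1 => P :: Q :: rhoCBList P Q k

/-- The defect of the `k`-th step. -/
noncomputable def rhoCBY (P Q : Kr A) (T : A → A) (k : ℕ) (a : A) : A :=
  actL (Q :: rhoCBList P Q k) T 1 * a - actL (rhoCBList P Q (k + 1)) T a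

lemma rhoCB_ch_nonneg (P : Kr A) {y : A} (hy : 0 ≤ y) : 0 ≤ P.ch y :=
  Finset.sum_nonneg fun _ _ => star_left_conjugate_nonneg hy _

lemma rhoCB_en (P Q : Kr A) (T : A → A) (ω : A → ℝ) {η B : ℝ} (hη : 0 ≤ η) (hB0 : 0 ≤ B)
    (hret : ∀ y, ω y - η * ‖y‖ ≤ ω (P.ch (Q.ch y)))
    (hB : ∀ k, ∑ i, ‖star (rhoCBY P Q T k (P.m i)) * rhoCBY P Q T k (P.m i)‖ ≤ B) (N : ℕ) :
    ∀ (ω' : A → ℝ) (δ : ℝ), 0 ≤ δ → (∀ y, 0 ≤ y → 0 ≤ ω' y) → (∀ y, ω y - δ * ‖y‖ ≤ ω' y) →
      ∑ k ∈ Finset.range N, ∑ i, ω (star (rhoCBY P Q T k (P.m i)) * rhoCBY P Q T k (P.m i)) ≤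
        En T (rhoCBList P Q N) ω' + N * (δ + N * η) * B := by
  induction N with
  | zero => intro ω' δ _ _ _; simp [rhoCBList, En]
  | succ N ih =>
    intro ω' δ hδ hpos hcl
    have h1 := ih (fun y => ω' (P.ch (Q.ch y))) (δ + η) (by positivity)
      (fun y hy => hpos _ (rhoCB_ch_nonneg P (rhoCB_ch_nonneg Q hy))) (fun y => by
        have a1 := hcl (P.ch (Q.ch y))
        have a2 := hret y
        have a3 : δ * ‖P.ch (Q.ch y)‖ ≤ δ * ‖y‖ :=
          mul_le_mul_of_nonneg_left ((P.norm_ch_le _).trans (Q.norm_ch_le _)) hδ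
        linarith)
    have h2 : ∑ i, ω (star (rhoCBY P Q T N (P.m i)) * rhoCBY P Q T N (P.m i)) ≤
        ∑ i, ω' (star (rhoCBY P Q T N (P.m i)) * rhoCBY P Q T N (P.m i)) + δ * B := by
      have a1 := mul_le_mul_of_nonneg_left (hB N) hδ
      have a2 := Finset.sum_le_sum fun i (_ : i ∈ Finset.univ) =>
        hcl (star (rhoCBY P Q T N (P.m i)) * rhoCBY P Q T N (P.m i))
      rw [Finset.sum_sub_distrib, ← Finset.mul_sum] at a2
      linarith
    have h3 : 0 ≤ ∑ i, ω' (P.ch (star (actL (rhoCBList P Q N) T 1 * Q.m i -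
        actL (Q :: rhoCBList P Q N) T (Q.m i)) * (actL (rhoCBList P Q N) T 1 * Q.m i -
          actL (Q :: rhoCBList P Q N) T (Q.m i)))) :=
      Finset.sum_nonneg fun i _ => hpos _ (rhoCB_ch_nonneg P (star_mul_self_nonneg _))
    have h4 : En T (rhoCBList P Q (N + 1)) ω' =
        ∑ i, ω' (star (rhoCBY P Q T N (P.m i)) * rhoCBY P Q T N (P.m i)) +
        (∑ i, ω' (P.ch (star (actL (rhoCBList P Q N) T 1 * Q.m i -
          actL (Q :: rhoCBList P Q N) T (Q.m i)) * (actL (rhoCBList P Q N) T 1 * Q.m i -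
            actL (Q :: rhoCBList P Q N) T (Q.m i)))) +
          En T (rhoCBList P Q N) fun y => ω' (P.ch (Q.ch y))) := rfl
    rw [Finset.sum_range_succ, h4]
    push_cast
    have h5 : 0 ≤ ((N : ℝ) + 1) * η * B := by positivity
    nlinarith

omit [PartialOrder A] [StarOrderedRing A] in
lemma rhoCB_norm_one : ‖(1 : A)‖ ≤ 1 := norm_le_one_of_unitary (one_mem _)

lemma rhoCB_norm_sub_le (hι : IsVN ι) {S S' : A → A} {C : ℝ} (hS : IsCB ι S C) (hS' : IsCB ι S' C)
    {a : A} (ha : a ∈ unitary A) : ‖S' 1 * a - S a‖ ≤ 2 * C := by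
  have h1 := (hS'.bl hι).bound 1
  have h2 := (hS.bl hι).bound a
  have h3 := norm_le_one_of_unitary ha
  have h4 := rhoCB_norm_one (A := A)
  have hC := hS.nonneg
  have h5 : ‖S' 1 * a‖ ≤ C := by
    refine (norm_mul_le _ _).trans ?_
    have := mul_le_of_le_one_right (norm_nonneg (S' 1)) h3
    have := mul_le_of_le_one_right hC h4
    linarith
  have h6 := mul_le_of_le_one_right hC h3
  linarith [norm_sub_le (S' 1 * a) (S a)]

/-- Add `1` to `F` (`r = card`), let `P` be the family `r^(-1/2) • a`, `a ∈ F`, and let `ω = vs ζ`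
with `ζ` the family of all `ι a (ξ j)`, `a ∈ F`. `exists_return` (with `vs_ch`; `P.ch z = z` for
central `z`) gives `Q` with `‖ω (P.ch (Q.ch y)) - ω y‖ ≤ η ‖y‖`. Let `ps k` be the list
`[P, Q, P, Q, …]` with `k` pairs, `S k = actL (ps k) T`, `S' k = actL (Q :: ps k) T`,
`Y k a = S' k 1 * a - S (k + 1) a`, `‖Y k a‖ ≤ 2 C`. From `energy`, unfolding `En` (every term is
nonnegative for a positive functional, and after `i` pairs the functional is within `i η` of `ω`):
`∑_{k < N} r⁻¹ ∑ a, re ω (star (Y k a) * Y k a) ≤ C² ∑ ‖ζ‖² + N * N η * 4 C²`.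
`S (k+1) a - S (k+1) 1 * a = Y k 1 * a - Y k a`. Take the Cesàro mean of the composed families
(`Kr.comp`, `Kr.exists_convex`), Cauchy–Schwarz, `η = N⁻²`, `N` large. -/
theorem cb_approx (hι : IsVN ι) (F : Finset A) (hF : ∀ a ∈ F, a ∈ unitary A) {J : Type}
    [Fintype J] (ξ : J → K) {ε : ℝ} (hε : 0 < ε) :
    ∃ R : Kr A, ∀ (T : A → A) (C : ℝ), IsCB ι T C → ∀ a ∈ F, ∀ j,
      ‖ι (R.act T a - R.act T 1 * a) (ξ j)‖ ≤ ε * C := by
  classical
  -- enumerate `F ∪ {1}`
  set u : Option (Fin F.card) → A := fun i => i.elim 1 fun i => (F.equivFin.symm i : A) with hu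
  have hun : ∀ i, u i ∈ unitary A := by
    rintro (_ | i)
    · exact one_mem _
    · exact hF _ (F.equivFin.symm i).2
  set r : ℝ := (Fintype.card (Option (Fin F.card)) : ℝ) with hr
  have hr0 : 0 < r := by rw [hr]; exact_mod_cast Fintype.card_pos
  set c : ℝ := (√r)⁻¹ with hc
  have hcc : c ^ 2 * r = 1 := by
    rw [hc, inv_pow, Real.sq_sqrt hr0.le, inv_mul_cancel₀ hr0.ne']
  have hc0 : 0 ≤ c := by positivity
  let P : Kr A :=
    { I := Option (Fin F.card)
      m := fun i => (c : ℂ) • u i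
      sum := by
        have : ∀ i, star ((c : ℂ) • u i) * ((c : ℂ) • u i) = ((c ^ 2 : ℝ) : ℂ) • (1 : A) := by
          intro i
          rw [star_smul, smul_mul_smul_comm, Unitary.star_mul_self_of_mem (hun i)]
          simp [sq]
        simp only [this, Finset.sum_const, Finset.card_univ]
        rw [← Nat.cast_smul_eq_nsmul ℂ, smul_smul]
        have h2 : ((Fintype.card (Option (Fin F.card)) : ℕ) : ℂ) * ((c ^ 2 : ℝ) : ℂ) = 1 := by
          rw [mul_comm] at hcc
          exact_mod_cast hcc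
        rw [h2, one_smul] }
  set ζ : J × Option (Fin F.card) → K := fun q => ι (u q.2) (ξ q.1) with hζ
  set W : ℝ := ∑ q, ‖ζ q‖ ^ 2 with hW
  have hW0 : 0 ≤ W := Finset.sum_nonneg fun _ _ => sq_nonneg _
  obtain ⟨N, hN⟩ := exists_nat_gt (4 * r * (W + 4) / ε ^ 2)
  have hN0 : (0 : ℝ) < N := lt_of_le_of_lt (by positivity) hN
  obtain ⟨Q, hQ⟩ := exists_return hι ζ (fun q : (J × Option (Fin F.card)) × P.I =>
    ι (P.m q.2) (ζ q.1)) (fun z _ hz => by
      rw [← vs_ch]
      congr 1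
      unfold Kr.ch
      have : ∀ i, star (P.m i) * z * P.m i = z * (star (P.m i) * P.m i) := fun i => by
        rw [← hz (star (P.m i)), mul_assoc]
      simp only [this]
      rw [← Finset.mul_sum, P.sum, mul_one]) (η := 1 / (N : ℝ) ^ 2) (by positivity)
  simp only [← vs_ch] at hQ
  obtain ⟨R, -, hR⟩ := Kr.exists_convex (fun k : Fin N => rhoCBComp (rhoCBList P Q (k + 1)))
    (fun _ => (N : ℝ)⁻¹) (fun _ => by positivity) (by simp [hN0.ne'])
  refine ⟨R, fun T C hT a ha j => ?_⟩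
  have hC := hT.nonneg
  have hYs : ∀ k i, rhoCBY P Q T k (P.m i) = (c : ℂ) • rhoCBY P Q T k (u i) := fun k i => by
    unfold rhoCBY
    rw [smul_sub, ← (hT.actL _).lin.map_smul, ← mul_smul_comm]
  have hYn : ∀ k i, ‖rhoCBY P Q T k (u i)‖ ≤ 2 * C := fun k i =>
    rhoCB_norm_sub_le hι (hT.actL _) (hT.actL _) (hun i)
  have hen := rhoCB_en P Q T (fun y => (vs ι ζ y).re) (η := 1 / (N : ℝ) ^ 2) (B := 4 * C ^ 2)
    (by positivity) (by positivity)
    (fun y => by
      have h1 := (Complex.abs_re_le_norm _).trans (hQ y)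
      rw [Complex.sub_re] at h1
      linarith [(abs_le.1 h1).1])
    (fun k => by
      have h1 : ∀ i, ‖star (rhoCBY P Q T k (P.m i)) * rhoCBY P Q T k (P.m i)‖ ≤
          c ^ 2 * (4 * C ^ 2) := fun i => by
        rw [CStarRing.norm_star_mul_self, hYs, norm_smul, Complex.norm_real, Real.norm_eq_abs,
          abs_of_nonneg hc0]
        have h2 := mul_self_le_mul_self (norm_nonneg _) (hYn k i)
        nlinarith [mul_le_mul_of_nonneg_left h2 (sq_nonneg c)]
      refine (Finset.sum_le_sum fun i _ => h1 i).trans (le_of_eq ?_)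
      rw [Finset.sum_const, Finset.card_univ, nsmul_eq_mul]
      change r * _ = _
      rw [← mul_assoc, mul_comm r, hcc, one_mul])
    N (fun y => (vs ι ζ y).re) 0 le_rfl
    (fun y hy => by
      obtain ⟨b, rfl⟩ := CStarAlgebra.nonneg_iff_eq_star_mul_self.1 hy
      rw [vs_star_mul]
      exact Finset.sum_nonneg fun _ _ => sq_nonneg _)
    (fun y => by simp)
  have hen2 := energy hT (rhoCBList P Q N) ζ
  set g : ℕ → ℝ := fun k => ∑ i, ∑ q, ‖ι (rhoCBY P Q T k (u i)) (ζ q)‖ ^ 2 with hg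
  have hsum : ∑ k ∈ Finset.range N, g k ≤ r * (C ^ 2 * (W + 4)) := by
    have h1 : ∀ k, ∑ i, (vs ι ζ (star (rhoCBY P Q T k (P.m i)) * rhoCBY P Q T k (P.m i))).re =
        c ^ 2 * g k := fun k => by
      rw [hg, Finset.mul_sum]
      refine Finset.sum_congr rfl fun i _ => ?_
      rw [vs_star_mul, Finset.mul_sum]
      refine Finset.sum_congr rfl fun q _ => ?_
      rw [hYs, map_smul, smul_apply, norm_smul, Complex.norm_real, Real.norm_eq_abs,
        abs_of_nonneg hc0, mul_pow]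
    simp only [h1] at hen
    rw [← Finset.mul_sum] at hen
    have h2 : (N : ℝ) * (0 + N * (1 / (N : ℝ) ^ 2)) * (4 * C ^ 2) = 4 * C ^ 2 := by
      field_simp
      ring
    rw [h2] at hen
    have h3 : c ^ 2 * ∑ k ∈ Finset.range N, g k ≤ C ^ 2 * (W + 4) := by linarith
    calc ∑ k ∈ Finset.range N, g k = r * (c ^ 2 * ∑ k ∈ Finset.range N, g k) := by
          rw [← mul_assoc, mul_comm r, hcc, one_mul]
      _ ≤ _ := mul_le_mul_of_nonneg_left h3 hr0.le
  have hterm : ∀ k i q, ‖ι (rhoCBY P Q T k (u i)) (ζ q)‖ ^ 2 ≤ g k := fun k i q =>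
    (Finset.single_le_sum (f := fun q => ‖ι (rhoCBY P Q T k (u i)) (ζ q)‖ ^ 2)
      (fun _ _ => sq_nonneg _) (Finset.mem_univ q)).trans
      (Finset.single_le_sum (f := fun i => ∑ q, ‖ι (rhoCBY P Q T k (u i)) (ζ q)‖ ^ 2)
        (fun _ _ => Finset.sum_nonneg fun _ _ => sq_nonneg _) (Finset.mem_univ i))
  set v : ℕ → ℝ := fun k => ‖ι (actL (rhoCBList P Q (k + 1)) T a -
    actL (rhoCBList P Q (k + 1)) T 1 * a) (ξ j)‖ with hv
  have hvg : ∀ k, v k ^ 2 ≤ 4 * g k := fun k => by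
    have ha' : u (some (F.equivFin ⟨a, ha⟩)) = a := by simp [hu]
    have h1 := hterm k none (j, some (F.equivFin ⟨a, ha⟩))
    have h2 := hterm k (some (F.equivFin ⟨a, ha⟩)) (j, none)
    simp only [hζ, ha'] at h1 h2
    have e1 : u none = 1 := rfl
    rw [e1] at h1 h2
    rw [map_one, one_apply_eq_self] at h2
    have e2 : actL (rhoCBList P Q (k + 1)) T a - actL (rhoCBList P Q (k + 1)) T 1 * a =
        rhoCBY P Q T k 1 * a - rhoCBY P Q T k a := by
      unfold rhoCBY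
      noncomm_ring
    have h3 : v k ≤ ‖ι (rhoCBY P Q T k 1) (ι a (ξ j))‖ + ‖ι (rhoCBY P Q T k a) (ξ j)‖ := by
      simp only [hv]
      rw [e2, map_sub, map_mul, sub_apply, mul_apply_eq_comp]
      exact norm_sub_le _ _
    have h4 := pow_le_pow_left₀ (norm_nonneg _) h3 2
    nlinarith [sq_nonneg (‖ι (rhoCBY P Q T k 1) (ι a (ξ j))‖ - ‖ι (rhoCBY P Q T k a) (ξ j)‖)]
  have hle : ‖ι (R.act T a - R.act T 1 * a) (ξ j)‖ ≤ (N : ℝ)⁻¹ * ∑ k ∈ Finset.range N, v k := by
    rw [hR T hT.lin, hR T hT.lin, Finset.sum_mul, ← Finset.sum_sub_distrib, map_sum,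
      sum_apply, Finset.mul_sum, Finset.sum_range]
    refine norm_sum_le_of_le _ fun k _ => le_of_eq ?_
    rw [smul_mul_assoc, ← smul_sub, rhoCBComp_act, ← Complex.coe_smul, map_smul, smul_apply,
      norm_smul, Complex.norm_real, Real.norm_eq_abs, abs_of_nonneg (by positivity)]
  refine hle.trans (le_of_sq_le_sq ?_ (by positivity))
  have h1 : (∑ k ∈ Finset.range N, v k) ^ 2 ≤ N * (4 * (r * (C ^ 2 * (W + 4)))) := by
    refine sq_sum_le_card_mul_sum_sq.trans ?_
    rw [Finset.card_range]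
    gcongr
    refine (Finset.sum_le_sum fun k _ => hvg k).trans ?_
    rw [← Finset.mul_sum]
    gcongr
  rw [div_lt_iff₀ (by positivity)] at hN
  calc ((N : ℝ)⁻¹ * ∑ k ∈ Finset.range N, v k) ^ 2
      = (N : ℝ)⁻¹ ^ 2 * (∑ k ∈ Finset.range N, v k) ^ 2 := mul_pow _ _ _
    _ ≤ (N : ℝ)⁻¹ ^ 2 * (N * (4 * (r * (C ^ 2 * (W + 4))))) := by gcongr
    _ = (N : ℝ)⁻¹ * (4 * r * (W + 4)) * C ^ 2 := by field_simp
    _ ≤ (N : ℝ)⁻¹ * (N * ε ^ 2) * C ^ 2 := by gcongr
    _ = (ε * C) ^ 2 := by field_simp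

/-- `Mn.exists_of_approx_norm` on `X = Kr A` for the functions
`R ↦ ⟪η, ι (R.act T a - R.act T 1 * a) ξ⟫` (`T` cb, `a` unitary); `W` from `exists_isW`;
`ρ T = W fun R => R.act T 1`. `(R.act (fun y => T (a * y)) 1 = R.act T a`; all `a` are
combinations of unitaries (`CStarAlgebra.span_unitary`). -/
theorem exists_rho_cb (hι : IsVN ι) : ∃ ρ : (A → A) →ₗ[ℂ] A, Rho (IsCB ι) ρ := by
  classical
  let I := {q : (A → A) × ℝ × A × K × K // IsCB ι q.1 q.2.1 ∧ q.2.2.1 ∈ unitary A}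
  have hbd : ∀ (T : A → A) (C : ℝ), IsCB ι T C → ∀ (a : A) (R : Kr A), ‖R.act T a‖ ≤ C * ‖a‖ :=
    fun T C hT a R => ((hT.act R).bl hι).bound a
  have hin : ∀ (y : A) (η ξ : K), ‖⟪η, ι y ξ⟫_ℂ‖ ≤ ‖η‖ * (‖y‖ * ‖ξ‖) := fun y η ξ => by
    refine (norm_inner_le_norm _ _).trans ?_
    gcongr
    rw [← IsVN.norm_map hι y]
    exact (ι y).le_opNorm ξ
  obtain ⟨m, hm⟩ := Mn.exists_of_approx_norm (X := Kr A) (I := I)
    (fun q R => ⟪q.1.2.2.2.1, ι (R.act q.1.1 q.1.2.2.1 - R.act q.1.1 1 * q.1.2.2.1) q.1.2.2.2.2⟫_ℂ)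
    (fun q => ⟨‖q.1.2.2.2.1‖ * (2 * q.1.2.1 * ‖q.1.2.2.2.2‖), fun R => by
      refine (hin _ _ _).trans ?_
      gcongr
      rw [norm_sub_rev]
      exact rhoCB_norm_sub_le hι (q.2.1.act R) (q.2.1.act R) q.2.2⟩)
    (fun _ => 0) (fun s ε hε => by
      set D : ℝ := ∑ q ∈ s, ‖q.1.2.2.2.1‖ * q.1.2.1 with hD
      have hD1 : ∀ q : I, 0 ≤ ‖q.1.2.2.2.1‖ * q.1.2.1 := fun q =>
        mul_nonneg (norm_nonneg _) q.2.1.nonneg
      have hD0 : 0 ≤ D := Finset.sum_nonneg fun q _ => hD1 q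
      obtain ⟨R, hR⟩ := cb_approx hι (s.image fun q => q.1.2.2.1)
        (fun a ha => by
          obtain ⟨q, -, rfl⟩ := Finset.mem_image.1 ha
          exact q.2.2)
        (fun j : Fin s.card => (s.equivFin.symm j : I).1.2.2.2.2) (ε := ε / (D + 1))
        (by positivity)
      refine ⟨Mn.pt R, fun q hq => ?_⟩
      have h1 := hR q.1.1 q.1.2.1 q.2.1 _ (Finset.mem_image_of_mem _ hq) (s.equivFin ⟨q, hq⟩)
      rw [Equiv.symm_apply_apply] at h1
      rw [Mn.pt_apply, zero_add]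
      refine (norm_inner_le_norm _ _).trans ((mul_le_mul_of_nonneg_left h1 (norm_nonneg _)).trans ?_)
      have h2 : ‖q.1.2.2.2.1‖ * q.1.2.1 ≤ D + 1 :=
        (Finset.single_le_sum (fun q _ => hD1 q) hq).trans (by linarith)
      calc ‖q.1.2.2.2.1‖ * (ε / (D + 1) * q.1.2.1)
          = ε / (D + 1) * (‖q.1.2.2.2.1‖ * q.1.2.1) := by ring
        _ ≤ ε / (D + 1) * (D + 1) := by gcongr
        _ = ε := by field_simp)
  obtain ⟨W, hW⟩ := IsVN.exists_isW hι m
  have hA := hW.avg hι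
  let L : (A → A) →ₗ[ℂ] (Kr A → A) :=
    { toFun := fun T R => R.act T 1
      map_add' := fun T T' => by
        funext R
        simp [Kr.act, add_mul, Finset.sum_add_distrib]
      map_smul' := fun c T => by
        funext R
        simp [Kr.act, Finset.smul_sum] }
  refine ⟨W ∘ₗ L, fun T C hT => ?_, fun T C hT a => ?_, fun T C hT a => ?_, fun c => ?_⟩
  · exact hA.norm_le _ C fun R => (hbd T C hT 1 R).trans
      (mul_le_of_le_one_right hT.nonneg rhoCB_norm_one)
  · rw [LinearMap.comp_apply, LinearMap.comp_apply,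
      ← hA.mul_left a (L T) ⟨C * ‖(1 : A)‖, hbd T C hT 1⟩]
    congr 1
    funext R
    simp [L, Kr.act, Finset.mul_sum, mul_assoc]
  · have e : L (fun y => T (a * y)) = fun R => R.act T a := by
      funext R
      simp [L, Kr.act]
    rw [LinearMap.comp_apply, LinearMap.comp_apply, e]
    have ha : a ∈ Submodule.span ℂ (unitary A : Set A) := by
      rw [CStarAlgebra.span_unitary]; trivial
    clear e
    induction ha using Submodule.span_induction with
    | mem a ha =>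
      rw [← hA.mul_right a (L T) ⟨C * ‖(1 : A)‖, hbd T C hT 1⟩]
      refine hW.congr hι ⟨C * ‖a‖, hbd T C hT a⟩ ⟨C * ‖(1 : A)‖ * ‖a‖, fun R =>
        (norm_mul_le _ _).trans (mul_le_mul_of_nonneg_right (hbd T C hT 1 R) (norm_nonneg _))⟩
        fun η ξ => ?_
      have h1 := norm_le_zero_iff.1 (hm ⟨(T, C, a, η, ξ), hT, ha⟩)
      rw [← sub_eq_zero, ← m.map_sub, ← h1]
      congr 1
      funext R
      simp [L]
    | zero =>
      have : (fun R : Kr A => R.act T 0) = 0 := funext fun R => (hT.act R).lin.map_zero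
      rw [this, map_zero, mul_zero]
    | add a b _ _ ha hb =>
      have : (fun R : Kr A => R.act T (a + b)) = (fun R : Kr A => R.act T a) +
          fun R : Kr A => R.act T b := funext fun R => (hT.act R).lin.map_add a b
      rw [this, map_add, ha, hb, mul_add]
    | smul c a _ ha =>
      have : (fun R : Kr A => R.act T (c • a)) = c • fun R : Kr A => R.act T a :=
        funext fun R => (hT.act R).lin.map_smul c a
      rw [this, map_smul, ha, mul_smul_comm]
  · rw [LinearMap.comp_apply]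
    refine Eq.trans ?_ (hA.const c)
    congr 1
    funext R
    change ∑ i, c * (1 * star (R.m i)) * R.m i = c
    simp only [one_mul, mul_assoc]
    rw [← Finset.mul_sum, R.sum, mul_one]

end Crest.Agent.R121
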