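import Crest.Agent.R121.RhoFin
import Crest.Agent.R121.RhoCB
import Crest.Agent.R121.Prism
import Crest.Agent.R121.Prim
import Crest.Agent.R121.BalCB
import Crest.Agent.R121.Diag
import Crest.Agent.R121.Conv

/-! Row 121: the abstract theorem. -/

set_option autoImplicit false

open scoped ComplexOrder InnerProductSpace ComplexConjugate

namespace Crest.Agent.R121

open Crest.Agent.R095 (Tr lt)
open Crest.Agent.R124

variable {A : Type*} [CStarAlgebra A] [PartialOrder A] [StarOrderedRing A]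
variable {K : Type*} [NormedAddCommGroup K] [InnerProductSpace ℂ K] [CompleteSpace K]
variable {ι : A →⋆ₐ[ℂ] (K →L[ℂ] K)}

omit [PartialOrder A] [StarOrderedRing A] in
lemma nprod_nonneg (l : List A) : 0 ≤ nprod l := by
  unfold nprod
  exact List.prod_nonneg fun x hx => by
    obtain ⟨y, -, rfl⟩ := List.mem_map.1 hx
    exact norm_nonneg y

omit [PartialOrder A] [StarOrderedRing A] in
lemma bar_add (G H : List A → A) (l : List A) :
    bar (fun m => G m + H m) l = bar G l + bar H l := by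
  induction l generalizing G H with
  | nil => simp
  | cons x l ih =>
    cases l with
    | nil => simp
    | cons y t =>
      rw [bar_cons, bar_cons, bar_cons, ih]
      abel

omit [PartialOrder A] [StarOrderedRing A] in
lemma Coch.add {G H : List A → A} {N : ℕ} {C C' : ℝ} (hG : Coch G N C) (hH : Coch H N C') :
    Coch (fun m => G m + H m) N (C + C') where
  ml :=
    { nonneg := add_nonneg hG.ml.nonneg hH.ml.nonneg
      lin := fun l r h =>
        ⟨fun x y => by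
          rw [(hG.ml.lin l r h).map_add, (hH.ml.lin l r h).map_add]; abel,
        fun c x => by rw [(hG.ml.lin l r h).map_smul, (hH.ml.lin l r h).map_smul, smul_add]⟩
      bound := fun l h => by
        rw [add_mul]
        exact (norm_add_le _ _).trans (add_le_add (hG.ml.bound l h) (hH.ml.bound l h)) }
  lm := fun a x r h => by
    simp only
    rw [hG.lm a x r h, hH.lm a x r h, mul_add]
  rm := fun l x a h => by
    simp only
    rw [hG.rm l x a h, hH.rm l x a h, add_mul]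

omit [PartialOrder A] [StarOrderedRing A] in
lemma BL.mul_left {T : A → A} {C : ℝ} (hT : BL T C) {a : A} (ha : ‖a‖ ≤ 1) :
    BL (fun y => a * T y) C where
  lin := ⟨fun x y => by rw [hT.lin.map_add, mul_add],
    fun c x => by rw [hT.lin.map_smul, mul_smul_comm]⟩
  nonneg := hT.nonneg
  bound := fun y => (norm_mul_le _ _).trans
    ((mul_le_of_le_one_left (norm_nonneg _) ha).trans (hT.bound y))

omit [PartialOrder A] [StarOrderedRing A] in
/-- The virtual diagonal as an algebra-valued average. -/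
lemma exists_diag_avg (hι : IsVN ι) {p s t : A} (hp : Cuntz p s t) :
    ∃ W : (Pair A → A) →ₗ[ℂ] A, Avg W ∧ Diag W {s, t, star s, star t} := by
  obtain ⟨m, hm⟩ := exists_diag hp
  obtain ⟨W, hW⟩ := IsVN.exists_isW hι m
  refine ⟨W, hW.avg hι, fun Φ C hΦ a ha => ?_⟩
  have hΦ' : ∀ x y, ‖Φ x y‖ ≤ |C| * ‖x‖ * ‖y‖ := fun x y =>
    (hΦ x y).trans (by gcongr; exact le_abs_self C)
  refine hW.congr hι ⟨|C| * ‖a‖, fun q => (hΦ' _ _).trans ?_⟩
    ⟨|C| * ‖a‖, fun q => (hΦ' _ _).trans ?_⟩ fun η ξ => ?_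
  · have h1 : ‖a * q.1.1‖ ≤ ‖a‖ :=
      (norm_mul_le _ _).trans (mul_le_of_le_one_right (norm_nonneg _) q.2.1)
    calc |C| * ‖a * q.1.1‖ * ‖q.1.2‖ ≤ |C| * ‖a‖ * 1 := by gcongr; exact q.2.2.1
      _ = _ := mul_one _
  · have h1 : ‖q.1.2 * a‖ ≤ ‖a‖ :=
      (norm_mul_le _ _).trans (mul_le_of_le_one_left (norm_nonneg _) q.2.2.1)
    calc |C| * ‖q.1.1‖ * ‖q.1.2 * a‖ ≤ |C| * 1 * ‖a‖ := by gcongr; exact q.2.1
      _ = _ := by rw [mul_one]
  · let L : A →ₗ[ℂ] ℂ :=
      { toFun := fun x => ⟪η, ι x ξ⟫_ℂ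
        map_add' := fun x y => by simp
        map_smul' := fun c x => by simp }
    refine hm (Φ.compr₂ L) (‖η‖ * ‖ξ‖ * |C|) (by positivity) (fun x y => ?_) a ha
    change ‖⟪η, ι (Φ x y) ξ⟫_ℂ‖ ≤ _
    have h1 : ‖ι (Φ x y) ξ‖ ≤ |C| * ‖x‖ * ‖y‖ * ‖ξ‖ := ((ι (Φ x y)).le_opNorm ξ).trans (by
      rw [IsVN.norm_map hι]; gcongr; exact hΦ' x y)
    calc _ ≤ ‖η‖ * ‖ι (Φ x y) ξ‖ := norm_inner_le_norm _ _
      _ ≤ ‖η‖ * (|C| * ‖x‖ * ‖y‖ * ‖ξ‖) := by gcongr
      _ = _ := by ring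

/-- The averaging map on the maps whose `p`-part is completely bounded. -/
lemma exists_rho (hι : IsVN ι) {p : A} (hp : IsStarProjection p) (hc : Cen p)
    (hgv : ∀ k : K, (∀ ξ, GV ι ξ → ⟪ξ, k⟫_ℂ = 0) → ι p k = k) :
    ∃ ρ : (A → A) →ₗ[ℂ] A,
      Rho (fun T C => BL T (C / 2) ∧ IsCB ι (fun y => p * T y) (C / 2)) ρ := by
  obtain ⟨ρ₁, h₁⟩ := exists_rho_fin hι hp hc hgv
  obtain ⟨ρ₂, h₂⟩ := exists_rho_cb hι
  let L : A → (A → A) →ₗ[ℂ] (A → A) := fun a =>
    { toFun := fun T y => a * T y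
      map_add' := fun T T' => by ext y; simp [mul_add]
      map_smul' := fun c T => by ext y; simp }
  have hA : ∀ {T : A → A} {C : ℝ}, BL T C →
      BL (fun y => (1 - p) * T y) C ∧ ∀ y, p * ((1 - p) * T y) = 0 := fun hT =>
    ⟨hT.mul_left hp.one_sub.norm_le, fun y => by
      rw [← mul_assoc, mul_sub, mul_one, hp.isIdempotentElem.eq, sub_self, zero_mul]⟩
  have hq : ∀ a : A, (1 - p) * a = a * (1 - p) := fun a => by
    rw [sub_mul, mul_sub, one_mul, mul_one, hc a]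
  refine ⟨ρ₁ ∘ₗ L (1 - p) + ρ₂ ∘ₗ L p, ?_, ?_, ?_, ?_⟩
  · rintro T C ⟨hT, hT'⟩
    change ‖ρ₁ (fun y => (1 - p) * T y) + ρ₂ (fun y => p * T y)‖ ≤ C
    linarith [norm_add_le (ρ₁ fun y => (1 - p) * T y) (ρ₂ fun y => p * T y),
      h₁.norm_le _ _ (hA hT), h₂.norm_le _ _ hT']
  · rintro T C ⟨hT, hT'⟩ a
    change ρ₁ (fun y => (1 - p) * (a * T y)) + ρ₂ (fun y => p * (a * T y))
      = a * (ρ₁ (fun y => (1 - p) * T y) + ρ₂ (fun y => p * T y))
    rw [mul_add, ← h₁.left _ _ (hA hT) a, ← h₂.left _ _ hT' a]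
    simp only [← mul_assoc, hq a, hc a]
  · rintro T C ⟨hT, hT'⟩ a
    change ρ₁ (fun y => (1 - p) * T (a * y)) + ρ₂ (fun y => p * T (a * y))
      = (ρ₁ (fun y => (1 - p) * T y) + ρ₂ (fun y => p * T y)) * a
    rw [add_mul, ← h₁.right _ _ (hA hT) a, ← h₂.right _ _ hT' a]
  · intro c
    change ρ₁ (fun y => (1 - p) * (c * y)) + ρ₂ (fun y => p * (c * y)) = c
    simp only [← mul_assoc, h₁.one, h₂.one]
    rw [← add_mul, sub_add_cancel, one_mul]

theorem bar_exact (hι : IsVN ι) {N : ℕ} (hN : 2 ≤ N) (G : List A → A) (C : ℝ)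
    (hG : Coch G (N + 1) C) (hc : Cyc G (N + 1)) :
    ∃ (H : List A → A) (C' : ℝ), Coch H N C' ∧
      ∀ l : List A, l.length = N + 1 → G l = bar H l := by
  obtain ⟨p, s, t, hp, hgv⟩ := structure_thm hι
  obtain ⟨W, hW, hD⟩ := exists_diag_avg hι hp
  obtain ⟨G', H, C', hG', hc', hB, hH, hGH⟩ := prism hW hD (by omega : 1 ≤ N) hG hc
  obtain ⟨ρ, hρ⟩ := exists_rho hι hp.proj hp.cen hgv
  have hC' := hG'.ml.nonneg
  obtain ⟨H', C'', hH', hGH'⟩ := exists_prim hρ hN hG' hc' (C' := 2 * C') (by positivity)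
    fun l hl => by
      have e : 2 * C' * nprod l / 2 = C' * nprod l := by ring
      rw [e]
      refine ⟨⟨hG'.ml.lin l [1] (by simp; omega), mul_nonneg hC' (nprod_nonneg l), fun y => ?_⟩,
        isCB_of_bal hp hG' hB l (by omega)⟩
      refine (hG'.ml.bound _ (by simp; omega)).trans ?_
      have h1 : ‖(1 : A)‖ ≤ 1 := (IsStarProjection.one A).norm_le
      have h2 : nprod (l ++ [y, 1]) = nprod l * (‖y‖ * ‖(1 : A)‖) := by simp [nprod]
      rw [h2, mul_assoc]
      have h3 := nprod_nonneg l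
      gcongr
      exact mul_le_of_le_one_right (norm_nonneg _) h1
  refine ⟨fun m => H' m + H m, C'' + C', hH'.add hH, fun l hl => ?_⟩
  rw [bar_add, hGH l hl, hGH' l hl]

end Crest.Agent.R121
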