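import Crest.Agent.R121.Defs
import Crest.Agent.R124.BaerL
import Crest.Agent.R124.TrIneq

/-! Row 121: spectral partitions in Baer ⋆-rings. -/

set_option autoImplicit false

open scoped ComplexOrder InnerProductSpace ComplexConjugate

namespace Crest.Agent.R121

open Crest.Agent.R095 (Tr lt)
open Crest.Agent.R124

variable {Q : Type*} [CStarAlgebra Q] [PartialOrder Q] [StarOrderedRing Q]

omit [PartialOrder Q] [StarOrderedRing Q] in
/-- The range projection in `Q` of a subset of the corner lies in the corner (`y = 1 - p`). -/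
theorem Cn.baer (hQ : Baer Q) {p : Q} (hp : IsStarProjection p) : Baer (Cn hp) := by
  intro G
  obtain ⟨r, hr, h1, h2⟩ := hQ (Cn.val '' G)
  have h3 : p * r = r := by
    have := h2 (1 - p) (by
      rintro _ ⟨g, -, rfl⟩
      rw [sub_mul, one_mul, g.p_mul, sub_self])
    rw [sub_mul, one_mul, sub_eq_zero] at this
    exact this.symm
  have h4 : r * p = r := by
    have := congrArg star h3
    rwa [star_mul, hr.isSelfAdjoint.star_eq, hp.isSelfAdjoint.star_eq] at this
  refine ⟨Cn.mk r (by rw [h3, h4]), (Cn.isStarProjection_iff _).2 hr,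
    fun g hg => Cn.ext (h1 _ ⟨g, hg, rfl⟩), fun y hy => Cn.ext (h2 y.val ?_)⟩
  rintro _ ⟨g, hg, rfl⟩
  exact congrArg Cn.val (hy g hg)

omit [PartialOrder Q] [StarOrderedRing Q] in
lemma spectral_level (hQ : Baer Q) (h : Q) (t : ℝ) : ∃ r : Q, IsStarProjection r ∧
    (1 - r) * cfc (fun s : ℝ => max (s - t) 0) h = 0 ∧
    (∀ y, y * cfc (fun s : ℝ => max (s - t) 0) h = 0 → y * r = 0) ∧
    ∀ f : ℝ → ℝ, r * cfc f h = cfc f h * r := by
  obtain ⟨q, hq, hq1, hq2⟩ := hQ {cfc (fun s : ℝ => max (s - t) 0) h}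
  replace hq1 : (1 - q) * cfc (fun s : ℝ => max (s - t) 0) h = 0 := by
    rw [sub_mul, one_mul, hq1 _ rfl, sub_self]
  replace hq2 : ∀ y : Q, y * cfc (fun s : ℝ => max (s - t) 0) h = 0 → y * q = 0 := fun y hy =>
    hq2 y fun _ h => by rw [Set.mem_singleton_iff.1 h]; exact hy
  refine ⟨q, hq, hq1, hq2, fun f => ?_⟩
  have h1 : (1 - q) * cfc f h * q = 0 := by
    apply hq2
    rw [mul_assoc, (cfc_commute_cfc f _ h).eq, ← mul_assoc, hq1, zero_mul]
  have h2 : cfc f h * q = q * cfc f h * q := by
    rw [sub_mul, sub_mul, one_mul, sub_eq_zero] at h1; exact h1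
  have h3 := congrArg star h2
  simp only [star_mul, hq.isSelfAdjoint.star_eq, (cfc_predicate f h).star_eq] at h3
  rw [h3, ← mul_assoc, ← h2]

omit [PartialOrder Q] [StarOrderedRing Q] in
lemma spectral_norm_conj {q x : Q} (hq : IsStarProjection q) : ‖q * x * q‖ ≤ ‖x‖ := by
  have h1 := hq.norm_le
  refine (norm_mul_le _ _).trans ((mul_le_of_le_one_right (norm_nonneg _) h1).trans ?_)
  exact (norm_mul_le _ _).trans (mul_le_of_le_one_left (norm_nonneg _) h1)

/-- Let `r j` be the range projection of `(h - t j)₊`, `t j = -‖h‖ + (j - 1) δ`; the `r j` decrease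
from `1` to `0` and commute with `h` (for a unitary `u` commuting with `h`, e.g. `exp (i s h)` or a
Cayley transform, `u (r j) u⋆` is again the range projection; or: `(1 - r) h (h - t)₊ = 0` gives
`(1 - r) h r = 0`). `(h - t) r ≥ 0`-type bounds: `(1 - r j) (h - t j)₊ = 0` gives
`h (1 - r j) ≤ t j (1 - r j)`, and `(h - t j)₋ (h - t j)₊ = 0` gives `(h - t j)₋ r j = 0`, i.e.
`h r j ≥ t j r j`. Take `p j = r j - r (j + 1)`. -/
theorem exists_spectral (hQ : Baer Q) {h : Q} (hh : IsSelfAdjoint h) {ε : ℝ} (hε : 0 < ε) :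
    ∃ (n : ℕ) (p : Fin n → Q) (t : Fin n → ℝ), Atoms p ∧ Monotone t ∧ (∀ i, |t i| ≤ ‖h‖ + ε) ∧
      ‖h - ∑ i, t i • p i‖ ≤ ε := by
  choose R hR h1 h2 h3 using spectral_level hQ h
  have hsp : ∀ s ∈ spectrum ℝ h, |s| ≤ ‖h‖ := fun s hs => by
    rcases subsingleton_or_nontrivial Q with hA' | hA'
    · simp at hs
    · exact spectrum.norm_le_norm_of_mem hs
  have hcs : ∀ f : ℝ → ℝ, star (cfc f h) = cfc f h := fun f => (cfc_predicate f h).star_eq
  have hinv : ∀ t d : ℝ, 0 < d → Continuous fun s : ℝ => (max (s - t) d)⁻¹ := fun t d hd =>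
    Continuous.inv₀ (by fun_prop) fun s => (lt_of_lt_of_le hd (le_max_right _ _)).ne'
  have hdec : ∀ t t', t < t' → R t * R t' = R t' := by
    intro t t' htt
    have e : cfc (fun s : ℝ => max (s - t') 0) h = cfc (fun s : ℝ => max (s - t) 0) h *
        cfc (fun s : ℝ => max (s - t') 0 * (max (s - t) (t' - t))⁻¹) h := by
      rw [baerl_mul (by fun_prop) (Continuous.fun_mul (by fun_prop) (hinv _ _ (by linarith)))]
      congr 1
      funext s
      rcases le_total s t' with h4 | h4
      · simp [h4]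
      · rw [max_eq_left (a := s - t) (by linarith), max_eq_left (a := s - t) (by linarith),
          mul_left_comm, mul_inv_cancel₀ (by linarith), mul_one]
    have := h2 t' (1 - R t) (by rw [e, ← mul_assoc, h1, zero_mul])
    rw [sub_mul, one_mul, sub_eq_zero] at this
    exact this.symm
  set m := ⌈2 * ‖h‖ / ε⌉₊ with hm
  have hm1 : 2 * ‖h‖ ≤ m * ε := by
    rw [← div_le_iff₀ hε]; exact Nat.le_ceil _
  have hm2 : (m - 1) * ε ≤ 2 * ‖h‖ := by
    rw [← le_div_iff₀ hε]
    have := Nat.ceil_lt_add_one (show 0 ≤ 2 * ‖h‖ / ε by positivity)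
    linarith
  set t : ℕ → ℝ := fun j => -‖h‖ + (j - 1) * ε with ht
  have tsucc : ∀ j, t (j + 1) = t j + ε := fun j => by simp only [ht]; push_cast; ring
  have tmono : StrictMono t := strictMono_nat_of_lt_succ fun j => by rw [tsucc]; linarith
  set r : ℕ → Q := fun j => R (t j) with hr
  have rl : ∀ i j, i ≤ j → r i * r j = r j := fun i j hij => by
    rcases hij.eq_or_lt with rfl | hij
    · exact (hR _).isIdempotentElem
    · exact hdec _ _ (tmono hij)
  have rs : ∀ i, star (r i) = r i := fun i => (hR _).isSelfAdjoint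
  have rr : ∀ i j, i ≤ j → r j * r i = r j := fun i j hij => by
    have := congrArg star (rl i j hij)
    rwa [star_mul, rs, rs] at this
  have r0 : r 0 = 1 := by
    have e : cfc (fun s : ℝ => max (s - t 0) 0) h * cfc (fun s : ℝ => (max (s - t 0) ε)⁻¹) h = 1 := by
      rw [baerl_mul (by fun_prop) (hinv _ _ hε), ← cfc_const_one ℝ h]
      refine cfc_congr fun s hs => ?_
      have h4 := (abs_le.1 (hsp s hs)).1
      have h5 : ε ≤ s - t 0 := by simp only [ht]; push_cast; linarith
      change max (s - t 0) 0 * (max (s - t 0) ε)⁻¹ = 1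
      rw [max_eq_left h5, max_eq_left (by linarith), mul_inv_cancel₀ (by linarith)]
    have := congrArg (· * cfc (fun s : ℝ => (max (s - t 0) ε)⁻¹) h) (h1 (t 0))
    simp only [mul_assoc, e, mul_one, zero_mul, sub_eq_zero] at this
    exact this.symm
  have rn : r (m + 1) = 0 := by
    have := h2 (t (m + 1)) 1 (by
      rw [one_mul, ← cfc_zero ℝ h]
      refine cfc_congr fun s hs => ?_
      have h4 := (abs_le.1 (hsp s hs)).2
      refine max_eq_right ?_
      simp only [ht]
      push_cast
      linarith)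
    rwa [one_mul] at this
  have pp : ∀ j, IsStarProjection (r j - r (j + 1)) := fun j =>
    ⟨by
      unfold IsIdempotentElem
      rw [mul_sub, sub_mul, sub_mul, rl j j le_rfl, rr j _ j.le_succ, rl j _ j.le_succ,
        rl _ _ le_rfl, sub_self, sub_zero],
      by rw [IsSelfAdjoint, star_sub, rs, rs]⟩
  have psum : ∑ j : Fin (m + 1), (r j - r (j + 1)) = 1 := by
    rw [Fin.sum_univ_eq_sum_range (fun j => r j - r (j + 1)), Finset.sum_range_sub', r0, rn,
      sub_zero]
  have key : ∀ j, h * (r j - r (j + 1)) - t j • (r j - r (j + 1)) =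
      star (r j - r (j + 1)) * cfc (baerlPsi (t j) ε) h * (r j - r (j + 1)) := by
    intro j
    have e1 : cfc (fun s : ℝ => min (s - t j) 0) h * r j = 0 := by
      apply h2
      rw [baerl_mul (by fun_prop) (by fun_prop), ← cfc_zero ℝ h]
      congr 1
      funext s
      rcases le_total (s - t j) 0 with h4 | h4 <;> simp [h4]
    have e2 : cfc (fun s : ℝ => max (s - t (j + 1)) 0) h * (1 - r (j + 1)) = 0 := by
      have := congrArg star (h1 (t (j + 1)))
      rwa [star_mul, star_sub, star_one, hcs, (hR _).isSelfAdjoint.star_eq, star_zero] at this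
    have e3 : h - algebraMap ℝ Q (t j) = cfc (baerlPsi (t j) ε) h +
        cfc (fun s : ℝ => min (s - t j) 0) h + cfc (fun s : ℝ => max (s - t (j + 1)) 0) h := by
      rw [← cfc_add _ _ _ (by fun_prop) (by fun_prop), ← cfc_add _ _ _ (by fun_prop) (by fun_prop),
        ← cfc_const (t j) h]
      have e0 := cfc_sub (fun s : ℝ => s) (fun _ => t j) h (by fun_prop) (by fun_prop)
      rw [cfc_id' ℝ h] at e0
      rw [← e0]
      congr 1
      funext s
      rw [tsucc]
      unfold baerlPsi
      simp only [min_def, max_def]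
      split_ifs <;> linarith
    have e4 : r j - r (j + 1) = r j * (1 - r (j + 1)) := by
      rw [mul_sub, mul_one, rl j _ j.le_succ]
    have e5 : r j - r (j + 1) = (1 - r (j + 1)) * r j := by
      rw [sub_mul, one_mul, rr j _ j.le_succ]
    have e6 : (r j - r (j + 1)) * cfc (baerlPsi (t j) ε) h =
        cfc (baerlPsi (t j) ε) h * (r j - r (j + 1)) := by
      rw [sub_mul, mul_sub, h3, h3]
    rw [(pp j).isSelfAdjoint.star_eq, e6, mul_assoc, (pp j).isIdempotentElem.eq,
      Algebra.smul_def, ← sub_mul, e3, add_mul, add_mul]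
    conv_lhs =>
      congr
      · congr
        · skip
        · rw [e4, ← mul_assoc, e1, zero_mul]
      · rw [e5, ← mul_assoc, e2, zero_mul]
    rw [add_zero, add_zero]
  refine ⟨m + 1, fun j => r j - r (j + 1), fun j => t j, ⟨fun j => pp j, fun a b hab => ?_, psum⟩,
    fun a b hab => tmono.monotone hab, fun j => ?_, ?_⟩
  · rcases lt_or_gt_of_ne (Fin.val_ne_of_ne hab) with h4 | h4
    · rw [mul_sub, sub_mul, sub_mul, rl _ _ h4.le, rl _ _ h4, rl _ _ (by omega), rl _ _ (by omega),
        sub_self, sub_self, sub_self]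
    · rw [mul_sub, sub_mul, sub_mul, rr _ _ h4.le, rr _ _ (by omega), rr _ _ h4, rr _ _ (by omega),
        sub_self]
  · have h4 : (j : ℝ) ≤ m := by exact_mod_cast Nat.lt_succ_iff.1 j.2
    have h5 : (0 : ℝ) ≤ (j : ℕ) := Nat.cast_nonneg _
    simp only [ht]
    rw [abs_le]
    constructor <;> nlinarith
  · have e : h - ∑ j : Fin (m + 1), t j • (r j - r (j + 1)) = ∑ j : Fin (m + 1),
        star (r j - r (j + 1)) * cfc (baerlPsi (t j) ε) h * (r j - r (j + 1)) := by
      simp only [← key]
      rw [Finset.sum_sub_distrib, ← Finset.mul_sum, psum, mul_one]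
    rw [e, CStarAlgebra.norm_le_iff_le_algebraMap _ hε.le (Finset.sum_nonneg fun j _ =>
      star_left_conjugate_nonneg (cfc_nonneg fun s _ => baerlPsi_nn _ hε s) _),
      Algebra.algebraMap_eq_smul_one, ← psum, Finset.smul_sum]
    refine Finset.sum_le_sum fun j _ => ?_
    have e3 : cfc (baerlPsi (t j) ε) h ≤ algebraMap ℝ Q ε := by
      rw [← cfc_const ε h]
      exact cfc_mono (fun s _ => min_le_right _ _) (baerlPsi_cont _ _).continuousOn
        continuousOn_const
    refine (star_left_conjugate_le_conjugate e3 _).trans_eq ?_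
    rw [(pp j).isSelfAdjoint.star_eq, Algebra.algebraMap_eq_smul_one, mul_smul_comm, mul_one,
      smul_mul_assoc, (pp j).isIdempotentElem.eq]

/-- Induction on `F`: refine every atom `p i` by `exists_spectral` for the compression of the new
element in the corner `Cn (p i)` (`Cn.baer`); index by a sigma type. The old estimates persist
for subprojections. -/
theorem exists_partition (hQ : Baer Q) (F : Finset Q) (hF : ∀ a ∈ F, IsSelfAdjoint a) {ε : ℝ}
    (hε : 0 < ε) :
    ∃ (I : Type) (_ : Fintype I) (p : I → Q), Atoms p ∧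
      ∀ a ∈ F, ∀ i, ∃ t : ℝ, ‖p i * a * p i - t • p i‖ ≤ ε := by
  classical
  induction F using Finset.induction_on with
  | empty =>
    exact ⟨Unit, inferInstance, fun _ => 1,
      ⟨fun _ => IsStarProjection.one Q, fun _ _ h => (h rfl).elim, by simp⟩, by simp⟩
  | insert a F _ ih =>
    obtain ⟨I, _, p, hp, hest⟩ := ih fun b hb => hF b (Finset.mem_insert_of_mem hb)
    have ha := hF a (Finset.mem_insert_self _ _)
    have hsa : ∀ i, IsSelfAdjoint (Cn.comp (hp.proj i) a) := fun i => Cn.ext (by
      simp only [Cn.val_star, Cn.val_comp, star_mul, hp.star_eq, ha.star_eq, mul_assoc])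
    choose n q t hq _ _ hn using fun i => exists_spectral (Cn.baer hQ (hp.proj i)) (hsa i) hε
    have qp : ∀ i j, IsStarProjection (q i j).val := fun i j =>
      (Cn.isStarProjection_iff _).1 ((hq i).proj j)
    refine ⟨Σ i, Fin (n i), inferInstance, fun x => (q x.1 x.2).val,
      ⟨fun x => qp _ _, ?_, ?_⟩, ?_⟩
    · rintro ⟨i, j⟩ ⟨i', j'⟩ hne
      by_cases h : i = i'
      · subst h
        exact congrArg Cn.val ((hq i).orth j j' fun e => hne (by rw [e]))
      · simp only
        rw [← (q i j).mul_p, ← (q i' j').p_mul, mul_assoc, ← mul_assoc (p i), hp.orth _ _ h,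
          zero_mul, mul_zero]
    · rw [Fintype.sum_sigma, ← hp.sum]
      refine Finset.sum_congr rfl fun i _ => ?_
      change ∑ y, (q i y).val = p i
      rw [← Cn.val_sum, (hq i).sum, Cn.val_one]
    · rintro b hb ⟨i, j⟩
      have e : ∀ y : Q, (q i j).val * (p i * y * p i) * (q i j).val =
          (q i j).val * y * (q i j).val := fun y => by
        rw [← mul_assoc, ← mul_assoc, (q i j).mul_p, mul_assoc _ (p i), (q i j).p_mul]
      rcases Finset.mem_insert.1 hb with rfl | hb
      · refine ⟨t i j, le_trans (le_of_eq ?_) ((spectral_norm_conj ((hq i).proj j)).trans (hn i))⟩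
        have e1 : q i j * (∑ k, t i k • q i k) * q i j = t i j • q i j := by
          simp only [Finset.mul_sum, Finset.sum_mul, mul_smul_comm, smul_mul_assoc, (hq i).mul_ite,
            ite_mul, (hq i).mul_self, zero_mul, smul_ite, smul_zero]
          simp
        rw [mul_sub, sub_mul, e1, ← Cn.norm_val]
        simp only [Cn.val_sub, Cn.val_mul, Cn.val_comp, Cn.val_real_smul, e]
      · obtain ⟨s, hs⟩ := hest b hb i
        refine ⟨s, le_trans (le_of_eq ?_) ((spectral_norm_conj (qp i j)).trans hs)⟩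
        rw [mul_sub, sub_mul, e, mul_smul_comm, smul_mul_assoc, (q i j).mul_p,
          (qp i j).isIdempotentElem.eq]

end Crest.Agent.R121
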