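import Crest.Agent.R121.Basic
import Crest.Agent.R121.Compact
import Crest.Agent.R121.Spectral
import Crest.Agent.R124.Prob

/-! Row 121: averaging over fine partitions. -/

set_option autoImplicit false

open scoped ComplexOrder InnerProductSpace ComplexConjugate

namespace Crest.Agent.R121

open Crest.Agent.R095 (Tr lt)
open Crest.Agent.R124

section aux

variable {Q : Type*} [CStarAlgebra Q]

/-- The diagonal mean of a partition: averaging over random diagonal unitaries. -/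
lemma pre_mean {J : Type} [Fintype J] {p : J → Q} (hp : Atoms p) :
    ∃ m : Mn (unitary Q), ∀ (β : Fm Q) (z z' : Q),
      avg β m z z' = ∑ j, β (z * p j) (p j * z') := by
  classical
  obtain ⟨Ω, _, _, θ, hθ⟩ := exists_phase J 1
  refine ⟨Mn.ofEx fun ω => ⟨dg p (θ ω), hp.dg_mem_unitary (hθ.norm ω)⟩, fun β z z' => ?_⟩
  rw [avg_apply, Mn.ofEx_apply]
  have hmono : ∀ ω j, mono (θ ω) (Pi.single j 1) = θ ω j := fun ω j => by
    unfold mono
    rw [Finset.prod_eq_single j]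
    · simp
    · intro b _ hb
      simp [Pi.single_eq_of_ne hb]
    · simp
  have hle : ∀ j a : J, (Pi.single j 1 : J → ℕ) a ≤ 1 := fun j a => by
    by_cases h : a = j
    · subst h; simp
    · simp [Pi.single_eq_of_ne h]
  have horth : ∀ i j : J, ex (fun ω => conj (θ ω i) * θ ω j) = if i = j then 1 else 0 := by
    intro i j
    have := hθ.ex_mono (Pi.single i 1) (Pi.single j 1) (hle i) (hle j)
    simp only [hmono] at this
    rw [this]
    by_cases h : i = j
    · simp [h]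
    · rw [if_neg h, if_neg]
      intro e
      have := congrFun e i
      simp [Pi.single_eq_of_ne h] at this
  have e : ∀ ω, β (z * star (dg p (θ ω))) (dg p (θ ω) * z')
      = ∑ i, ∑ j, (conj (θ ω i) * θ ω j) • β (z * p i) (p j * z') := fun ω => by
    rw [hp.star_dg]
    simp only [dg, Finset.mul_sum, Finset.sum_mul, mul_smul_comm, smul_mul_assoc, map_sum,
      map_smul, LinearMap.sum_apply, LinearMap.smul_apply, smul_eq_mul]
    rw [Finset.sum_comm]
    exact Finset.sum_congr rfl fun i _ => Finset.sum_congr rfl fun j _ => by ring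
  simp only [e]
  rw [ex_sum]
  refine Finset.sum_congr rfl fun i _ => ?_
  rw [ex_sum]
  simp only [ex_complex_smul_const, horth]
  simp

lemma pre_sum_left (τ : Tr Q) {J : Type} [Fintype J] {p : J → Q} (hp : Atoms p) (z : Q) :
    ∑ j, τ.n2 (z * p j) ^ 2 = τ.n2 z ^ 2 := by
  simp only [τ.n2_sq, ← Complex.re_sum]
  congr 1
  have e : ∀ j, τ (star (z * p j) * (z * p j)) = τ (star z * z * p j) := fun j => by
    calc τ (star (z * p j) * (z * p j)) = τ (p j * (star z * z * p j)) := by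
          simp only [star_mul, hp.star_eq, mul_assoc]
      _ = τ (star z * z * (p j * p j)) := by rw [τ.comm]; simp only [mul_assoc]
      _ = _ := by rw [hp.mul_self]
  simp only [e, ← τ.map_sum, ← Finset.mul_sum, hp.sum, mul_one]

lemma pre_sum_right (τ : Tr Q) {J : Type} [Fintype J] {p : J → Q} (hp : Atoms p) (z : Q) :
    ∑ j, τ.n2 (p j * z) ^ 2 = τ.n2 z ^ 2 := by
  rw [← τ.n2_star z, ← pre_sum_left τ hp (star z)]
  refine Finset.sum_congr rfl fun j _ => ?_
  rw [← τ.n2_star, star_mul, hp.star_eq]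

lemma pre_block (τ : Tr Q) {p z : Q} (hp : IsStarProjection p) {t δ : ℝ}
    (h : ‖p * (star z * z) * p - t • p‖ ≤ δ) :
    (‖z * p‖ * τ.n2 p) ^ 2 ≤ τ.n2 (z * p) ^ 2 + 2 * δ * τ.n2 p ^ 2 := by
  have hs : star p = p := hp.isSelfAdjoint
  have hi : p * p = p := hp.isIdempotentElem
  set e := p * (star z * z) * p - t • p with he
  have h1 : star (z * p) * (z * p) = t • p + e := by
    rw [he, star_mul, hs]; simp only [mul_assoc]; abel
  have h2 : ‖z * p‖ ^ 2 ≤ |t| + δ := by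
    rw [sq, ← CStarRing.norm_star_mul_self, h1]
    refine (norm_add_le _ _).trans (add_le_add ?_ h)
    rw [norm_smul, Real.norm_eq_abs]
    exact mul_le_of_le_one_right (abs_nonneg _) hp.norm_le
  have h3 : star p * (e * p) = e := by
    rw [he, hs]
    simp only [sub_mul, mul_sub, mul_assoc, smul_mul_assoc, mul_smul_comm, hi]
    rw [← mul_assoc p p, hi]
  have h4 : ‖τ e‖ ≤ δ * τ.n2 p ^ 2 := by
    rw [← h3]
    refine (τ.norm_star_mul_le _ _).trans ?_
    have := (τ.n2_mul_le e p).trans (mul_le_mul_of_nonneg_right h (τ.n2_nonneg p))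
    have h0 := τ.n2_nonneg p
    nlinarith
  have h5 : (τ p).re = τ.n2 p ^ 2 := by rw [τ.n2_sq, hs, hi]
  have h6 : τ.n2 (z * p) ^ 2 = t * τ.n2 p ^ 2 + (τ e).re := by
    rw [τ.n2_sq, h1, τ.map_add, τ.map_real_smul, Complex.add_re, Complex.re_ofReal_mul, h5]
  have h7 := abs_le.1 ((Complex.abs_re_le_norm (τ e)).trans h4)
  have h8 : 0 ≤ τ.n2 p ^ 2 := by positivity
  have h9 : 0 ≤ τ.n2 (z * p) ^ 2 := by positivity
  have h10 : |t| * τ.n2 p ^ 2 ≤ τ.n2 (z * p) ^ 2 + δ * τ.n2 p ^ 2 := by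
    rcases abs_cases t with ht | ht <;> rw [ht.1] <;> nlinarith [h7.1, h7.2]
  rw [mul_pow]
  nlinarith [mul_le_mul_of_nonneg_right h2 h8]

lemma pre_l2 {τ : Tr Q} {β : Fm Q} {C : ℝ} (hC : 0 ≤ C) (hβ : B1 τ β C) {J : Type} [Fintype J]
    {p : J → Q} (hp : Atoms p) (z z' : Q) {δ : ℝ}
    (h : ∀ j, ∃ t : ℝ, ‖p j * (star z * z) * p j - t • p j‖ ≤ δ) :
    ‖∑ j, β (z * p j) (p j * z')‖ ≤ C * √(τ.n2 z ^ 2 + 2 * δ) * τ.n2 z' := by
  have h1 : ∀ j, ‖β (z * p j) (p j * z')‖ ≤ C * ((‖z * p j‖ * τ.n2 (p j)) * τ.n2 (p j * z')) :=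
    fun j => by
      have := hβ (z * p j) (p j) (p j * z')
      rw [← mul_assoc (p j), hp.mul_self] at this
      exact this.trans_eq (by ring)
  have h2 : ∑ j, (‖z * p j‖ * τ.n2 (p j)) ^ 2 ≤ τ.n2 z ^ 2 + 2 * δ := by
    have e1 := pre_sum_left τ hp z
    have e2 := pre_sum_left τ hp 1
    simp only [one_mul, τ.n2_one, one_pow] at e2
    calc _ ≤ ∑ j, (τ.n2 (z * p j) ^ 2 + 2 * δ * τ.n2 (p j) ^ 2) :=
          Finset.sum_le_sum fun j _ => by
            obtain ⟨t, ht⟩ := h j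
            exact pre_block τ (hp.proj j) ht
      _ = _ := by rw [Finset.sum_add_distrib, ← Finset.mul_sum, e1, e2, mul_one]
  calc _ ≤ ∑ j, C * ((‖z * p j‖ * τ.n2 (p j)) * τ.n2 (p j * z')) :=
        (norm_sum_le _ _).trans (Finset.sum_le_sum fun j _ => h1 j)
    _ = C * ∑ j, (‖z * p j‖ * τ.n2 (p j)) * τ.n2 (p j * z') := by rw [Finset.mul_sum]
    _ ≤ C * (√(∑ j, (‖z * p j‖ * τ.n2 (p j)) ^ 2) * √(∑ j, τ.n2 (p j * z') ^ 2)) :=
        mul_le_mul_of_nonneg_left (Real.sum_mul_le_sqrt_mul_sqrt _ _ _) hC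
    _ ≤ _ := by
        rw [pre_sum_right τ hp, Real.sqrt_sq (τ.n2_nonneg _), ← mul_assoc]
        exact mul_le_mul_of_nonneg_right
          (mul_le_mul_of_nonneg_left (Real.sqrt_le_sqrt h2) hC) (τ.n2_nonneg _)

lemma pre_cen {J : Type} [Fintype J] {p : J → Q} (hp : Atoms p) {a : Q} (ha : Cen a) {δ : ℝ}
    (hδ : 0 ≤ δ) (h : ∀ j, ∃ t : ℝ, ‖p j * a * p j - t • p j‖ ≤ δ) :
    ∃ (a' : Q) (t : J → ℂ), ‖a - a'‖ ≤ δ ∧ ∀ j, a' * p j = t j • p j ∧ p j * a' = t j • p j := by
  classical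
  choose t ht using h
  refine ⟨dg p fun j => t j, fun j => t j, ?_, fun j => ⟨?_, ?_⟩⟩
  · have h1 := norm_sum_star_mul_mul_le Finset.univ p (fun j => p j * a * p j - t j • p j) p δ hδ
      (fun j _ => ht j)
    have e : ∀ j, star (p j) * (p j * a * p j - t j • p j) * p j = a * p j - (t j : ℂ) • p j :=
      fun j => by
        rw [hp.star_eq, ← ha (p j)]
        simp only [mul_sub, sub_mul, mul_assoc, hp.mul_self, mul_smul_comm, smul_mul_assoc,
          Complex.coe_smul]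
        rw [← mul_assoc (p j) a, ← ha (p j), mul_assoc, hp.mul_self]
    simp only [e] at h1
    simp only [hp.star_eq, hp.mul_self, hp.sum, Finset.sum_sub_distrib, ← Finset.mul_sum,
      mul_one] at h1
    have h2 : √‖(1 : Q)‖ ≤ 1 := Real.sqrt_le_one.mpr (IsStarProjection.one Q).norm_le
    refine h1.trans ?_
    rw [mul_assoc]
    exact mul_le_of_le_one_right hδ (mul_le_one₀ h2 (Real.sqrt_nonneg _) h2)
  · simp [dg, Finset.sum_mul, hp.mul_ite]
  · simp [dg, Finset.mul_sum, hp.mul_ite]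

lemma pre_bal {β : Fm Q} {C : ℝ} (hC : 0 ≤ C) (hβ : B0 β C) {J : Type} [Fintype J] {p : J → Q}
    (hp : Atoms p) {m : Mn (unitary Q)}
    (hm : ∀ z z' : Q, avg β m z z' = ∑ j, β (z * p j) (p j * z')) {a : Q} (ha : Cen a) {δ : ℝ}
    (hδ : 0 ≤ δ) (h : ∀ j, ∃ t : ℝ, ‖p j * a * p j - t • p j‖ ≤ δ) (z z' : Q) :
    ‖avg β m (z * a) z' - avg β m z (a * z')‖ ≤ 2 * C * ‖z‖ * ‖z'‖ * δ := by
  obtain ⟨a', t, h1, h2⟩ := pre_cen hp ha hδ h
  have e1 : avg β m (z * a') z' = avg β m z (a' * z') := by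
    rw [hm, hm]
    refine Finset.sum_congr rfl fun j _ => ?_
    rw [mul_assoc, (h2 j).1, ← mul_assoc, (h2 j).2]
    simp
  have e2 : avg β m (z * a) z' - avg β m z (a * z')
      = avg β m (z * (a - a')) z' - avg β m z ((a - a') * z') := by
    simp only [mul_sub, sub_mul, map_sub, LinearMap.sub_apply, e1]
    ring
  have k1 := hβ.avg m (z * (a - a')) z'
  have k2 := hβ.avg m z ((a - a') * z')
  have k3 : ‖z * (a - a')‖ ≤ ‖z‖ * δ :=
    (norm_mul_le _ _).trans (mul_le_mul_of_nonneg_left h1 (norm_nonneg _))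
  have k4 : ‖(a - a') * z'‖ ≤ δ * ‖z'‖ :=
    (norm_mul_le _ _).trans (mul_le_mul_of_nonneg_right h1 (norm_nonneg _))
  rw [e2]
  refine (norm_sub_le _ _).trans ?_
  calc _ ≤ C * (‖z‖ * δ) * ‖z'‖ + C * ‖z‖ * (δ * ‖z'‖) :=
        add_le_add (k1.trans (by gcongr)) (k2.trans (by gcongr))
    _ = _ := by ring

lemma pre_cen_star {a : Q} (ha : Cen a) : Cen (star a) := fun x => by
  have := congrArg star (ha (star x))
  simpa using this.symm

/-- The index type of all constraints. -/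
def PreI (Q : Type*) [CStarAlgebra Q] : Type _ :=
  {q : Tr Q × Fm Q × ℝ × Q × Q // 0 ≤ q.2.2.1 ∧ B1 q.1 q.2.1 q.2.2.1} ⊕
  {q : Fm Q × ℝ × Q × Q × Q // 0 ≤ q.2.1 ∧ B0 q.1 q.2.1 ∧ Cen q.2.2.1 ∧ IsSelfAdjoint q.2.2.1}

/-- The functions. -/
noncomputable def preF : PreI Q → unitary Q → ℂ
  | .inl q => fun u => q.1.2.1 (q.1.2.2.2.1 * star (u : Q)) ((u : Q) * q.1.2.2.2.2)
  | .inr q => fun u => q.1.1 (q.1.2.2.2.1 * q.1.2.2.1 * star (u : Q)) ((u : Q) * q.1.2.2.2.2)
      - q.1.1 (q.1.2.2.2.1 * star (u : Q)) ((u : Q) * (q.1.2.2.1 * q.1.2.2.2.2))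

/-- The bounds, with error `δ`. -/
noncomputable def preB : PreI Q → ℝ → ℝ
  | .inl q => fun δ =>
      q.1.2.2.1 * √(q.1.1.n2 q.1.2.2.2.1 ^ 2 + 2 * δ) * q.1.1.n2 q.1.2.2.2.2
  | .inr q => fun δ => 2 * q.1.2.1 * ‖q.1.2.2.2.1‖ * ‖q.1.2.2.2.2‖ * δ

/-- The self-adjoint elements to be diagonalised. -/
noncomputable def preH : PreI Q → Q
  | .inl q => star q.1.2.2.2.1 * q.1.2.2.2.1
  | .inr q => q.1.2.2.1

lemma preH_sa (i : PreI Q) : IsSelfAdjoint (preH i) := by
  rcases i with q | q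
  · exact IsSelfAdjoint.star_mul_self _
  · exact q.2.2.2.2

lemma preB_cont (i : PreI Q) : Continuous (preB i) := by
  rcases i with q | q <;> unfold preB <;> fun_prop

lemma pre_bd {β : Fm Q} {C : ℝ} (h : B0 β C) (z z' : Q) :
    ∀ u : unitary Q, ‖β (z * star (u : Q)) ((u : Q) * z')‖ ≤ C * ‖z‖ * ‖z'‖ := fun u => by
  refine (h _ _).trans_eq ?_
  rw [CStarRing.norm_mul_mem_unitary _ (Unitary.star_mem u.2), CStarRing.norm_mem_unitary_mul _ u.2]

lemma preF_bd (i : PreI Q) : Bd (preF i) := by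
  rcases i with q | q
  · exact ⟨_, pre_bd (q.2.2.b0 q.2.1) _ _⟩
  · exact ⟨_, fun u => (norm_sub_le _ _).trans
      (add_le_add (pre_bd q.2.2.1 _ _ u) (pre_bd q.2.2.1 _ _ u))⟩

end aux

variable {Q : Type*} [CStarAlgebra Q] [PartialOrder Q] [StarOrderedRing Q]

/-- For atoms `p` and independent phases (`exists_phase` with `D = 1`, `u = dg p θ`) or signs,
`E β (z u⋆) (u z') = ∑ i, β (z * p i) (p i * z')`. If `‖p i z⋆ z p i - t • p i‖ ≤ ε` then
`‖z p i‖² ‖p i‖₂² ≤ ‖z p i‖₂² + 2 ε ‖p i‖₂²`, so by `B1` (`p i * z' = p i * (p i * z')`) and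
Cauchy–Schwarz the sum is at most `C √(‖z‖₂² + 2 ε) ‖z'‖₂`. If `a` is central and self-adjoint with
`‖p i a p i - t i • p i‖ ≤ ε`, then `a' = ∑ t i • p i` has `‖a - a'‖ ≤ ε` and
`E β (z a' u⋆) (u z') = E β (z u⋆) (u a' z')`. `exists_partition` handles finitely many elements at
once; conclude with `Mn.exists_of_approx_norm` (a general central `a` is a combination of its
real and imaginary parts). -/
theorem exists_pre (hQ : Baer Q) :
    ∃ m : Mn (unitary Q),
      (∀ (τ : Tr Q) (β : Fm Q) (C : ℝ), 0 ≤ C → B1 τ β C → B2 τ (avg β m) C) ∧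
      ∀ (β : Fm Q) (C : ℝ), 0 ≤ C → B0 β C → ∀ a : Q, Cen a → ∀ z z',
        avg β m (z * a) z' = avg β m z (a * z') := by
  classical
  obtain ⟨m, hm⟩ := Mn.exists_of_approx_norm (X := unitary Q) (I := PreI Q) preF preF_bd
    (fun i => preB i 0) (fun s ε hε => by
      have hev : ∀ᶠ δ in nhds (0 : ℝ), ∀ i ∈ s, preB i δ < preB i 0 + ε :=
        (Filter.eventually_all_finset s).2 fun i _ =>
          (preB_cont i).continuousAt.eventually_lt_const (lt_add_of_pos_right _ hε)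
      obtain ⟨δ, hδ, hδ0⟩ := ((hev.filter_mono nhdsWithin_le_nhds).and
        (self_mem_nhdsWithin (s := Set.Ioi (0 : ℝ)))).exists
      have hδ0 : 0 < δ := hδ0
      obtain ⟨J, _, p, hp, hJ⟩ := exists_partition hQ (s.image preH) (fun a ha => by
        obtain ⟨i, -, rfl⟩ := Finset.mem_image.1 ha
        exact preH_sa i) hδ0
      obtain ⟨m, hm⟩ := pre_mean hp
      refine ⟨m, fun i hi => le_trans ?_ (hδ i hi).le⟩
      have hi' := hJ _ (Finset.mem_image_of_mem preH hi)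
      rcases i with q | q
      · have := pre_l2 q.2.1 q.2.2 hp q.1.2.2.2.1 q.1.2.2.2.2 hi'
        rw [← hm] at this
        exact this
      · have := pre_bal q.2.1 q.2.2.1 hp (hm _) q.2.2.2.1 hδ0.le hi' q.1.2.2.2.1 q.1.2.2.2.2
        rw [avg_apply, avg_apply, ← m.map_sub] at this
        exact this)
  refine ⟨m, fun τ β C hC h1 z z' => ?_, fun β C hC h0 a ha z z' => ?_⟩
  · have := hm (.inl ⟨(τ, β, C, z, z'), hC, h1⟩)
    simp only [preB, mul_zero, add_zero, Real.sqrt_sq (τ.n2_nonneg _)] at this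
    exact this
  · have key : ∀ a : Q, Cen a → IsSelfAdjoint a → avg β m (z * a) z' = avg β m z (a * z') := by
      intro a ha hs
      have := hm (.inr ⟨(β, C, a, z, z'), hC, h0, ha, hs⟩)
      simp only [preB, mul_zero, norm_le_zero_iff] at this
      rw [← sub_eq_zero, avg_apply, avg_apply, ← m.map_sub]
      exact this
    have hs := pre_cen_star ha
    have k1 := key (a + star a) (fun x => by rw [add_mul, mul_add, ha x, hs x])
      (IsSelfAdjoint.add_star_self a)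
    have k2 := key (Complex.I • (a - star a))
      (fun x => by rw [smul_mul_assoc, mul_smul_comm, sub_mul, mul_sub, ha x, hs x])
      (by
        rw [IsSelfAdjoint, star_smul, star_sub, star_star, Complex.star_def, Complex.conj_I,
          neg_smul, ← smul_neg, neg_sub])
    simp only [mul_add, add_mul, mul_sub, sub_mul, mul_smul_comm, smul_mul_assoc, map_add,
      map_sub, map_smul, LinearMap.add_apply, LinearMap.sub_apply, LinearMap.smul_apply,
      smul_eq_mul] at k1 k2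
    have k3 := mul_left_cancel₀ Complex.I_ne_zero
      (show Complex.I * (avg β m (z * a) z' - avg β m (z * star a) z')
        = Complex.I * (avg β m z (a * z') - avg β m z (star a * z')) by
          linear_combination k2)
    linear_combination (1 / 2 : ℂ) * k1 + (1 / 2 : ℂ) * k3

end Crest.Agent.R121
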