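import Crest.Agent.R121.Basic
import Crest.Agent.R124.Prob

/-! Row 121: the test functions. -/

set_option autoImplicit false

open scoped ComplexOrder InnerProductSpace ComplexConjugate

namespace Crest.Agent.R121

open Crest.Agent.R095 (Tr lt)
open Crest.Agent.R124

theorem test_Icc {V : Type*} [AddCommMonoid V] (f : ℕ → V) (K : ℕ) :
    ∑ k ∈ Finset.Icc 1 K, f k = ∑ k ∈ Finset.range K, f (k + 1) := by
  induction K with
  | zero => simp
  | succ K ih => rw [Finset.sum_Icc_succ_top (by omega), ih, Finset.sum_range_succ]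

theorem test_ex {Ω : Type} [Fintype Ω] {φ : Ω → ℂ} {D : ℕ}
    (hφ : ∀ r s : ℕ, r ≤ D → s ≤ D →
      ex (fun ω => conj (φ ω ^ r) * φ ω ^ s) = if r = s then 1 else 0)
    {n p q : ℕ} (hp : n + p ≤ D) (hq : n + q ≤ D) (c : ℕ → ℕ → ℂ) :
    ex (fun ω => ∑ i ∈ Finset.range n, ∑ j ∈ Finset.range n,
      (conj (φ ω ^ (i + p)) * φ ω ^ (j + q)) • c i j) =
      ∑ i ∈ Finset.range n, ∑ j ∈ Finset.range n, if i + p = j + q then c i j else 0 := by
  rw [ex_sum]
  refine Finset.sum_congr rfl fun i hi => ?_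
  rw [ex_sum]
  refine Finset.sum_congr rfl fun j hj => ?_
  rw [Finset.mem_range] at hi hj
  rw [ex_complex_smul_const, hφ _ _ (by omega) (by omega)]
  split_ifs <;> simp

theorem test_count {n k : ℕ} (hk : k ≤ n) (c : ℕ → ℕ → ℂ) (d : ℂ) (h : ∀ i, c i (i + k) = d) :
    (∑ i ∈ Finset.range n, ∑ j ∈ Finset.range n, if i + k = j + 0 then c i j else 0) =
      ((n : ℂ) - k) * d := by
  have h1 : ∀ i, (∑ j ∈ Finset.range n, if i + k = j + 0 then c i j else 0) =
      if i ∈ Finset.range (n - k) then d else 0 := by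
    intro i
    simp only [add_zero, Finset.sum_ite_eq, Finset.mem_range, h, Nat.lt_sub_iff_add_lt]
  simp only [h1]
  rw [Finset.sum_ite_mem, Finset.inter_eq_right.2 (Finset.range_subset_range.2 (Nat.sub_le _ _)),
    Finset.sum_const, Finset.card_range, nsmul_eq_mul, Nat.cast_sub hk]

/-- `∑_{j < J} (D_{2^j} - conj D_{2^j})`, `D_n z = n⁻¹ ∑_{k = 1}^n z ^ k`; for `z = exp (i t)`,
`|t| ≤ π`: `|im D_n z| ≤ min (n |t|) (π / (n |t|))`, and the dyadic sum of these is at most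
`2 + 2 π`. (Any other choice, e.g. `a k = 1 / k`, is fine.) -/
theorem exists_test :
    ∃ B : ℝ, ∀ J : ℕ, ∃ (K : ℕ) (a : ℕ → ℝ), (∀ k, 0 ≤ a k) ∧
      (J : ℝ) ≤ ∑ k ∈ Finset.Icc 1 K, a k ∧
      ∀ z : ℂ, ‖z‖ = 1 → ‖∑ k ∈ Finset.Icc 1 K, (a k : ℂ) * (z ^ k - conj z ^ k)‖ ≤ B := by
  refine ⟨2 * (Real.pi + 1), fun J => ?_⟩
  set r : ℝ := 1 - Real.exp (-((J : ℝ) + 1)) with hr
  have h0 : 0 < Real.exp (-((J : ℝ) + 1)) := Real.exp_pos _
  have h1 : Real.exp (-((J : ℝ) + 1)) ≤ 1 := Real.exp_le_one_iff.2 (neg_nonpos.2 (by positivity))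
  have hr0 : 0 ≤ r := by linarith
  have hr1 : |r| < 1 := by rw [abs_of_nonneg hr0]; linarith
  have hs := Real.hasSum_pow_div_log_of_abs_lt_one hr1
  rw [show 1 - r = Real.exp (-((J : ℝ) + 1)) by rw [hr]; ring, Real.log_exp, neg_neg] at hs
  obtain ⟨K, hK⟩ := (hs.tendsto_sum_nat.eventually (lt_mem_nhds (lt_add_one (J : ℝ)))).exists
  refine ⟨K, fun k => r ^ k / k, fun k => by positivity, ?_, fun z hz => ?_⟩
  · rw [test_Icc]
    push_cast
    exact hK.le
  · have hw : ‖(r : ℂ) * z‖ = r := by rw [norm_mul, hz, mul_one, Complex.norm_real, Real.norm_of_nonneg hr0]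
    have hs' := Complex.hasSum_taylorSeries_neg_log' (z := r * z) (by rw [hw]; exact lt_of_abs_lt hr1)
    have h2 := ((hasSum_nat_add_iff' K).2 hs').norm_le_of_bounded ((hasSum_nat_add_iff' K).2 hs)
      fun i => by
        rw [norm_div, norm_pow, hw]
        refine le_of_eq ?_
        congr 1
        exact_mod_cast Complex.norm_natCast (i + K + 1)
    set P := ∑ i ∈ Finset.range K, ((r : ℂ) * z) ^ (i + 1) / ((i : ℂ) + 1) with hP
    have h3 : ∑ k ∈ Finset.Icc 1 K, ((r ^ k / k : ℝ) : ℂ) * (z ^ k - conj z ^ k) = P - conj P := by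
      rw [test_Icc, hP, map_sum, ← Finset.sum_sub_distrib]
      refine Finset.sum_congr rfl fun i _ => ?_
      simp only [map_div₀, map_pow, map_mul, map_add, map_one, Complex.conj_ofReal, map_natCast]
      push_cast
      ring
    rw [h3, Complex.sub_conj, norm_mul, Complex.norm_I, mul_one, Complex.norm_real, Real.norm_eq_abs,
      abs_mul, abs_two]
    have h4 := Complex.abs_im_le_norm (-Complex.log (1 - r * z) - P)
    have h5 := Complex.abs_arg_le_pi (1 - r * z)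
    rw [Complex.sub_im, Complex.neg_im, Complex.log_im] at h4
    have h6 := abs_le.1 h5
    have h7 := abs_le.1 (h4.trans h2)
    refine mul_le_mul_of_nonneg_left (abs_le.2 ⟨?_, ?_⟩) (by norm_num) <;> linarith

variable {Q : Type*} [CStarAlgebra Q]

/-- Continuous functional calculus of the unitary `u` (spectrum in the unit circle). -/
theorem norm_test_le {K : ℕ} {a : ℕ → ℝ} {B : ℝ} (hB0 : 0 ≤ B)
    (hB : ∀ z : ℂ, ‖z‖ = 1 → ‖∑ k ∈ Finset.Icc 1 K, (a k : ℂ) * (z ^ k - conj z ^ k)‖ ≤ B) {u : Q}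
    (hu : u ∈ unitary Q) : ‖∑ k ∈ Finset.Icc 1 K, (a k : ℂ) • (u ^ k - star u ^ k)‖ ≤ B := by
  have hn := isStarNormal_of_mem_unitary hu
  have h := norm_cfc_le (f := ∑ k ∈ Finset.Icc 1 K, fun z : ℂ => (a k : ℂ) * (z ^ k - star z ^ k))
    (a := u) hB0 fun z hz => by
      rw [Finset.sum_apply]
      exact hB z (spectrum.norm_eq_one_of_unitary hu hz)
  rw [cfc_sum _ u] at h
  convert h using 3 with k
  rw [cfc_const_mul _ _ u, cfc_sub _ _ u, cfc_pow_id u, cfc_pow _ k u, cfc_star_id u]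

theorem test_pow {h : Q} (hh : h ∈ unitary Q) (i k : ℕ) : star (h ^ i) * h ^ (i + k) = h ^ k := by
  rw [pow_add, ← mul_assoc, Unitary.star_mul_self_of_mem (pow_mem hh i), one_mul]

theorem test_one (τ : Tr Q) {β : Fm Q} {C : ℝ} (hC : 0 ≤ C) (h1 : B1 τ β C) {K : ℕ}
    {a : ℕ → ℝ} {B : ℝ} (hB0 : 0 ≤ B)
    (hB : ∀ z : ℂ, ‖z‖ = 1 → ‖∑ k ∈ Finset.Icc 1 K, (a k : ℂ) * (z ^ k - conj z ^ k)‖ ≤ B)
    {n : ℕ} (hn : K ≤ n) {h : Q} (hh : h ∈ unitary Q) :
    ∑ k ∈ Finset.Icc 1 K, a k * ((n : ℝ) - k) *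
      ((gam β (h ^ k)).re + (gam (-β) (star h ^ k)).re) ≤ C * B * n := by
  obtain ⟨Ω, _, _, φ, hφ1, hφ⟩ := exists_roots (n + K)
  have hu : ∀ ω, φ ω • h ∈ unitary Q := fun ω => by
    have e : conj (φ ω) * φ ω = 1 := by
      rw [Complex.conj_mul', hφ1]; simp
    constructor
    · rw [star_smul, smul_mul_smul_comm, hh.1, Complex.star_def, e, one_smul]
    · rw [star_smul, smul_mul_smul_comm, hh.2, Complex.star_def, mul_comm, e, one_smul]
  set y : Ω → Q := fun ω => ∑ j ∈ Finset.range n, (φ ω • h) ^ j with hy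
  have hyy : ∀ ω, star (y ω) * y ω = ∑ i ∈ Finset.range n, ∑ j ∈ Finset.range n,
      (conj (φ ω ^ i) * φ ω ^ j) • (star (h ^ i) * h ^ j) := by
    intro ω
    simp only [hy, star_sum, Finset.sum_mul_sum, smul_pow, star_smul, smul_mul_smul_comm,
      Complex.star_def]
  have e1 : ex (fun ω => τ.n2 (y ω) ^ 2) = n := by
    simp only [τ.n2_sq]
    rw [← re_ex]
    have := test_ex hφ (n := n) (p := 0) (q := 0) (by omega) (by omega)
      fun i j => τ (star (h ^ i) * h ^ j)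
    rw [test_count (Nat.zero_le n) _ 1 fun i => by rw [test_pow hh, pow_zero, τ.map_one]] at this
    simp only [hyy, τ.map_sum, τ.map_smul]
    simp only [add_zero, smul_eq_mul] at this
    rw [this]
    simp
  have e2 : ex (fun ω => -β (∑ k ∈ Finset.Icc 1 K, (a k : ℂ) • ((φ ω • h) ^ k - star (φ ω • h) ^ k))
      (star (y ω) * y ω)) = ∑ k ∈ Finset.Icc 1 K, (a k : ℂ) * ((n : ℂ) - k) *
        (gam β (h ^ k) + gam (-β) (star h ^ k)) := by
    simp only [map_sum β, LinearMap.sum_apply, map_smul β, LinearMap.smul_apply,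
      ← Finset.sum_neg_distrib, ← smul_neg]
    rw [ex_sum]
    refine Finset.sum_congr rfl fun k hk => ?_
    have hk' : k ≤ K := (Finset.mem_Icc.1 hk).2
    rw [ex_complex_smul, smul_eq_mul, mul_assoc]
    congr 1
    have a1 := test_ex hφ (n := n) (p := k) (q := 0) (by omega) (by omega)
      fun i j => β (star (h ^ k)) (star (h ^ i) * h ^ j)
    have a2 := test_ex hφ (n := n) (p := 0) (q := k) (by omega) (by omega)
      fun i j => β (h ^ k) (star (h ^ i) * h ^ j)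
    rw [test_count (hk'.trans hn) _ (gam β (h ^ k)) fun i => by rw [test_pow hh, gam]] at a1
    rw [Finset.sum_comm] at a2
    simp only [eq_comm (a := _ + 0)] at a2
    rw [test_count (hk'.trans hn) (fun j i => β (h ^ k) (star (h ^ i) * h ^ j))
      (gam β (star h ^ k)) fun i => by
        have := congrArg star (test_pow hh i k)
        rw [star_mul, star_star] at this
        rw [this, gam, ← star_pow, star_star]] at a2
    rw [gam_neg, mul_add, mul_neg, ← sub_eq_add_neg, ← a1, ← a2, ← ex_sub]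
    refine ex_congr fun ω => ?_
    simp only [hyy, map_sum, map_smul, map_sub, LinearMap.sub_apply, ← star_pow, smul_pow,
      star_smul, LinearMap.smul_apply, smul_eq_mul, Complex.star_def, ← Finset.sum_sub_distrib,
      ← Finset.sum_neg_distrib]
    refine Finset.sum_congr rfl fun i _ => Finset.sum_congr rfl fun j _ => ?_
    simp only [pow_add, map_mul, pow_zero, map_one, map_pow]
    ring
  have e3 := congrArg Complex.re e2
  rw [re_ex] at e3
  calc _ = _ := ?_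
    _ = _ := e3.symm
    _ ≤ ex fun ω => C * B * τ.n2 (y ω) ^ 2 := ex_mono fun ω => ?_
    _ = _ := by rw [ex_mul_left, e1]
  · rw [Complex.re_sum]
    refine Finset.sum_congr rfl fun k _ => ?_
    rw [← Complex.add_re, ← Complex.re_ofReal_mul]
    push_cast
    rfl
  · refine (Complex.re_le_norm _).trans ?_
    rw [norm_neg]
    refine (h1 _ _ _).trans ?_
    rw [τ.n2_star, mul_assoc, ← sq]
    exact mul_le_mul_of_nonneg_right
      (mul_le_mul_of_nonneg_left (norm_test_le hB0 hB (hu ω)) hC) (sq_nonneg _)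

/-- Let `n = 2 K + 1`, `φ` random roots of unity (`exists_roots (n + K)`), `u = φ • h`,
`f = ∑ a k • (star u ^ k - u ^ k)`, `y = ∑_{j < n} u ^ j`. `‖β f (y⋆ y)‖ ≤ C B ‖y‖₂²` by `B1`, and
`E_φ ‖y‖₂² = n`. `E_φ β f (y⋆ y) = ∑ k, a k (n - k) (gam β (h ^ k) - gam β (star h ^ k))`
(expand `y⋆ y = ∑ i j, (u ^ i)⋆ u ^ j`; `conj φ ^ (k + i) φ ^ j` has mean `δ`). Average over `ω`,
`n - k ≥ n / 2`. -/
theorem test_ineq (τ : Tr Q) {β : Fm Q} {C : ℝ} (hC : 0 ≤ C) (h1 : B1 τ β C) {K : ℕ}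
    {a : ℕ → ℝ} {B : ℝ} (ha : ∀ k, 0 ≤ a k) (hB0 : 0 ≤ B)
    (hB : ∀ z : ℂ, ‖z‖ = 1 → ‖∑ k ∈ Finset.Icc 1 K, (a k : ℂ) * (z ^ k - conj z ^ k)‖ ≤ B)
    {Ω : Type} [Fintype Ω] [Nonempty Ω] {h : Ω → Q} (hh : ∀ ω, h ω ∈ unitary Q) {s t : ℝ}
    (hst : ∀ k, 1 ≤ k → k ≤ K → s ≤ ex (fun ω => (gam β (h ω ^ k)).re) ∧
      t ≤ ex fun ω => (gam (-β) (star (h ω) ^ k)).re) :
    (∑ k ∈ Finset.Icc 1 K, a k) * (s + t) ≤ 2 * B * C := by
  have hS : 0 ≤ ∑ k ∈ Finset.Icc 1 K, a k := Finset.sum_nonneg fun k _ => ha k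
  by_cases h0 : s + t ≤ 0
  · exact (mul_nonpos_of_nonneg_of_nonpos hS h0).trans (by positivity)
  have h2 := ex_le_const fun ω => test_one τ hC h1 hB0 hB (n := 2 * K + 1) (by omega) (hh ω)
  rw [ex_sum] at h2
  have h3 : ∑ k ∈ Finset.Icc 1 K, a k * ((K : ℝ) + 1) * (s + t) ≤ C * B * ((2 * K + 1 : ℕ) : ℝ) := by
    refine le_trans (Finset.sum_le_sum fun k hk => ?_) h2
    obtain ⟨k1, k2⟩ := Finset.mem_Icc.1 hk
    rw [ex_mul_left, ex_add]
    have k3 : (k : ℝ) ≤ K := by exact_mod_cast k2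
    refine mul_le_mul (mul_le_mul_of_nonneg_left ?_ (ha k))
      (add_le_add (hst k k1 k2).1 (hst k k1 k2).2) (not_le.1 h0).le (mul_nonneg (ha k) ?_) <;>
      push_cast <;> linarith [Nat.cast_nonneg (α := ℝ) K]
  rw [← Finset.sum_mul, ← Finset.sum_mul] at h3
  push_cast at h3
  have h4 : (0 : ℝ) < K + 1 := by positivity
  refine le_of_mul_le_mul_right ?_ h4
  nlinarith [mul_nonneg hC hB0]

end Crest.Agent.R121
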