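import Crest.Agent.R121.ExistsH
import Crest.Agent.R121.Test
import Crest.Agent.R121.Minimax
import Crest.Agent.R121.Pre

/-! Row 121: the type II₁ case. -/

set_option autoImplicit false

open scoped ComplexOrder InnerProductSpace ComplexConjugate

namespace Crest.Agent.R121

open Crest.Agent.R095 (Tr lt)
open Crest.Agent.R124

variable {Q : Type*} [CStarAlgebra Q] [PartialOrder Q] [StarOrderedRing Q]

section up

omit [PartialOrder Q] [StarOrderedRing Q]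

/-- The supremum of `re (gam β)` on the unitary group. -/
noncomputable def oscUp (β : Fm Q) : ℝ := ⨆ u : unitary Q, (gam β u).re

variable {β : Fm Q} {C : ℝ}

lemma osc_bdd (hC : 0 ≤ C) (h0 : B0 β C) :
    BddAbove (Set.range fun u : unitary Q => (gam β u).re) := by
  refine ⟨C, ?_⟩
  rintro _ ⟨u, rfl⟩
  exact (Complex.re_le_norm _).trans (h0.norm_gam_le hC u.2)

lemma le_oscUp (hC : 0 ≤ C) (h0 : B0 β C) {u : Q} (hu : u ∈ unitary Q) :
    (gam β u).re ≤ oscUp β := le_ciSup (osc_bdd hC h0) ⟨u, hu⟩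

lemma abs_oscUp_le (hC : 0 ≤ C) (h0 : B0 β C) : |oscUp β| ≤ C := by
  refine abs_le.2 ⟨le_trans ?_ (le_oscUp hC h0 (one_mem _)), ciSup_le fun u => ?_⟩
  · exact (abs_le.1 ((Complex.abs_re_le_norm _).trans (h0.norm_gam_le hC (one_mem _)))).1
  · exact (Complex.re_le_norm _).trans (h0.norm_gam_le hC u.2)

lemma osc_bd (hC : 0 ≤ C) (h0 : B0 β C) {u : Q} (hu : u ∈ unitary Q) :
    Bd fun v : unitary Q => gam β ((v : Q) * u) :=
  ⟨C, fun v => h0.norm_gam_le hC (mul_mem v.2 hu)⟩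

lemma oscUp_avg_le (hC : 0 ≤ C) (h0 : B0 β C) (m : Mn (unitary Q)) :
    oscUp (avg β m) ≤ oscUp β := by
  refine ciSup_le fun u => ?_
  rw [gam_avg]
  exact m.re_le (osc_bd hC h0 u.2) fun v => le_oscUp hC h0 (mul_mem v.2 u.2)

lemma up_of_oscUp (hC : 0 ≤ C) (h0 : B0 β C) {a : ℝ} (h : ∀ m, a ≤ oscUp (avg β m)) {ε : ℝ}
    (hε : 0 < ε) : Up β (a - ε) := by
  obtain ⟨Ω, _, _, s, hs⟩ := Mn.minimax (X := unitary Q) (Y := unitary Q)
    (fun v u => (gam β ((v : Q) * u)).re) (C := C)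
    (fun v u => (Complex.abs_re_le_norm _).trans (h0.norm_gam_le hC (mul_mem v.2 u.2))) (a := a)
    (fun m δ hδ => by
      obtain ⟨u, hu⟩ := exists_lt_of_lt_ciSup
        (show a - δ < oscUp (avg β m) from (sub_lt_self a hδ).trans_le (h m))
      refine ⟨u, hu.le.trans_eq ?_⟩
      rw [gam_avg, m.re_eq (osc_bd hC h0 u.2)]) hε
  exact ⟨Ω, inferInstance, inferInstance, fun ω => s ω, fun ω => (s ω).2,
    fun u hu => hs ⟨u, hu⟩⟩

lemma osc_small (τ : Tr Q) (hQ : Halving Q) (hC : 0 ≤ C) (h1 : B1 τ β C) (h2 : B2 τ β C) {δ : ℝ}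
    (hδ : 0 < δ) : ∃ m : Mn (unitary Q), oscUp (avg β m) + oscUp (-avg β m) ≤ δ := by
  by_contra hcon
  push Not at hcon
  have : Nonempty (Mn (unitary Q)) := ⟨Mn.pt 1⟩
  set ω₀ := ⨅ m : Mn (unitary Q), oscUp (avg β m) + oscUp (-avg β m) with hω
  have hb : BddBelow (Set.range fun m : Mn (unitary Q) =>
      oscUp (avg β m) + oscUp (-avg β m)) := ⟨δ, by rintro _ ⟨m, rfl⟩; exact (hcon m).le⟩
  have hω0 : δ ≤ ω₀ := le_ciInf fun m => (hcon m).le
  have hle : ∀ m, ω₀ ≤ oscUp (avg β m) + oscUp (-avg β m) := fun m => ciInf_le hb m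
  obtain ⟨ε, hε, hεδ⟩ : ∃ ε : ℝ, 0 < ε ∧ 12 * ε = δ := ⟨δ / 12, by positivity, by ring⟩
  obtain ⟨m₁, hm₁⟩ := exists_lt_of_ciInf_lt
    (f := fun m : Mn (unitary Q) => oscUp (avg β m) + oscUp (-avg β m))
    (lt_add_of_pos_right ω₀ hε)
  set β₁ := avg β m₁ with hβ₁
  have k1 : B1 τ β₁ C := h1.avg m₁
  have k2 : B2 τ β₁ C := h2.avg m₁
  have k0 : B0 β₁ C := k1.b0 hC
  have hm : ∀ m, ω₀ ≤ oscUp (avg β₁ m) + oscUp (avg (-β₁) m) := fun m => by
    rw [avg_neg, hβ₁, avg_avg]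
    exact hle _
  have hp : Up β₁ (oscUp β₁ - ε - ε) := up_of_oscUp hC k0 (fun m => by
    linarith [hm m, oscUp_avg_le hC k0.neg m]) hε
  have hn : Up (-β₁) (oscUp (-β₁) - ε - ε) := up_of_oscUp hC k0.neg (fun m => by
    linarith [hm m, oscUp_avg_le hC k0 m]) hε
  obtain ⟨B, hB⟩ := exists_test
  obtain ⟨J, hJ⟩ := exists_nat_gt (2 * B * C / (6 * ε))
  obtain ⟨K, a, ha0, haJ, ha⟩ := hB J
  have hB0 : 0 ≤ B := (norm_nonneg _).trans (ha 1 (by simp))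
  have e1 := abs_le.1 (abs_oscUp_le hC k0)
  have e2 := abs_le.1 (abs_oscUp_le hC k0.neg)
  obtain ⟨Ω, _, _, h, hh, hk⟩ := exists_h τ hQ hC k1 k2 (C' := C + 2 * ε) (by linarith)
    (abs_le.2 ⟨by linarith [e1.1], by linarith [e1.2]⟩)
    (abs_le.2 ⟨by linarith [e2.1], by linarith [e2.2]⟩) hp hn K hε
  have ht := test_ineq τ hC k1 ha0 hB0 ha hh hk
  have h3 : 6 * ε ≤ oscUp β₁ - ε - ε - ε + (oscUp (-β₁) - ε - ε - ε) := by linarith [hle m₁]
  have h4 : (J : ℝ) * (6 * ε) ≤ 2 * B * C :=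
    le_trans (mul_le_mul haJ h3 (by positivity) (Finset.sum_nonneg fun k _ => ha0 k)) ht
  rw [div_lt_iff₀ (by positivity)] at hJ
  linarith

theorem flat_re (τ : Tr Q) (hQ : Halving Q) {β : Fm Q} {C : ℝ} (hC : 0 ≤ C) (h1 : B1 τ β C)
    (h2 : B2 τ β C) :
    ∃ m : Mn (unitary Q), ∀ u ∈ unitary Q, (gam (avg β m) u).re = (gam (avg β m) 1).re := by
  have h0 := h1.b0 hC
  obtain ⟨m, hm⟩ := Mn.exists_of_approx (X := unitary Q) (I := unitary Q × unitary Q)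
    (fun q v => gam β ((v : Q) * q.1) - gam β ((v : Q) * q.2))
    (fun q => ⟨C + C, fun v => (norm_sub_le _ _).trans (add_le_add
      (h0.norm_gam_le hC (mul_mem v.2 q.1.2)) (h0.norm_gam_le hC (mul_mem v.2 q.2.2)))⟩)
    (fun s ε hε => by
      obtain ⟨m, hm⟩ := osc_small τ hQ hC h1 h2 hε
      refine ⟨m, fun q _ => ?_⟩
      rw [m.map_sub, ← gam_avg, ← gam_avg, Complex.sub_re]
      have e1 := le_oscUp hC (h0.avg m) q.1.2
      have e2 := le_oscUp hC (h0.avg m).neg q.2.2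
      rw [gam_neg, Complex.neg_re] at e2
      linarith)
  refine ⟨m, fun u hu => ?_⟩
  have e1 := hm (⟨u, hu⟩, 1)
  have e2 := hm (1, ⟨u, hu⟩)
  rw [m.map_sub, ← gam_avg, ← gam_avg, Complex.sub_re] at e1 e2
  simp only [OneMemClass.coe_one] at e1 e2
  linarith

end up

theorem flat_II (hB : Baer Q) (hQ : Halving Q) (τ : Tr Q) {β : Fm Q} {C : ℝ} (hC : 0 ≤ C)
    (h1 : B1 τ β C) : ∃ m : Mn (unitary Q), Flat (avg β m) := by
  obtain ⟨m₀, hm₀, -⟩ := exists_pre hB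
  have k1 := h1.avg m₀
  have k2 := hm₀ τ β C hC h1
  obtain ⟨m₁, hm₁⟩ := flat_re τ hQ hC k1 k2
  obtain ⟨m₂, hm₂⟩ := flat_re τ hQ hC ((k1.avg m₁).smul (c := Complex.I) (by simp))
    ((k2.avg m₁).smul (c := Complex.I) (by simp))
  refine ⟨conv (conv m₀ m₁) m₂, fun u hu => ?_⟩
  rw [← avg_avg, ← avg_avg]
  set β₁ := avg (avg β m₀) m₁ with hβ₁
  have k0 : B0 β₁ C := (k1.avg m₁).b0 hC
  apply Complex.ext
  · have key : ∀ w ∈ unitary Q, (gam (avg β₁ m₂) w).re = (gam β₁ 1).re := fun w hw => by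
      rw [gam_avg]
      exact le_antisymm (m₂.re_le (osc_bd hC k0 hw) fun v => (hm₁ _ (mul_mem v.2 hw)).le)
        (m₂.le_re (osc_bd hC k0 hw) fun v => (hm₁ _ (mul_mem v.2 hw)).ge)
    rw [key u hu, key 1 (one_mem _)]
  · have := hm₂ u hu
    rw [avg_smul] at this
    simpa [gam] using this

end Crest.Agent.R121
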