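import Crest.Agent.R121.Defs
import Crest.Agent.R124.VN

/-! Row 121: weak-operator averages. -/

set_option autoImplicit false

open scoped ComplexOrder InnerProductSpace ComplexConjugate

namespace Crest.Agent.R121

open Crest.Agent.R095 (Tr lt)
open Crest.Agent.R124

variable {X : Type*} {A : Type*} [CStarAlgebra A]
variable {K : Type*} [NormedAddCommGroup K] [InnerProductSpace ℂ K] [CompleteSpace K]
variable {ι : A →⋆ₐ[ℂ] (K →L[ℂ] K)}

lemma IsVN.ext_inner (hι : IsVN ι) {a b : A} (h : ∀ η ξ : K, ⟪η, ι a ξ⟫_ℂ = ⟪η, ι b ξ⟫_ℂ) :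
    a = b :=
  hι.inj (ContinuousLinearMap.ext fun ξ => ext_inner_left ℂ fun η => h η ξ)

lemma IsVN.norm_map (hι : IsVN ι) (a : A) : ‖ι a‖ = ‖a‖ :=
  NonUnitalStarAlgHom.norm_map ι hι.inj a

lemma IsVN.norm_le_of_inner (hι : IsVN ι) {a : A} {C : ℝ} (hC : 0 ≤ C)
    (h : ∀ η ξ : K, ‖⟪η, ι a ξ⟫_ℂ‖ ≤ C * ‖η‖ * ‖ξ‖) : ‖a‖ ≤ C := by
  rw [← IsVN.norm_map hι]
  refine ContinuousLinearMap.opNorm_le_bound _ hC fun ξ => ?_
  have h1 := h (ι a ξ) ξ
  rw [inner_self_eq_norm_sq_to_K, norm_pow, RCLike.norm_ofReal, abs_norm, sq] at h1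
  rcases (norm_nonneg (ι a ξ)).eq_or_lt with h0 | h0
  · rw [← h0]; positivity
  · exact le_of_mul_le_mul_left (by linarith) h0

/-- A bounded sesquilinear form is given by an operator `T` (Riesz: `InnerProductSpace.toDual`);
`T` commutes with the commutant; use `hι.bic`. -/
theorem IsVN.exists_of_form (hι : IsVN ι) (B : K →ₗ⋆[ℂ] K →ₗ[ℂ] ℂ) {C : ℝ}
    (hB : ∀ η ξ, ‖B η ξ‖ ≤ C * ‖η‖ * ‖ξ‖)
    (hcomm : ∀ S : K →L[ℂ] K, (∀ a, S * ι a = ι a * S) → ∀ η ξ, B η (S ξ) = B (star S η) ξ) :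
    ∃ a : A, ∀ η ξ, ⟪η, ι a ξ⟫_ℂ = B η ξ := by
  obtain ⟨T, hT⟩ : ∃ T : K →L[ℂ] K, ∀ η ξ, ⟪η, T ξ⟫_ℂ = B η ξ :=
    ⟨ContinuousLinearMap.adjoint
      (InnerProductSpace.continuousLinearMapOfBilin (B.mkContinuous₂ C hB)), fun η ξ => by
        rw [ContinuousLinearMap.adjoint_inner_right,
          InnerProductSpace.continuousLinearMapOfBilin_apply, LinearMap.mkContinuous₂_apply]⟩
  obtain ⟨a, ha⟩ := hι.bic T fun S hS => ContinuousLinearMap.ext fun ξ =>
    ext_inner_left ℂ fun η => by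
      rw [ContinuousLinearMap.mul_apply, ContinuousLinearMap.mul_apply, hT, hcomm S hS, ← hT,
        ContinuousLinearMap.star_eq_adjoint, ContinuousLinearMap.adjoint_inner_left]
  exact ⟨a, fun η ξ => by rw [ha, hT]⟩

lemma wmean_norm_inner_le (hι : IsVN ι) {a : A} {C : ℝ} (h : ‖a‖ ≤ C) (η ξ : K) :
    ‖⟪η, ι a ξ⟫_ℂ‖ ≤ C * ‖η‖ * ‖ξ‖ := by
  refine (norm_inner_le_norm _ _).trans ?_
  have h1 : ‖ι a ξ‖ ≤ C * ‖ξ‖ := ((ι a).le_opNorm ξ).trans
    (mul_le_mul_of_nonneg_right (by rw [IsVN.norm_map hι]; exact h) (norm_nonneg _))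
  calc ‖η‖ * ‖ι a ξ‖ ≤ ‖η‖ * (C * ‖ξ‖) := mul_le_mul_of_nonneg_left h1 (norm_nonneg _)
    _ = _ := by ring

lemma wmean_exists (hι : IsVN ι) (m : Mn X) {F : X → A} (hF : Bd F) :
    ∃ a : A, ∀ η ξ : K, ⟪η, ι a ξ⟫_ℂ = m fun x => ⟪η, ι (F x) ξ⟫_ℂ := by
  obtain ⟨C, hC⟩ := hF
  refine IsVN.exists_of_form hι (LinearMap.mk₂'ₛₗ (starRingEnd ℂ) (RingHom.id ℂ)
    (fun η ξ => m fun x => ⟪η, ι (F x) ξ⟫_ℂ)
    (fun η η' ξ => by simp only [inner_add_left, m.map_add])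
    (fun c η ξ => by simp only [inner_smul_left, m.map_mul_left, smul_eq_mul])
    (fun η ξ ξ' => by simp only [map_add, inner_add_right, m.map_add])
    (fun c η ξ => by
      simp only [map_smul, inner_smul_right, m.map_mul_left, smul_eq_mul, RingHom.id_apply]))
    (C := C) (fun η ξ => m.norm_le fun x => wmean_norm_inner_le hι (hC x) η ξ) fun S hS η ξ => ?_
  simp only [LinearMap.mk₂'ₛₗ_apply]
  congr 1
  funext x
  rw [ContinuousLinearMap.star_eq_adjoint, ContinuousLinearMap.adjoint_inner_left,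
    ← ContinuousLinearMap.mul_apply, ← hS, ContinuousLinearMap.mul_apply]

/-- The bounded functions. -/
def wmeanBd (X A : Type*) [CStarAlgebra A] : Submodule ℂ (X → A) where
  carrier := {F | Bd F}
  add_mem' := by
    rintro F G ⟨C, hC⟩ ⟨D, hD⟩
    exact ⟨C + D, fun x => (norm_add_le _ _).trans (add_le_add (hC x) (hD x))⟩
  zero_mem' := ⟨0, fun _ => by simp⟩
  smul_mem' := by
    rintro c F ⟨C, hC⟩
    exact ⟨‖c‖ * C, fun x => (norm_smul_le c (F x)).trans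
      (mul_le_mul_of_nonneg_left (hC x) (norm_nonneg _))⟩

/-- For bounded `F` apply `exists_of_form` to `(η, ξ) ↦ m ⟪η, ι (F x) ξ⟫` (`Mn.norm_le`); by
`ext_inner` the element depends linearly on `F` in the submodule of bounded functions; extend
(`LinearMap.exists_extend`). -/
theorem IsVN.exists_isW (hι : IsVN ι) (m : Mn X) : ∃ W : (X → A) →ₗ[ℂ] A, IsW ι m W := by
  choose a ha using fun F : wmeanBd X A => wmean_exists hι m (F := F.1) F.2
  let W₀ : wmeanBd X A →ₗ[ℂ] A :=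
    { toFun := a
      map_add' := fun F G => IsVN.ext_inner hι fun η ξ => by
        simp only [ha, map_add, ContinuousLinearMap.add_apply, inner_add_right, Submodule.coe_add,
          Pi.add_apply, m.map_add]
      map_smul' := fun c F => IsVN.ext_inner hι fun η ξ => by
        simp only [ha, map_smul, ContinuousLinearMap.smul_apply, inner_smul_right,
          Submodule.coe_smul, Pi.smul_apply, m.map_mul_left, RingHom.id_apply] }
  obtain ⟨W, hW⟩ := LinearMap.exists_extend W₀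
  refine ⟨W, fun F hF η ξ => ?_⟩
  have : W F = a ⟨F, hF⟩ := LinearMap.congr_fun hW ⟨F, hF⟩
  rw [this, ha]

theorem IsW.avg (hι : IsVN ι) {m : Mn X} {W : (X → A) →ₗ[ℂ] A} (hW : IsW ι m W) : Avg W := by
  refine ⟨fun a => ?_, fun F C hC => ?_, fun a F hF => ?_, fun a F hF => ?_⟩
  · refine IsVN.ext_inner hι fun η ξ => ?_
    rw [hW _ ⟨‖a‖, fun _ => le_rfl⟩, m.map_const]
  · have h0 : 0 ≤ C := (norm_nonneg _).trans
      (m.norm_le (f := fun _ => 0) fun x => by simpa using (norm_nonneg _).trans (hC x))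
    refine IsVN.norm_le_of_inner hι h0 fun η ξ => ?_
    rw [hW F ⟨C, hC⟩]
    exact m.norm_le fun x => wmean_norm_inner_le hι (hC x) η ξ
  · obtain ⟨C, hC⟩ := id hF
    refine IsVN.ext_inner hι fun η ξ => ?_
    rw [hW _ ⟨‖a‖ * C, fun x => (norm_mul_le _ _).trans
      (mul_le_mul_of_nonneg_left (hC x) (norm_nonneg _))⟩]
    simp only [map_mul, ContinuousLinearMap.mul_apply, ← ContinuousLinearMap.adjoint_inner_left (ι a)]
    rw [hW F hF]
  · obtain ⟨C, hC⟩ := id hF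
    refine IsVN.ext_inner hι fun η ξ => ?_
    rw [hW _ ⟨C * ‖a‖, fun x => (norm_mul_le _ _).trans
      (mul_le_mul_of_nonneg_right (hC x) (norm_nonneg _))⟩]
    simp only [map_mul, ContinuousLinearMap.mul_apply]
    rw [hW F hF]

/-- Two bounded families with the same scalar means have the same average. -/
theorem IsW.congr (hι : IsVN ι) {m : Mn X} {W : (X → A) →ₗ[ℂ] A} (hW : IsW ι m W) {F G : X → A}
    (hF : Bd F) (hG : Bd G)
    (h : ∀ η ξ : K, m (fun x => ⟪η, ι (F x) ξ⟫_ℂ) = m fun x => ⟪η, ι (G x) ξ⟫_ℂ) : W F = W G :=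
  IsVN.ext_inner hι fun η ξ => by rw [hW F hF, hW G hG, h]

end Crest.Agent.R121
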