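import Crest.Agent.R121.Sup
import Crest.Agent.R121.WMean

/-! Row 121: the return channel. -/

set_option autoImplicit false

open scoped ComplexOrder InnerProductSpace ComplexConjugate

namespace Crest.Agent.R121

open Crest.Agent.R095 (Tr lt)
open Crest.Agent.R124

variable {A : Type*} [CStarAlgebra A] [PartialOrder A] [StarOrderedRing A]
variable {K : Type*} [NormedAddCommGroup K] [InnerProductSpace ℂ K] [CompleteSpace K]
variable {ι : A →⋆ₐ[ℂ] (K →L[ℂ] K)}

omit [PartialOrder A] [StarOrderedRing A] in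
/-- Convex combinations of Kraus families: index `Σ ω, (P ω).I`, operators `√(w ω) • m`. -/
theorem Kr.exists_convex {Ω : Type} [Fintype Ω] (P : Ω → Kr A) (w : Ω → ℝ) (hw : ∀ ω, 0 ≤ w ω)
    (hw1 : ∑ ω, w ω = 1) :
    ∃ R : Kr A, (∀ y, R.ch y = ∑ ω, w ω • (P ω).ch y) ∧
      ∀ T : A → A, IsLinearMap ℂ T → ∀ x, R.act T x = ∑ ω, w ω • (P ω).act T x := by
  have hs : ∀ ω, √(w ω) * √(w ω) = w ω := fun ω => Real.mul_self_sqrt (hw ω)
  refine ⟨⟨Σ ω, (P ω).I, fun q => √(w q.1) • (P q.1).m q.2, ?_⟩, fun y => ?_, fun T hT x => ?_⟩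
  · simp only [Fintype.sum_sigma, star_smul, star_trivial, smul_mul_smul_comm, hs,
      ← Finset.smul_sum, Kr.sum, ← Finset.sum_smul, hw1, one_smul]
  · simp only [Kr.ch, Fintype.sum_sigma, star_smul, star_trivial, smul_mul_assoc, mul_smul_comm,
      smul_smul, hs, Finset.smul_sum]
  · have hT' : ∀ (c : ℝ) (y : A), T (c • y) = c • T y := fun c y => by
      rw [← Complex.coe_smul, hT.map_smul, Complex.coe_smul]
    simp only [Kr.act, Fintype.sum_sigma, star_smul, star_trivial, smul_mul_assoc, mul_smul_comm,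
      hT', smul_smul, hs, Finset.smul_sum]

/-- The vector functional. -/
noncomputable def returnFn (ι : A →⋆ₐ[ℂ] (K →L[ℂ] K)) (η ζ : K) : A →L[ℂ] ℂ :=
  LinearMap.mkContinuous
    { toFun := fun y => ⟪η, ι y ζ⟫_ℂ
      map_add' := fun x y => by simp [inner_add_right]
      map_smul' := fun c y => by simp [inner_smul_right] }
    (‖η‖ * ‖ζ‖) fun y => by
      refine (norm_inner_le_norm _ _).trans ?_
      have h1 := (ι y).le_opNorm ζ
      have h2 := mul_le_mul_of_nonneg_right (NonUnitalStarAlgHom.norm_apply_le ι y) (norm_nonneg ζ)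
      have h3 := mul_le_mul_of_nonneg_left (h1.trans h2) (norm_nonneg η)
      linarith

lemma returnFn_apply (η ζ : K) (y : A) : returnFn ι η ζ y = ⟪η, ι y ζ⟫_ℂ := rfl

lemma norm_returnFn_le (η ζ : K) : ‖returnFn ι η ζ‖ ≤ ‖η‖ * ‖ζ‖ :=
  LinearMap.mkContinuous_norm_le _ (by positivity) _

lemma return_exists (hι : IsVN ι) (Λ : (A →L[ℂ] ℂ) →L[ℂ] ℂ) :
    ∃ a : A, ∀ η ζ, ⟪η, ι a ζ⟫_ℂ = Λ (returnFn ι η ζ) := by
  refine IsVN.exists_of_form hι (LinearMap.mk₂'ₛₗ (starRingEnd ℂ) (RingHom.id ℂ)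
    (fun η ζ => Λ (returnFn ι η ζ)) ?_ ?_ ?_ ?_) (C := ‖Λ‖) (fun η ζ => ?_) fun S hS η ζ => ?_
  · intro a b c
    rw [← map_add]; congr 1; ext y; simp [returnFn_apply, inner_add_left]
  · intro c a b
    rw [← map_smul]; congr 1; ext y; simp [returnFn_apply, inner_smul_left, mul_comm]
  · intro a b c
    rw [← map_add]; congr 1; ext y; simp [returnFn_apply, inner_add_right]
  · intro c a b
    rw [← map_smul]; congr 1; ext y; simp [returnFn_apply, inner_smul_right]
  · rw [mul_assoc]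
    exact (Λ.le_opNorm _).trans
      (mul_le_mul_of_nonneg_left (norm_returnFn_le η ζ) (norm_nonneg _))
  · simp only [LinearMap.mk₂'ₛₗ_apply]
    congr 1; ext y
    rw [returnFn_apply, returnFn_apply, ContinuousLinearMap.star_eq_adjoint,
      ContinuousLinearMap.adjoint_inner_left, ← ContinuousLinearMap.mul_apply, ← hS,
      ContinuousLinearMap.mul_apply]

omit [PartialOrder A] [StarOrderedRing A] in
lemma return_re {J : Type*} [Fintype J] (ξ : J → K) (a : A) :
    (vs ι ξ ((2⁻¹ : ℂ) • (a + star a))).re = (vs ι ξ a).re := by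
  have h : ∀ j, (⟪ξ j, ι ((2⁻¹ : ℂ) • (a + star a)) (ξ j)⟫_ℂ).re = (⟪ξ j, ι a (ξ j)⟫_ℂ).re := by
    intro j
    have h1 : ⟪ξ j, ι (star a) (ξ j)⟫_ℂ = conj ⟪ξ j, ι a (ξ j)⟫_ℂ := by
      rw [map_star, ContinuousLinearMap.star_eq_adjoint, ContinuousLinearMap.adjoint_inner_right,
        inner_conj_symm]
    rw [map_smul, map_add, ContinuousLinearMap.smul_apply, ContinuousLinearMap.add_apply,
      inner_smul_right, inner_add_right, h1, Complex.add_conj]
    simp
  simp only [vs, Complex.re_sum, h]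

/-- In the dual space `A →L[ℂ] ℂ` the set `C` of functionals `y ↦ vs ξ' (Q.ch y)` is convex
(`Kr.exists_convex`). If `ω = vs ξ` is not in its closure, Hahn–Banach
(`RCLike.geometric_hahn_banach_closed_point`) gives `Λ` and `u` with `re Λ c < u < re Λ ω` on `C`.
`(η, ζ) ↦ Λ (y ↦ ⟪η, ι y ζ⟫)` is a bounded sesquilinear form compatible with the commutant, so
`IsVN.exists_of_form` gives `a` with `Λ (y ↦ ⟪η, ι y ζ⟫) = ⟪η, ι a ζ⟫`; hence `Λ ω = vs ξ a` and
`Λ (vs ξ' ∘ Q.ch) = vs ξ' (Q.ch a)` (`vs_ch`). The real parts only depend on `h = ℜ a`;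
contradiction with `exists_ch_ge`. -/
theorem exists_return (hι : IsVN ι) {J J' : Type*} [Fintype J] [Fintype J'] (ξ : J → K)
    (ξ' : J' → K) (hcen : ∀ z : A, IsStarProjection z → Cen z → vs ι ξ z = vs ι ξ' z) {η : ℝ}
    (hη : 0 < η) : ∃ Q : Kr A, ∀ y, ‖vs ι ξ' (Q.ch y) - vs ι ξ y‖ ≤ η * ‖y‖ := by
  let F : Kr A → (A →L[ℂ] ℂ) := fun Q =>
    ∑ q : J' × Q.I, returnFn ι (ι (Q.m q.2) (ξ' q.1)) (ι (Q.m q.2) (ξ' q.1))
  have hF : ∀ Q y, F Q y = vs ι ξ' (Q.ch y) := fun Q y => by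
    simp only [F, ContinuousLinearMap.sum_apply, returnFn_apply, vs_ch]
    rfl
  let ω : A →L[ℂ] ℂ := ∑ j, returnFn ι (ξ j) (ξ j)
  have hω : ∀ y, ω y = vs ι ξ y := fun y => by
    simp only [ω, ContinuousLinearMap.sum_apply, returnFn_apply, vs]
  have hconv : Convex ℝ (Set.range F) := by
    rintro _ ⟨P, rfl⟩ _ ⟨Q, rfl⟩ a b ha hb hab
    obtain ⟨R, hR, -⟩ := Kr.exists_convex (fun i : Bool => if i then P else Q)
      (fun i => if i then a else b) (fun i => by cases i <;> simpa) (by simpa using hab)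
    refine ⟨R, ?_⟩
    ext y
    have hv : ∀ (c : ℝ) (x : A), vs ι ξ' (c • x) = c • vs ι ξ' x := fun c x => by
      rw [← Complex.coe_smul, ← Complex.coe_smul]
      simp only [vs, map_smul, ContinuousLinearMap.smul_apply, inner_smul_right, smul_eq_mul,
        Finset.mul_sum]
    have hv' : ∀ x x' : A, vs ι ξ' (x + x') = vs ι ξ' x + vs ι ξ' x' := fun x x' => by
      simp only [vs, map_add, ContinuousLinearMap.add_apply, inner_add_right,
        Finset.sum_add_distrib]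
    simp only [hF, hR, Fintype.sum_bool, if_true, hv', hv, ContinuousLinearMap.add_apply,
      ContinuousLinearMap.smul_apply, Bool.false_eq_true, if_false]
  have hcl : ω ∈ closure (Set.range F) := by
    by_contra hn
    obtain ⟨Λ, u, h1, h2⟩ := RCLike.geometric_hahn_banach_closed_point (𝕜 := ℂ) hconv.closure
      isClosed_closure hn
    obtain ⟨a, ha⟩ := return_exists hι Λ
    have e1 : Λ ω = vs ι ξ a := by simp only [ω, map_sum, ← ha, vs]
    have e2 : ∀ Q, Λ (F Q) = vs ι ξ' (Q.ch a) := fun Q => by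
      simp only [F, map_sum, ← ha, vs_ch]
      rfl
    have hh : IsSelfAdjoint ((2⁻¹ : ℂ) • (a + star a)) := by
      rw [IsSelfAdjoint, star_smul, star_add, star_star, add_comm]
      simp
    obtain ⟨Q, hQ⟩ := exists_ch_ge hι ξ ξ' hcen hh (ε := (Λ ω).re - u) (sub_pos.2 h2)
    have h3 := h1 (F Q) (subset_closure ⟨Q, rfl⟩)
    rw [vs_ch, return_re, return_re, ← vs_ch, ← e1, ← e2] at hQ
    have h4 : (Λ (F Q)).re < u := h3
    linarith
  obtain ⟨_, ⟨Q, rfl⟩, hQ⟩ := Metric.mem_closure_iff.1 hcl η hη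
  refine ⟨Q, fun y => ?_⟩
  rw [← hF, ← hω, ← ContinuousLinearMap.sub_apply]
  refine ((F Q - ω).le_opNorm y).trans (mul_le_mul_of_nonneg_right ?_ (norm_nonneg _))
  rw [← dist_eq_norm, dist_comm]
  exact hQ.le

end Crest.Agent.R121
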