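import Crest.Agent.R121.Defs
import Crest.Agent.R124.VN
import Crest.Agent.R124.TrIneq

/-! Row 121: extension of a trace from a corner. -/

set_option autoImplicit false

open scoped ComplexOrder InnerProductSpace ComplexConjugate

namespace Crest.Agent.R121

open Crest.Agent.R095 (Tr lt)
open Crest.Agent.R124

variable {A : Type*} [CStarAlgebra A] [PartialOrder A] [StarOrderedRing A]
variable {K : Type*} [NormedAddCommGroup K] [InnerProductSpace ℂ K] [CompleteSpace K]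
variable {ι : A →⋆ₐ[ℂ] (K →L[ℂ] K)}

omit [PartialOrder A] [StarOrderedRing A] in
lemma le_of_sq_le_sq' {a b : ℝ} (h : a ^ 2 ≤ b ^ 2) (hb : 0 ≤ b) : a ≤ b :=
  le_of_pow_le_pow_left₀ two_ne_zero hb h

/-- `τ₀ x = ∑ i, τ (comp (star (w i) * x * w i))` is tracial and positive; `τ₀ 1 ≥ τ (g c) > 0`
because `ι (g c) k = ι c k ≠ 0`; normalise. `‖x c k‖² = ∑ i, ‖(w i)⋆ x g c k‖²
≤ C ∑ i, τ (g c x⋆ w i (w i)⋆ x g c) = C τ ((w 0)⋆ x⋆ x w 0) ≤ C τ₀ (x⋆ x)`. -/
theorem td_of_cover {c g : A} (hc : IsStarProjection c) (hcc : Cen c) (hg : IsStarProjection g)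
    {n : ℕ} {w : Fin (n + 1) → A} (hw : Cover c g w) {k : K} (hgk : ι g k = k) (hk : ι c k ≠ 0)
    (τ : Tr (Cn hg)) {C : ℝ} (hC : 0 ≤ C) (hτ : ∀ y : Cn hg, ‖ι y.val k‖ ^ 2 ≤ C * τ.n2 y ^ 2) :
    TD ι (ι c k) := by
  let τ₀ : A →ₗ[ℂ] ℂ :=
    { toFun := fun x => ∑ i, τ (Cn.comp hg (star (w i) * x * w i))
      map_add' := fun x y => by
        rw [← Finset.sum_add_distrib]
        refine Finset.sum_congr rfl fun i _ => ?_
        rw [← τ.map_add]
        congr 1
        exact Cn.ext (by simp [mul_add, add_mul])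
      map_smul' := fun a x => by
        rw [RingHom.id_apply, Finset.smul_sum]
        refine Finset.sum_congr rfl fun i _ => ?_
        rw [smul_eq_mul, ← τ.map_smul]
        congr 1
        exact Cn.ext (by simp) }
  have hτ₀ : ∀ x, τ₀ x = ∑ i, τ (Cn.comp hg (star (w i) * x * w i)) := fun _ => rfl
  have hgw : ∀ i, g * star (w i) = star (w i) := fun i => by
    have := congrArg star (hw.mul_g i)
    rwa [star_mul, hg.isSelfAdjoint.star_eq] at this
  have hval : ∀ i j x, (Cn.comp hg (star (w i) * x * w j)).val = star (w i) * x * w j :=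
    fun i j x => by
      rw [Cn.val_comp, ← mul_assoc, ← mul_assoc, hgw, mul_assoc, hw.mul_g]
  have hmul : ∀ i j x y, Cn.comp hg (star (w i) * (x * y) * w j)
      = ∑ l, Cn.comp hg (star (w i) * x * w l) * Cn.comp hg (star (w l) * y * w j) := by
    intro i j x y
    apply Cn.ext
    simp only [Cn.val_sum, Cn.val_mul, hval]
    have : ∀ l, star (w i) * x * w l * (star (w l) * y * w j)
        = star (w i) * x * (w l * star (w l)) * (y * w j) := fun l => by noncomm_ring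
    simp only [this]
    rw [← Finset.sum_mul, ← Finset.mul_sum, hw.sum, mul_assoc _ c, ← mul_assoc c, hcc y,
      mul_assoc y, hw.c_mul]
    noncomm_ring
  have hstar : ∀ i j x, star (Cn.comp hg (star (w i) * x * w j))
      = Cn.comp hg (star (w j) * star x * w i) := fun i j x =>
    Cn.ext (by rw [Cn.val_star, hval, hval]; simp only [star_mul, star_star, mul_assoc])
  have hsq : ∀ x, τ₀ (star x * x)
      = ((∑ i, ∑ l, τ.n2 (Cn.comp hg (star (w l) * x * w i)) ^ 2 : ℝ) : ℂ) := fun x => by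
    rw [hτ₀]
    push_cast
    refine Finset.sum_congr rfl fun i _ => ?_
    rw [hmul, τ.map_sum]
    refine Finset.sum_congr rfl fun l _ => ?_
    rw [τ.n2_sq_complex, hstar]
  have hck : ι (w 0) k = ι c k := by
    rw [hw.zero, ← hcc g, vn_mul_apply, hgk]
  have hdom : ∀ x, ‖ι x (ι c k)‖ ^ 2
      ≤ C * ∑ i, ∑ l, τ.n2 (Cn.comp hg (star (w l) * x * w i)) ^ 2 := fun x => by
    have h1 : ‖ι x (ι c k)‖ ^ 2 = ∑ l, ‖ι (star (w l) * x * w 0) k‖ ^ 2 := by
      rw [← hck, ← vn_mul_apply, ← vn_norm_sq]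
      simp only [← vn_norm_sq]
      rw [← Complex.re_sum, ← sum_inner, ← sum_apply, ← map_sum]
      congr 4
      have : ∀ l, star (star (w l) * x * w 0) * (star (w l) * x * w 0)
          = star (x * w 0) * (w l * star (w l)) * (x * w 0) := fun l => by
        simp only [star_mul, star_star]; noncomm_ring
      simp only [this]
      rw [← Finset.sum_mul, ← Finset.mul_sum, hw.sum, mul_assoc _ c, ← mul_assoc c, hcc x,
        mul_assoc x, hw.c_mul]
    rw [h1]
    calc ∑ l, ‖ι (star (w l) * x * w 0) k‖ ^ 2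
        ≤ ∑ l, C * τ.n2 (Cn.comp hg (star (w l) * x * w 0)) ^ 2 :=
          Finset.sum_le_sum fun l _ => by
            have := hτ (Cn.comp hg (star (w l) * x * w 0))
            rwa [hval] at this
      _ = C * ∑ l, τ.n2 (Cn.comp hg (star (w l) * x * w 0)) ^ 2 := by rw [Finset.mul_sum]
      _ ≤ _ := mul_le_mul_of_nonneg_left (Finset.single_le_sum
          (f := fun i => ∑ l, τ.n2 (Cn.comp hg (star (w l) * x * w i)) ^ 2)
          (fun i _ => by positivity) (Finset.mem_univ 0)) hC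
  set N : ℝ := ∑ i, ∑ l, τ.n2 (Cn.comp hg (star (w l) * 1 * w i)) ^ 2 with hN
  have hN0 : 0 < N := by
    have h1 := hdom 1
    rw [map_one, one_apply_eq_self] at h1
    have h2 : 0 < ‖ι c k‖ ^ 2 := by positivity
    have h3 : 0 ≤ N := by positivity
    rcases h3.eq_or_lt with h | h
    · rw [← hN, ← h, mul_zero] at h1
      linarith
    · exact h
  have hN1 : τ₀ 1 = N := by
    have := hsq 1
    rwa [star_one, one_mul] at this
  let σ : Tr A :=
    { toLin := ((N⁻¹ : ℝ) : ℂ) • τ₀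
      map_one' := by
        rw [LinearMap.smul_apply, hN1, smul_eq_mul, ← Complex.ofReal_mul, inv_mul_cancel₀ hN0.ne',
          Complex.ofReal_one]
      tracial' := fun x y => by
        rw [LinearMap.smul_apply, LinearMap.smul_apply, hτ₀, hτ₀]
        simp only [hmul, τ.map_sum]
        rw [Finset.sum_comm]
        simp only [τ.comm (Cn.comp hg (star (w _) * x * w _))]
      pos' := fun x => by
        rw [LinearMap.smul_apply, hsq, smul_eq_mul, ← Complex.ofReal_mul]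
        exact Complex.zero_le_real.2 (by positivity) }
  refine ⟨σ, √(C * N), Real.sqrt_nonneg _, fun x => ?_⟩
  refine le_of_sq_le_sq' ?_ (mul_nonneg (Real.sqrt_nonneg _) (σ.n2_nonneg x))
  rw [mul_pow, Real.sq_sqrt (by positivity), σ.n2_sq]
  have e : σ (star x * x) = ((N⁻¹ : ℝ) : ℂ) * τ₀ (star x * x) := rfl
  rw [e, hsq, ← Complex.ofReal_mul, Complex.ofReal_re, mul_assoc, ← mul_assoc N,
    mul_inv_cancel₀ hN0.ne', one_mul]
  exact hdom x

omit [PartialOrder A] [StarOrderedRing A] in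
theorem TD.apply {ξ : K} (h : TD ι ξ) (a : A) : TD ι (ι a ξ) := by
  obtain ⟨τ, C, hC, h⟩ := h
  refine ⟨τ, C * ‖a‖, by positivity, fun x => ?_⟩
  rw [← vn_mul_apply]
  refine (h _).trans ?_
  rw [mul_assoc, mul_comm ‖a‖]
  exact mul_le_mul_of_nonneg_left (τ.n2_mul_le' x a) hC

omit [PartialOrder A] [StarOrderedRing A] in
theorem TD.comm {ξ : K} (h : TD ι ξ) {S : K →L[ℂ] K} (hS : ∀ a, S * ι a = ι a * S) :
    TD ι (S ξ) := by
  obtain ⟨τ, C, hC, h⟩ := h
  refine ⟨τ, ‖S‖ * C, by positivity, fun x => ?_⟩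
  rw [← vn_comm_apply hS, mul_assoc]
  exact (S.le_opNorm _).trans (mul_le_mul_of_nonneg_left (h x) (norm_nonneg S))

omit [PartialOrder A] [StarOrderedRing A] in
/-- The average of the two traces dominates both vectors. -/
theorem TD.common {ξ η : K} (h : TD ι ξ) (h' : TD ι η) :
    ∃ (τ : Tr A) (C : ℝ), 0 ≤ C ∧ (∀ x, ‖ι x ξ‖ ≤ C * τ.n2 x) ∧ ∀ x, ‖ι x η‖ ≤ C * τ.n2 x := by
  obtain ⟨τ, C, hC, h⟩ := h
  obtain ⟨τ', C', hC', h'⟩ := h'
  let σ : Tr A :=
    { toLin := (2⁻¹ : ℂ) • (τ.toLin + τ'.toLin)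
      map_one' := by
        simp only [LinearMap.smul_apply, LinearMap.add_apply, τ.map_one', τ'.map_one']
        norm_num
      tracial' := fun x y => by
        simp only [LinearMap.smul_apply, LinearMap.add_apply, τ.tracial' x y, τ'.tracial' x y]
      pos' := fun x => by
        simp only [LinearMap.smul_apply, LinearMap.add_apply, smul_eq_mul]
        exact mul_nonneg (by positivity) (add_nonneg (τ.pos' x) (τ'.pos' x)) }
  have e : ∀ x, σ.n2 x ^ 2 = 2⁻¹ * (τ.n2 x ^ 2 + τ'.n2 x ^ 2) := fun x => by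
    rw [σ.n2_sq, τ.n2_sq, τ'.n2_sq]
    change ((2⁻¹ : ℂ) * (τ (star x * x) + τ' (star x * x))).re = _
    simp
  have e1 : ∀ x, τ.n2 x ≤ 2 * σ.n2 x := fun x => by
    refine le_of_sq_le_sq' ?_ (mul_nonneg zero_le_two (σ.n2_nonneg x))
    rw [mul_pow, e]
    nlinarith [sq_nonneg (τ.n2 x), sq_nonneg (τ'.n2 x)]
  have e2 : ∀ x, τ'.n2 x ≤ 2 * σ.n2 x := fun x => by
    refine le_of_sq_le_sq' ?_ (mul_nonneg zero_le_two (σ.n2_nonneg x))
    rw [mul_pow, e]
    nlinarith [sq_nonneg (τ.n2 x), sq_nonneg (τ'.n2 x)]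
  refine ⟨σ, 2 * (C + C'), by positivity, fun x => (h x).trans ?_, fun x => (h' x).trans ?_⟩
  · nlinarith [e1 x, σ.n2_nonneg x, mul_le_mul_of_nonneg_left (e1 x) hC]
  · nlinarith [e2 x, σ.n2_nonneg x, mul_le_mul_of_nonneg_left (e2 x) hC']

/-- The normalised vector state of `k` is a trace on the commutative corner. -/
theorem exists_trace_abelian {g : A} (hg : IsStarProjection g) (hab : Abelian g) {k : K}
    (hgk : ι g k = k) (hk : k ≠ 0) :
    ∃ (τ : Tr (Cn hg)) (C : ℝ), 0 ≤ C ∧ ∀ y : Cn hg, ‖ι y.val k‖ ^ 2 ≤ C * τ.n2 y ^ 2 := by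
  have hk2 : 0 < ‖k‖ ^ 2 := by positivity
  have hsq : ∀ y : A, ⟪k, ι (star y * y) k⟫_ℂ = ((‖ι y k‖ ^ 2 : ℝ) : ℂ) := fun y => by
    rw [vn_mul_apply, ← vn_inner, inner_self_eq_norm_sq_to_K]
    simp
  let τ : Tr (Cn hg) :=
    { toLin :=
        { toFun := fun y => (((‖k‖ ^ 2)⁻¹ : ℝ) : ℂ) * ⟪k, ι y.val k⟫_ℂ
          map_add' := fun x y => by simp [mul_add]
          map_smul' := fun c x => by simp [mul_left_comm] }
      map_one' := by
        change (((‖k‖ ^ 2)⁻¹ : ℝ) : ℂ) * ⟪k, ι g k⟫_ℂ = 1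
        rw [hgk, inner_self_eq_norm_sq_to_K]
        have : (‖k‖ : ℂ) ≠ 0 := by exact_mod_cast norm_ne_zero_iff.2 hk
        simp [this]
      tracial' := fun x y => by
        have : x * y = y * x := Cn.ext (by
          have := hab x.val y.val
          rwa [x.prop, y.prop] at this)
        rw [this]
      pos' := fun x => by
        change 0 ≤ (((‖k‖ ^ 2)⁻¹ : ℝ) : ℂ) * ⟪k, ι (star x.val * x.val) k⟫_ℂ
        rw [hsq, ← Complex.ofReal_mul]
        exact Complex.zero_le_real.2 (by positivity) }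
  refine ⟨τ, ‖k‖ ^ 2, hk2.le, fun y => ?_⟩
  rw [τ.n2_sq]
  have e : τ (star y * y) = (((‖k‖ ^ 2)⁻¹ : ℝ) : ℂ) * ⟪k, ι (star y.val * y.val) k⟫_ℂ := rfl
  rw [e, hsq, ← Complex.ofReal_mul, Complex.ofReal_re, ← mul_assoc, mul_inv_cancel₀ hk2.ne',
    one_mul]

end Crest.Agent.R121
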