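import Crest.Agent.R121.Cuntz
import Crest.Agent.R121.CoverEx
import Crest.Agent.R121.TraceExt
import Crest.Agent.R124.Dich
import Crest.Agent.R124.TraceEx
import Crest.Agent.R124.Local

/-! Row 121: the structure theorem. -/

set_option autoImplicit false

open scoped ComplexOrder InnerProductSpace ComplexConjugate

namespace Crest.Agent.R121

open Crest.Agent.R095 (Tr lt)
open Crest.Agent.R124

variable {A : Type*} [CStarAlgebra A] [PartialOrder A] [StarOrderedRing A]
variable {K : Type*} [NormedAddCommGroup K] [InnerProductSpace ℂ K] [CompleteSpace K]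
variable {ι : A →⋆ₐ[ℂ] (K →L[ℂ] K)}

omit [PartialOrder A] [StarOrderedRing A] in
lemma struct_exists_vec (hι : IsVN ι) {f : A} (hf : IsStarProjection f) (hf0 : f ≠ 0) :
    ∃ k : K, k ≠ 0 ∧ ι f k = k := by
  obtain ⟨k₀, hk₀⟩ : ∃ k₀, ι f k₀ ≠ 0 := by
    by_contra h
    push Not at h
    exact hf0 (hι.inj (by rw [map_zero]; ext k; exact h k))
  exact ⟨ι f k₀, hk₀, by rw [← vn_mul_apply, hf.isIdempotentElem.eq]⟩

omit [PartialOrder A] [StarOrderedRing A] in
lemma struct_halving (hι : IsVN ι) {g : A} (hg : IsStarProjection g)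
    (hab : ∀ g', IsStarProjection g' → g' ≠ 0 → g * g' = g' → ¬ Abelian g') : Halving (Cn hg) := by
  intro r hr
  obtain ⟨w, hw, hw2, hwr⟩ := hι.halving ((Cn.isStarProjection_iff r).mp hr)
    fun g' hg' hg0' hrg => hab g' hg' hg0' (by rw [← hrg, ← mul_assoc, r.p_mul])
  have h1 : r.val * w = w := by
    rw [← hwr, add_mul, mul_assoc, hw2, mul_zero, zero_add, hw.mul_star_mul]
  have h2 : w * r.val = w := by
    rw [← hwr, mul_add, ← mul_assoc w w, hw2, zero_mul, add_zero, hw.mul_star_mul']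
  have h3 : g * w * g = w := by
    rw [← h1, ← mul_assoc, r.p_mul, h1, ← h2, mul_assoc, r.mul_p]
  exact ⟨Cn.mk w h3, Cn.ext hw, Cn.ext hw2, Cn.ext hwr⟩

omit [PartialOrder A] [StarOrderedRing A] in
lemma struct_gv_apply {ξ : K} (h : GV ι ξ) (a : A) : GV ι (ι a ξ) := by
  obtain ⟨h1, c, hc, h2⟩ := h
  refine ⟨h1.apply a, c, hc, ?_⟩
  obtain ⟨_, hcc, -⟩ := hc
  rw [← vn_mul_apply, hcc, vn_mul_apply, h2]

omit [PartialOrder A] [StarOrderedRing A] in
lemma struct_gv_comm {ξ : K} (h : GV ι ξ) {S : K →L[ℂ] K} (hS : ∀ a, S * ι a = ι a * S) :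
    GV ι (S ξ) := by
  obtain ⟨h1, c, hc, h2⟩ := h
  exact ⟨h1.comm hS, c, hc, by rw [← vn_comm_apply hS, h2]⟩

/-- If some nonzero `g ≤ f` is abelian, pick `k = ι g k₀ ≠ 0`; `exists_cover`,
`exists_trace_abelian`, `td_of_cover`, `goodC_of_abelian` and `TD.apply`. Otherwise follow the
proof of `R124.local_good`: `k = ι f k₀ ≠ 0`, `s` from `exists_cyclic k`, `dichotomy` for `s`; the
first case contradicts `FinP f`; in the second case `Baer.layer` and `exists_trace_ge` give a trace
on `Cn g` dominating `k`, `ι g k ≠ 0` (`local_cyc`); apply `exists_cover` to `ι g k` and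
`td_of_cover`; `Halving (Cn c)` follows from `IsVN.halving` as in `Cn.halving`. -/
theorem exists_gv (hι : IsVN ι) {f : A} (hf : IsStarProjection f) (hc : Cen f) (hf0 : f ≠ 0)
    (hfin : FinP f) : ∃ ξ : K, ξ ≠ 0 ∧ ι f ξ = ξ ∧ GV ι ξ := by
  by_cases hab : ∃ g, IsStarProjection g ∧ g ≠ 0 ∧ f * g = g ∧ Abelian g
  · obtain ⟨g, hg, hg0, hfg, hab⟩ := hab
    obtain ⟨k, hk0, hk⟩ := struct_exists_vec hι hg hg0
    obtain ⟨c, n, w, hcp, hcc, hfc, hck, hw⟩ := exists_cover hι hf hc hfin hg hfg hk hk0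
    obtain ⟨τ, C, hC, hτ⟩ := exists_trace_abelian (ι := ι) hg hab hk hk0
    have htd := td_of_cover hcp hcc hg hw hk hck τ hC hτ
    obtain ⟨c', hc', hcc', hk'⟩ := goodC_of_abelian hι.baer hcp hcc hg hab hw hck
    have h1 := htd.apply c'
    rw [← vn_mul_apply, ← hcc, hcc'] at h1
    refine ⟨ι c' k, hk', ?_, h1, c', hc', ?_⟩
    · rw [← vn_mul_apply, ← hcc', ← mul_assoc, hfc]
    · obtain ⟨hp', -⟩ := hc'
      rw [← vn_mul_apply, hp'.isIdempotentElem.eq]
  push Not at hab
  obtain ⟨k, hk0, hfk⟩ := struct_exists_vec hι hf hf0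
  obtain ⟨s, hs, hsk, hst⟩ := hι.exists_cyclic k
  have hfs : f * s = s := by
    have := local_cyc hι hst (y := 1 - f) (by simp [hfk])
    rw [sub_mul, one_mul, sub_eq_zero] at this
    exact this.symm
  rcases hι.dichotomy k hs (by rwa [hsk]) with ⟨e, v, he, he0, hse, hv⟩ | ⟨g, k', hg, hg0, hsg, hv⟩
  · exact absurd (hfin e v he (by rw [← hse, ← mul_assoc, hfs]) hv) he0
  have hfg : f * g = g := by rw [← hsg, ← mul_assoc, hfs]
  have hgs : g * s = g := by
    have := congrArg star hsg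
    rwa [star_mul, hg.isSelfAdjoint.star_eq, hs.isSelfAdjoint.star_eq] at this
  have hgk : ι g k ≠ 0 := fun h => hg0 (by rw [← hgs]; exact local_cyc hι hst h)
  have hlay : ∀ x : Cn hg, localVec ι k (star x.val * x.val)
      ≤ 2 * localVec ι k' (x.val * star x.val) := fun x =>
    hι.baer.layer (localVec ι k) (localVec ι k') (localVec_nonneg ι k) (localVec_nonneg ι k')
      (e := g) zero_le_two (fun w hw h1 h2 => by
        have := localVec_star_mul ι k' (star w)
        rw [star_star] at this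
        rw [localVec_star_mul, this]
        exact hv w hw h1 h2) x.p_mul x.mul_p
  let j : Cn hg →ₗ[ℝ] A :=
    { toFun := Cn.val, map_add' := Cn.val_add, map_smul' := Cn.val_real_smul }
  obtain ⟨τ, C, hC, hτ⟩ := exists_trace_ge (Q := Cn hg) ((localVec ι k).comp j)
    ((2 : ℝ) • (localVec ι k').comp j)
    (fun a ha => localVec_nonneg ι k _ ((Cn.nonneg_iff a).mp ha))
    (fun a ha => mul_nonneg zero_le_two (localVec_nonneg ι k' _ ((Cn.nonneg_iff a).mp ha)))
    hlay (by
      have := localVec_star_mul ι k g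
      rw [hg.isSelfAdjoint.star_eq, hg.isIdempotentElem.eq] at this
      change 0 < localVec ι k g
      rw [this]
      positivity)
  have hτ' : ∀ y : Cn hg, ‖ι y.val (ι g k)‖ ^ 2 ≤ C * τ.n2 y ^ 2 := fun y => by
    rw [← vn_mul_apply, y.mul_p, ← localVec_star_mul]
    exact hτ y
  have hgk' : ι g (ι g k) = ι g k := by rw [← vn_mul_apply, hg.isIdempotentElem.eq]
  obtain ⟨c, n, w, hcp, hcc, hfc, hck, hw⟩ := exists_cover hι hf hc hfin hg hfg hgk' hgk
  refine ⟨ι c (ι g k), hck, by rw [← vn_mul_apply f, hfc],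
    td_of_cover hcp hcc hg hw hgk' hck τ hC hτ', c,
    ⟨hcp, hcc, Or.inl (struct_halving hι hcp fun g' h1 h2 h3 => hab g' h1 h2 ?_)⟩,
    by rw [← vn_mul_apply c c, hcp.isIdempotentElem.eq]⟩
  rw [← h3, ← mul_assoc, hfc]

/-- `p` from `exists_central_pinf`, `cuntz_of_pinf`. The set of good vectors is invariant under
`ι A` and under the commutant, so the projection onto its orthogonal complement `E` is a central
projection `f` (`IsVN.exists_proj`). If `f (1 - p) ≠ 0`, `finP_of_no_pinf` and `exists_gv` give a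
nonzero good vector in `E`. -/
theorem structure_thm (hι : IsVN ι) :
    ∃ p s t : A, Cuntz p s t ∧ ∀ k : K, (∀ ξ, GV ι ξ → ⟪ξ, k⟫_ℂ = 0) → ι p k = k := by
  obtain ⟨p, hp, hpc, hpi, hmax⟩ := exists_central_pinf hι
  obtain ⟨s, t, hst⟩ := cuntz_of_pinf hι hp hpc hpi
  refine ⟨p, s, t, hst, fun k hk => ?_⟩
  let E : Submodule ℂ K :=
    { carrier := {k | ∀ ξ, GV ι ξ → ⟪ξ, k⟫_ℂ = 0}
      add_mem' := fun {a b} ha hb ξ hξ => by rw [inner_add_right, ha ξ hξ, hb ξ hξ, add_zero]
      zero_mem' := fun ξ _ => inner_zero_right _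
      smul_mem' := fun c a ha ξ hξ => by rw [inner_smul_right, ha ξ hξ, mul_zero] }
  have hE : IsClosed (E : Set K) := by
    have : (E : Set K) = ⋂ ξ ∈ {ξ | GV ι ξ}, {k | ⟪ξ, k⟫_ℂ = 0} := by
      ext k; simp [E]
    rw [this]
    exact isClosed_biInter fun ξ _ =>
      isClosed_eq (continuous_const.inner continuous_id) continuous_const
  have : CompleteSpace E := hE.completeSpace_coe
  obtain ⟨f, hf, hf'⟩ := hι.exists_proj E fun S hS k hk ξ hξ => by
    rw [← ContinuousLinearMap.adjoint_inner_left, ← ContinuousLinearMap.star_eq_adjoint]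
    exact hk _ (struct_gv_comm hξ (vn_comm_star hS))
  have h1 : ∀ a, f * (a * f) = a * f := fun a => hι.inj (by
    ext k
    rw [vn_mul_apply, hf']
    refine Submodule.starProjection_eq_self_iff.2 fun ξ hξ => ?_
    rw [vn_mul_apply, ← star_star a, ← vn_inner, hf']
    exact E.starProjection_apply_mem k _ (struct_gv_apply hξ _))
  have hfc : Cen f := fun a => by
    have h2 := congrArg star (h1 (star a))
    rw [star_mul, star_mul, star_star, hf.isSelfAdjoint.star_eq] at h2
    rw [← h2, mul_assoc, h1]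
  have hf1 : IsStarProjection (f * (1 - p)) := hf.mul hp.one_sub (hfc _)
  have hc1 : Cen (f * (1 - p)) := fun x => by
    rw [mul_assoc, sub_mul, one_mul, hpc, ← mul_one_sub, ← mul_assoc, hfc, mul_assoc]
  have h0 : f * (1 - p) = 0 := by
    by_contra hne
    obtain ⟨ξ, hξ0, hξ, hgv⟩ := exists_gv hι hf1 hc1 hne
      (finP_of_no_pinf hι hf1 hc1 fun r hr hr' h => hmax r hr hr' (by
        rw [← h, ← mul_assoc, ← mul_assoc, ← hfc, mul_assoc f, mul_one_sub,
          hp.isIdempotentElem.eq, sub_self, mul_zero, zero_mul]))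
    have h2 : ξ ∈ E := by
      rw [← hξ, vn_mul_apply, hf']
      exact E.starProjection_apply_mem _
    exact hξ0 (inner_self_eq_zero.1 (h2 ξ hgv))
  have h3 : ι f k = k := by
    rw [hf']
    exact Submodule.starProjection_eq_self_iff.2 hk
  rw [mul_one_sub, sub_eq_zero, hfc] at h0
  rw [← h3, ← vn_mul_apply, ← h0]

end Crest.Agent.R121
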