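import Crest.Agent.R121.Lift
import Crest.Agent.R121.Struct
import Crest.Agent.R121.WMean

/-! Row 121: the averaging map on the finite part. -/

set_option autoImplicit false

open scoped ComplexOrder InnerProductSpace ComplexConjugate

namespace Crest.Agent.R121

open Crest.Agent.R095 (Tr lt)
open Crest.Agent.R124

variable {A : Type*} [CStarAlgebra A] [PartialOrder A] [StarOrderedRing A]
variable {K : Type*} [NormedAddCommGroup K] [InnerProductSpace ℂ K] [CompleteSpace K]
variable {ι : A →⋆ₐ[ℂ] (K →L[ℂ] K)}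

/-- `m` from `exists_mean_fin`, `W` from `exists_isW`, `ρ T = W fun u => T (star u) * u`. For
`right` and unitary `a`: for good vectors `ξ`, `η` the form `β z z' = ⟪η, ι (T (a z) z') ξ⟫` is in
`Cls` (`TD.common`; `⟪η, T x y ξ⟫ = ⟪x⋆ T⋆ η, y ξ⟫`), and `gam (avg β m) 1 = gam (avg β m) a` says
`⟪η, ι Y ξ⟫ = 0` for `Y = ρ (T (a ·)) - ρ T * a`. Also `p Y = 0`. So `ι Y ξ = ι p (ι Y ξ) = 0` for
good `ξ`; then `ι Y⋆ k` is orthogonal to the good vectors and `p Y⋆ = 0`, so `Y = 0`. General `a`:
`CStarAlgebra.span_unitary`. -/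
theorem exists_rho_fin (hι : IsVN ι) {p : A} (hp : IsStarProjection p) (hc : Cen p)
    (hgv : ∀ k : K, (∀ ξ, GV ι ξ → ⟪ξ, k⟫_ℂ = 0) → ι p k = k) :
    ∃ ρ : (A → A) →ₗ[ℂ] A, Rho (fun T C => BL T C ∧ ∀ y, p * T y = 0) ρ := by
  obtain ⟨m, hm⟩ := exists_mean_fin hι.baer
  obtain ⟨W, hW⟩ := IsVN.exists_isW hι m
  have hA := hW.avg hι
  let L : (A → A) →ₗ[ℂ] (unitary A → A) :=
    { toFun := fun T u => T (star (u : A)) * u
      map_add' := fun T T' => by ext u; simp [add_mul]
      map_smul' := fun c T => by ext u; simp }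
  have hbd : ∀ {T : A → A} {C : ℝ}, BL T C → ∀ (a : A) (u : unitary A),
      ‖T (a * star (u : A)) * u‖ ≤ C * ‖a‖ := fun {T C} hT a u => by
    rw [CStarRing.norm_mul_mem_unitary _ u.2]
    refine (hT.bound _).trans_eq ?_
    rw [CStarRing.norm_mul_mem_unitary _ (Unitary.star_mem u.2)]
  have hbd1 : ∀ {T : A → A} {C : ℝ}, BL T C → ∀ u : unitary A,
      ‖T (star (u : A)) * u‖ ≤ C := fun {T C} hT u => by
    have := hbd hT 1 u
    rw [one_mul] at this
    exact this.trans (mul_le_of_le_one_right hT.nonneg (IsStarProjection.one A).norm_le)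
  refine ⟨W ∘ₗ L, ?_, ?_, ?_, ?_⟩
  · rintro T C ⟨hT, -⟩
    exact hA.norm_le _ C (hbd1 hT)
  · rintro T C ⟨hT, -⟩ a
    change W (fun u => a * T (star (u : A)) * u) = a * W fun u => T (star (u : A)) * u
    rw [← hA.mul_left a _ ⟨C, hbd1 hT⟩]
    simp only [mul_assoc]
  · rintro T C ⟨hT, hpT⟩ a
    change W (fun u => T (a * star (u : A)) * u) = W (fun u => T (star (u : A)) * u) * a
    have key : ∀ a ∈ unitary A,
        W (fun u => T (a * star (u : A)) * u) = W (fun u => T (star (u : A)) * u) * a := by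
      intro a ha
      rw [← sub_eq_zero]
      set Y := W (fun u => T (a * star (u : A)) * u) - W (fun u => T (star (u : A)) * u) * a
        with hY
      have hpY : p * Y = 0 := by
        rw [hY, mul_sub, ← mul_assoc, ← hA.mul_left p _ ⟨_, hbd hT a⟩,
          ← hA.mul_left p _ ⟨C, hbd1 hT⟩]
        simp only [← mul_assoc, hpT, zero_mul, hA.const, sub_self]
      have h1 : ∀ ξ η : K, GV ι ξ → GV ι η → ⟪η, ι Y ξ⟫_ℂ = 0 := by
        rintro ξ η ⟨hξ, c, hc, hcξ⟩ ⟨hη, -⟩
        obtain ⟨τ, D, hD, hDξ, hDη⟩ := hξ.common hη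
        let β : Fm A := LinearMap.mk₂ ℂ (fun z z' => ⟪η, ι (T (a * z) * z') ξ⟫_ℂ)
          (fun x y z => by simp [mul_add, hT.lin.map_add, add_mul])
          (fun c x y => by simp [hT.lin.map_smul])
          (fun x y z => by simp [mul_add]) (fun c x y => by simp)
        have hβ : ∀ z z', β z z' = ⟪η, ι (T (a * z) * z') ξ⟫_ℂ := fun _ _ => rfl
        have hcls : Cls β := by
          refine ⟨c, τ, D * D * C, hc, by have := hT.nonneg; positivity, fun z x y => ?_,
            fun z z' => ?_⟩
          · rw [hβ, ← mul_assoc, vn_mul_apply, ← inner_conj_symm, vn_inner, RCLike.norm_conj]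
            refine (norm_inner_le_norm _ _).trans ?_
            have e1 : τ.n2 (star (T (a * z) * x)) ≤ C * ‖z‖ * τ.n2 x := by
              rw [τ.n2_star]
              refine (τ.n2_mul_le _ _).trans ?_
              have := hT.bound (a * z)
              rw [CStarRing.norm_mem_unitary_mul _ ha] at this
              exact mul_le_mul_of_nonneg_right this (τ.n2_nonneg x)
            calc _ ≤ (D * τ.n2 y) * (D * (C * ‖z‖ * τ.n2 x)) :=
                  mul_le_mul (hDξ y) ((hDη _).trans (by gcongr)) (norm_nonneg _)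
                    (mul_nonneg hD (τ.n2_nonneg y))
              _ = _ := by ring
          · obtain ⟨-, hcc, -⟩ := hc
            rw [hβ, hβ, hcc z', ← mul_assoc, vn_mul_apply, hcξ]
        have h2 := hm β hcls a ha
        rw [gam_avg, gam_avg] at h2
        rw [hY, map_sub, sub_apply, inner_sub_right,
          ← hA.mul_right a _ ⟨C, hbd1 hT⟩, hW _ ⟨_, hbd hT a⟩, hW _ ⟨C * ‖a‖, fun u =>
            (norm_mul_le _ _).trans (by gcongr; exact hbd1 hT u)⟩, sub_eq_zero]
        have e1 : ∀ v : unitary A, gam β ((v : A) * a)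
            = ⟪η, ι (T (star (v : A)) * v * a) ξ⟫_ℂ := fun v => by
          rw [gam, hβ, star_mul, ← mul_assoc a, Unitary.mul_star_self_of_mem ha, one_mul, mul_assoc]
        have e2 : ∀ v : unitary A, gam β ((v : A) * 1)
            = ⟪η, ι (T (a * star (v : A)) * v) ξ⟫_ℂ := fun v => by rw [gam, hβ, mul_one]
        simp only [e1, e2] at h2
        exact h2.symm
      have h3 : ∀ ξ, GV ι ξ → ι Y ξ = 0 := fun ξ hξ => by
        rw [← hgv _ fun η hη => h1 ξ η hξ hη, ← vn_mul_apply, hpY, map_zero,
          zero_apply]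
      have h4 : star Y = 0 := by
        apply hι.inj
        ext k
        have h5 : p * star Y = 0 := by
          rw [hc, ← hp.isSelfAdjoint.star_eq, ← star_mul, hpY, star_zero]
        rw [← hgv (ι (star Y) k) fun ξ hξ => by rw [← vn_inner, h3 ξ hξ, inner_zero_left],
          ← vn_mul_apply, h5]
      exact star_eq_zero.1 h4
    have ha : a ∈ Submodule.span ℂ (unitary A : Set A) := by
      rw [CStarAlgebra.span_unitary]; trivial
    induction ha using Submodule.span_induction with
    | mem u hu => exact key u hu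
    | zero => simp only [zero_mul, hT.lin.map_zero, hA.const, mul_zero]
    | add x y _ _ hx hy =>
      rw [mul_add, ← hx, ← hy, ← W.map_add]
      congr 1
      ext u
      simp [add_mul, hT.lin.map_add]
    | smul c x _ hx =>
      rw [mul_smul_comm, ← hx, ← W.map_smul]
      congr 1
      ext u
      simp [hT.lin.map_smul]
  · intro c
    change W (fun u => c * star (u : A) * u) = c
    simp only [mul_assoc, Unitary.star_mul_self_of_mem (Subtype.property _), mul_one, hA.const]

end Crest.Agent.R121
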