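import Crest.Agent.R121.Design
import Crest.Agent.R124.Mix

/-! Row 121: construction of the letters. -/

set_option autoImplicit false

open scoped ComplexOrder InnerProductSpace ComplexConjugate

namespace Crest.Agent.R121

open Crest.Agent.R095 (Tr lt)
open Crest.Agent.R124

variable {Q : Type*} [CStarAlgebra Q]

section aux

variable {ι Δ : Type} [Fintype ι] [DecidableEq ι] [Fintype Δ] {c : Δ → ι → ι → ℂ}
  {v : ι → Q} {e : Q}

theorem step_udes_adj (hc : UDes c) : UDes fun δ i j => conj (c δ j i) where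
  col δ i j := by simpa only [Complex.conj_conj] using hc.row δ i j
  row δ i j := by simpa only [Complex.conj_conj] using hc.col δ i j
  mom i j k l := by
    have := hc.mom l k j i
    simp only [Complex.conj_conj]
    rw [ex_congr fun δ => mul_comm (c δ j i) _, this]
    simp only [eq_comm, and_comm]
  phase := by
    obtain ⟨φ, hφ⟩ := hc.phase
    refine ⟨φ.symm, fun δ i j => ?_⟩
    have h1 := hφ (φ.symm δ) j i
    rw [φ.apply_symm_apply] at h1
    rw [h1, map_mul, Complex.conj_I, ← mul_assoc, mul_neg, Complex.I_mul_I, neg_neg, one_mul]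

/-- the random unitary -/
noncomputable def stepU (c : Δ → ι → ι → ℂ) (v : ι → Q) (δ : Δ) : Q :=
  ∑ i, ∑ j, c δ i j • (v i * star (v j))

omit [DecidableEq ι] [Fintype Δ] in
theorem step_star_U (δ : Δ) : star (stepU c v δ) = stepU (fun δ i j => conj (c δ j i)) v δ := by
  unfold stepU
  rw [Finset.sum_comm]
  simp only [star_sum, star_smul, star_mul, star_star, Complex.star_def]

theorem step_ex_n2 (τ : Tr Q) (hc : UDes c) (x : ι → ι → Q) :
    ex (fun δ => τ.n2 (∑ i, ∑ j, c δ i j • x i j) ^ 2)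
      = (Fintype.card ι : ℝ)⁻¹ * ∑ i, ∑ j, τ.n2 (x i j) ^ 2 := by
  have h := hc.ex_bilin ((LinearMap.mul ℂ Q).compr₂ τ.toLin) (fun i j => star (x i j)) x
  apply Complex.ofReal_injective
  rw [ofReal_ex]
  push_cast
  simp only [τ.n2_sq_complex]
  refine Eq.trans (ex_congr fun δ => ?_) h
  simp only [LinearMap.compr₂_apply, LinearMap.mul_apply', star_sum, star_smul, Complex.star_def]

theorem step_amp (τ : Tr Q) (hv : Sys v e) {y : Q} (h1 : e * y = y) (h2 : y * e = y) :
    τ.n2 (∑ k, v k * y * star (v k)) ^ 2 = Fintype.card ι * τ.n2 y ^ 2 := by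
  have h3 : star (∑ k, v k * y * star (v k)) * ∑ k, v k * y * star (v k)
      = ∑ k, v k * (star y * y) * star (v k) := by
    rw [star_sum, Finset.sum_mul]
    refine Finset.sum_congr rfl fun k _ => ?_
    rw [Finset.mul_sum, Finset.sum_eq_single k]
    · calc star (v k * y * star (v k)) * (v k * y * star (v k))
          = v k * (star y * ((star (v k) * v k) * y)) * star (v k) := by
            simp only [star_mul, star_star, mul_assoc]
        _ = _ := by rw [hv.mul, if_pos rfl, h1]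
    · intro l _ hl
      calc star (v k * y * star (v k)) * (v l * y * star (v l))
          = v k * (star y * ((star (v k) * v l) * y)) * star (v l) := by
            simp only [star_mul, star_star, mul_assoc]
        _ = 0 := by rw [hv.mul, if_neg (Ne.symm hl)]; simp
    · simp
  have h4 : ∀ k, τ (v k * (star y * y) * star (v k)) = τ (star y * y) := by
    intro k
    rw [mul_assoc, τ.comm, mul_assoc, hv.mul, if_pos rfl, mul_assoc, h2]
  rw [τ.n2_sq, τ.n2_sq, h3, τ.map_sum]
  simp [h4]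

theorem step_tr_e (τ : Tr Q) (hv : Sys v e) (i : ι) :
    τ.n2 (v i * star (v i)) ^ 2 = (Fintype.card ι : ℝ)⁻¹ := by
  have he := hv.proj.isIdempotentElem.eq
  have h1 := step_amp τ hv he he
  simp only [hv.mul_e, hv.sum, τ.n2_one] at h1
  have h2 : τ.n2 (v i * star (v i)) = τ.n2 e := by rw [n2_mul_star, hv.mul, if_pos rfl]
  rw [h2]
  exact eq_inv_of_mul_eq_one_right (by rw [← h1]; norm_num)

theorem step_cong (hv : Sys v e) {y : Q} (h1 : e * y = y) (k : ι) :
    v k * y * star (v k) - y ∈ commSpan Q := by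
  have := comm_mem_commSpan (v k) (y * star (v k))
  rw [← mul_assoc, mul_assoc y, hv.mul, if_pos rfl] at this
  have h2 := comm_mem_commSpan y e
  rw [h1] at h2
  simpa using add_mem this h2

theorem step_small [Nonempty ι] [Nonempty Δ] (τ : Tr Q) (hc : UDes c) (hv : Sys v e) {Y : Q}
    (hY : Y ∈ unitary Q) :
    ex (fun δ => dcs τ (stepU c v δ * Y)) ≤ (Fintype.card ι : ℝ)⁻¹ := by
  have hL : (Fintype.card ι : ℝ) ≠ 0 := Nat.cast_ne_zero.2 Fintype.card_ne_zero
  have hL' : (Fintype.card ι : ℂ) ≠ 0 := Nat.cast_ne_zero.2 Fintype.card_ne_zero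
  set x : ι → ι → Q := fun i j =>
    (Fintype.card ι : ℂ)⁻¹ • ∑ k, v k * (star (v j) * Y * v i) * star (v k) with hx
  have he1 : ∀ i j, e * (star (v j) * Y * v i) = star (v j) * Y * v i := fun i j => by
    rw [← mul_assoc, ← mul_assoc, greedy_e_mul_star hv]
  have he2 : ∀ i j, star (v j) * Y * v i * e = star (v j) * Y * v i := fun i j => by
    rw [mul_assoc, hv.mul_e]
  have h1 : ∀ i j, v i * star (v j) * Y - x i j ∈ commSpan Q := by
    intro i j
    have a1 := comm_mem_commSpan (v i) (star (v j) * Y)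
    have a2 := Submodule.smul_mem _ (Fintype.card ι : ℂ)⁻¹
      (Submodule.sum_mem (commSpan Q) fun k (_ : k ∈ Finset.univ) => step_cong hv (he1 i j) k)
    rw [Finset.sum_sub_distrib, Finset.sum_const, Finset.card_univ, smul_sub,
      ← Nat.cast_smul_eq_nsmul ℂ, smul_smul, inv_mul_cancel₀ hL', one_smul] at a2
    have a3 := sub_mem a1 a2
    rw [sub_sub_sub_cancel_right, ← mul_assoc] at a3
    exact a3
  have h2 : ∀ δ, dcs τ (stepU c v δ * Y) ≤ τ.n2 (∑ i, ∑ j, c δ i j • x i j) := by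
    intro δ
    refine (dcs_congr τ ?_).trans_le (dcs_le_n2 τ _)
    unfold stepU
    simp only [Finset.sum_mul, smul_mul_assoc, ← Finset.sum_sub_distrib, ← smul_sub]
    exact Submodule.sum_mem _ fun i _ => Submodule.sum_mem _ fun j _ =>
      Submodule.smul_mem _ _ (h1 i j)
  refine (ex_mono h2).trans ((ex_le_sqrt _).trans ?_)
  rw [step_ex_n2 τ hc]
  have h3 : ∀ i j, τ.n2 (x i j) ^ 2 = (Fintype.card ι : ℝ)⁻¹ * τ.n2 (star (v j) * Y * v i) ^ 2 := by
    intro i j
    rw [hx, τ.n2_smul, mul_pow, step_amp τ hv (he1 i j) (he2 i j), norm_inv, Complex.norm_natCast]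
    field_simp
  simp only [h3, ← Finset.mul_sum]
  rw [Finset.sum_comm, mix_sum_n2 τ hv, τ.n2_of_unitary hY, one_pow, mul_one,
    Real.sqrt_mul_self (by positivity)]

theorem step_des [Nonempty ι] [Nonempty Δ] (τ : Tr Q) (hc : UDes c) (hv : Sys v e) {a b : Q}
    (ha : a ∈ unitary Q) (hb : b ∈ unitary Q) {η : ℝ} (hη : 0 < η) (hη1 : η ≤ 1)
    (hL : (Fintype.card ι : ℝ)⁻¹ ≤ η ^ 4) {V : Set Q} (hV : ∀ δ, star a * stepU c v δ * b ∈ V)
    (hV' : ∀ i, (Fintype.card ι : ℂ) • (star a * (v i * star (v i)) * a) ∈ V) :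
    Des τ η (fun δ => star a * stepU c v δ * b) V where
  unit δ := mul_mem (mul_mem (Unitary.star_mem ha) (hc.mem_unitary hv δ)) hb
  mem := hV
  phase := by
    obtain ⟨φ, hφ⟩ := hc.phase
    refine ⟨φ, fun δ => ?_⟩
    have : stepU c v (φ δ) = Complex.I • stepU c v δ := by
      unfold stepU
      simp only [hφ, Finset.smul_sum, smul_smul]
    rw [this, mul_smul_comm, smul_mul_assoc]
  small Y hY := by
    have h1 := step_small τ hc hv (mul_mem (mul_mem hb hY) (Unitary.star_mem ha))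
    have h2 : η ^ 4 ≤ η ^ 2 := pow_le_pow_of_le_one hη.le hη1 (by norm_num)
    refine le_trans (le_of_eq (ex_congr fun δ => ?_)) (h1.trans (hL.trans h2))
    rw [mul_assoc, mul_assoc, dcs_comm]
    simp only [mul_assoc]
  units := by
    refine ⟨ι, inferInstance, inferInstance, inferInstance,
      fun i j => star a * (v i * star (v j)) * b, fun i => star a * (v i * star (v i)) * a, hL,
      fun i => ?_, fun i j k => ?_, fun i => ?_, hV', fun i => ?_, fun Φ => ?_⟩
    · have hp := (hv.piso i).proj'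
      refine ⟨?_, ?_⟩
      · change _ * _ = _
        calc star a * (v i * star (v i)) * a * (star a * (v i * star (v i)) * a)
            = star a * (v i * star (v i) * (a * star a) * (v i * star (v i))) * a := by
              simp only [mul_assoc]
          _ = _ := by rw [Unitary.mul_star_self_of_mem ha, mul_one, hp.isIdempotentElem.eq]
      · change star _ = _
        simp only [star_mul, star_star, mul_assoc]
    · calc star a * (v i * star (v j)) * b * star (star a * (v i * star (v k)) * b)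
          = star a * (v i * (star (v j) * (b * star b) * v k) * star (v i)) * a := by
            simp only [star_mul, star_star, mul_assoc]
        _ = _ := by
            rw [Unitary.mul_star_self_of_mem hb, mul_one, hv.mul]
            split_ifs
            · rw [hv.mul_e]
            · simp
    · rw [τ.n2_mul_unitary ha, τ.n2_unitary_mul (Unitary.star_mem ha), step_tr_e τ hv]
    · rw [← smul_mul_assoc, ← mul_smul_comm, dcs_conj' τ ha]
      refine (dcs_congr τ (Y := 1) ?_).trans_le ((dcs_le_n2 τ 1).trans_eq τ.n2_one)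
      have he := hv.proj.isIdempotentElem.eq
      have h1 : ∀ k, v k * star (v k) - e ∈ commSpan Q := fun k => by
        simpa only [hv.mul_e] using step_cong hv he k
      have h2 := Submodule.sum_mem (commSpan Q) fun k (_ : k ∈ Finset.univ) =>
        sub_mem (h1 i) (h1 k)
      simp only [sub_sub_sub_cancel_right] at h2
      rwa [Finset.sum_sub_distrib, hv.sum, Finset.sum_const, Finset.card_univ,
        ← Nat.cast_smul_eq_nsmul ℂ] at h2
    · have h := hc.ex_bilin Φ (fun i j => star (star a * (v i * star (v j)) * b))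
        (fun i j => star a * (v i * star (v j)) * b)
      rw [smul_eq_mul] at h
      refine Eq.trans (ex_congr fun δ => ?_) h
      have h1 : star a * stepU c v δ * b = ∑ i, ∑ j, c δ i j • (star a * (v i * star (v j)) * b) := by
        unfold stepU
        simp only [Finset.mul_sum, Finset.sum_mul, mul_smul_comm, smul_mul_assoc]
      rw [h1]
      simp only [star_sum, star_smul, Complex.star_def]

theorem step_ad [Nonempty ι] [Nonempty Δ] (τ : Tr Q) (hc : UDes c) (hv : Sys v e) {a b : Q}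
    (ha : a ∈ unitary Q) (hb : b ∈ unitary Q) (Y z : Q) {ε : ℝ} (hε : 0 ≤ ε)
    (hz : τ.n2 (∑ j, star (v j) * (b * z * star b) * v j) ^ 2 ≤ ε ^ 2 * Fintype.card ι) :
    τ.n2 (ex fun δ => star a * stepU c v δ * b * Y * star (star a * stepU c v δ * b))
      ≤ τ.n2 (Y - z) + ε := by
  have hL : (0 : ℝ) < Fintype.card ι := Nat.cast_pos.2 Fintype.card_pos
  have hU : ∀ δ, stepU c v δ ∈ unitary Q := fun δ => hc.mem_unitary hv δ
  have h1 : (ex fun δ => star a * stepU c v δ * b * Y * star (star a * stepU c v δ * b)) =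
      star a * ((ex fun δ => stepU c v δ * (b * (Y - z) * star b) * star (stepU c v δ)) +
        ex fun δ => stepU c v δ * (b * z * star b) * star (stepU c v δ)) * a := by
    rw [← ex_add, mul_ex, ex_mul]
    refine ex_congr fun δ => ?_
    simp only [star_mul, star_star]
    noncomm_ring
  rw [h1, τ.n2_mul_unitary ha, τ.n2_unitary_mul (Unitary.star_mem ha)]
  refine (τ.n2_add_le _ _).trans (add_le_add ?_ ?_)
  · refine (n2_ex_le τ _).trans (ex_le_const fun δ => le_of_eq ?_)
    rw [τ.n2_mul_unitary (Unitary.star_mem (hU δ)), τ.n2_unitary_mul (hU δ),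
      τ.n2_mul_unitary (Unitary.star_mem hb), τ.n2_unitary_mul hb]
  · set w := b * z * star b
    have h := hc.ex_bilin (LinearMap.mk₂ ℂ (fun x y : Q => y * w * x) (fun _ _ _ => mul_add _ _ _)
      (fun _ _ _ => mul_smul_comm _ _ _) (fun _ _ _ => by rw [add_mul, add_mul])
      (fun _ _ _ => by rw [smul_mul_assoc, smul_mul_assoc]))
      (fun i j => star (v i * star (v j))) (fun i j => v i * star (v j))
    have h2 : (ex fun δ => stepU c v δ * w * star (stepU c v δ)) =
        (Fintype.card ι : ℂ)⁻¹ • ∑ i, v i * (∑ j, star (v j) * w * v j) * star (v i) := by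
      refine Eq.trans (ex_congr fun δ => ?_) (h.trans ?_)
      · simp only [LinearMap.mk₂_apply, stepU, star_sum, star_smul, Complex.star_def]
      · simp only [LinearMap.mk₂_apply, star_mul, star_star, Finset.mul_sum, Finset.sum_mul,
          mul_assoc]
    have h3 := step_amp τ hv (y := ∑ j, star (v j) * w * v j)
      (by simp only [Finset.mul_sum, ← mul_assoc, greedy_e_mul_star hv])
      (by simp only [Finset.sum_mul, mul_assoc, hv.mul_e])
    rw [h2]
    refine (pow_le_pow_iff_left₀ (τ.n2_nonneg _) hε two_ne_zero).1 ?_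
    rw [τ.n2_smul, mul_pow, h3, norm_inv, Complex.norm_natCast]
    calc (Fintype.card ι : ℝ)⁻¹ ^ 2 * (Fintype.card ι * τ.n2 (∑ j, star (v j) * w * v j) ^ 2)
        ≤ (Fintype.card ι : ℝ)⁻¹ ^ 2 * (Fintype.card ι * (ε ^ 2 * Fintype.card ι)) := by gcongr
      _ = ε ^ 2 := by field_simp

end aux

/-- For `Y ∈ F` choose `z Y ∈ commSpan` with `‖Y - z Y‖₂ ≤ dcs Y + η² / 2`; apply `greedy`
(`v₀ = 1` on `Unit`) to the family `s * z Y * s⋆`, `s ∈ S`, with `ε = η⁴ / 4`, `N₁ ≥ η⁻⁴`. Let
`L = card ι`, `f i j = v i * star (v j)`, `U δ = ∑ c δ i j • f i j` (`exists_udes`). By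
`UDes.ex_bilin`, `E U Y U⋆ = E U⋆ Y U = 𝓔 Y := L⁻¹ ∑ i, v i * (∑ a, (v a)⋆ Y v a) * (v i)⋆`, with
`‖𝓔 Y‖₂² = L⁻¹ ‖∑ a, (v a)⋆ Y v a‖₂²` and `‖𝓔 Y‖₂ ≤ ‖Y‖₂` (`n2_ex_le`). `V` consists of the
elements `s₁⋆ U δ s₂`, their adjoints, and `L • s⋆ f i i s`. `units`: `G i j = s₁⋆ f i j s₂`,
`l i = s₁⋆ f i i s₁`; for the adjoint `G i j = s₂⋆ f i j s₁`, `l i = s₂⋆ f i i s₂`;
`L • f i i - 1 = ∑ j, (f i j f j i - f j i f i j) ∈ commSpan`. `small`: modulo `commSpan`,
`f i j * Y ≡ L⁻¹ • Y_ji`, `Y_ji = ∑ k, v k * ((v j)⋆ Y v i) * (v k)⋆`; so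
`E dcs (U Y)² ≤ L⁻² E ‖∑ c i j • Y_ji‖₂² = L⁻³ ∑ ‖Y_ji‖₂² = L⁻² ‖Y‖₂²`, then `ex_le_sqrt`. -/
theorem exists_step (τ : Tr Q) (hQ : Halving Q) {F S : Set Q} (hF : F.Finite) (hS : S.Finite)
    (hSu : ∀ s ∈ S, s ∈ unitary Q) {η : ℝ} (hη : 0 < η) (hη1 : η ≤ 1) :
    ∃ (Δ : Type) (_ : Fintype Δ) (_ : Nonempty Δ) (U : Δ → Q) (V : Set Q), V.Finite ∧
      (∀ δ, U δ ∈ unitary Q) ∧ ∀ s₁ ∈ S, ∀ s₂ ∈ S, ∀ e : Bool,
        Des τ η (fun δ => lt (star s₁ * U δ * s₂) e) V ∧
        Ad τ η (fun δ => lt (star s₁ * U δ * s₂) e) F := by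
  choose z hz hz' using fun Y => exists_lt_dcs τ Y (ε := η ^ 2 / 2) (by positivity)
  obtain ⟨n, φ, -, hφ⟩ := (hS.image2 (fun s Y => s * z Y * star s) hF).fin_param
  have hφm : ∀ i, φ i ∈ commSpan Q := by
    intro i
    obtain ⟨s, hs, Y, -, h⟩ : φ i ∈ Set.image2 (fun s Y => s * z Y * star s) S F :=
      hφ ▸ Set.mem_range_self i
    rw [← h]
    exact conj_mem_commSpan (hSu s hs) (hz Y)
  have h₀ : Sys (fun _ : Unit => (1 : Q)) 1 := ⟨IsStarProjection.one Q, by simp, by simp⟩
  obtain ⟨ι, _, _, v, e, -, hv, hN, -, hsm⟩ := greedy τ hQ h₀ φ hφm (ε := (η ^ 2 / 2) ^ 2)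
    (by positivity) ⌈(η ^ 4)⁻¹⌉₊
  have hne : Nonempty ι := Fintype.card_pos_iff.1 (greedy_card_pos τ hv)
  have hL : (Fintype.card ι : ℝ)⁻¹ ≤ η ^ 4 :=
    inv_le_of_inv_le₀ (by positivity) (Nat.ceil_le.1 hN)
  obtain ⟨Δ, _, _, c, hc⟩ := exists_udes ι
  have hc' := step_udes_adj hc
  have had : ∀ {c : Δ → ι → ι → ℂ}, UDes c → ∀ a ∈ S, ∀ b ∈ S,
      Ad τ η (fun δ => star a * stepU c v δ * b) F := by
    intro c hc a ha b hb Y hY
    obtain ⟨i, hi⟩ : b * z Y * star b ∈ Set.range φ := hφ ▸ Set.mem_image2_of_mem hb hY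
    have h1 := step_ad τ hc hv (hSu a ha) (hSu b hb) Y (z Y) (ε := η ^ 2 / 2) (by positivity)
      (hi ▸ hsm i)
    linarith [hz' Y]
  refine ⟨Δ, inferInstance, inferInstance, stepU c v,
    ((⋃ δ, Set.image2 (fun a b => star a * stepU c v δ * b) S S) ∪
      (⋃ δ, Set.image2 (fun a b => star a * stepU (fun δ i j => conj (c δ j i)) v δ * b) S S)) ∪
      ⋃ i, (fun a => (Fintype.card ι : ℂ) • (star a * (v i * star (v i)) * a)) '' S,
    ((Set.finite_iUnion fun δ => hS.image2 _ hS).union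
      (Set.finite_iUnion fun δ => hS.image2 _ hS)).union
      (Set.finite_iUnion fun i => hS.image _),
    fun δ => hc.mem_unitary hv δ, fun s₁ h₁ s₂ h₂ b => ?_⟩
  cases b
  · have h1 : (fun δ => lt (star s₁ * stepU c v δ * s₂) false) =
        fun δ => star s₂ * stepU (fun δ i j => conj (c δ j i)) v δ * s₁ := by
      funext δ
      rw [R095.lt_false, star_mul, star_mul, star_star, step_star_U, mul_assoc]
    rw [h1]
    exact ⟨step_des τ hc' hv (hSu _ h₂) (hSu _ h₁) hη hη1 hL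
      (fun δ => Or.inl (Or.inr (Set.mem_iUnion.2 ⟨δ, Set.mem_image2_of_mem h₂ h₁⟩)))
      (fun i => Or.inr (Set.mem_iUnion.2 ⟨i, s₂, h₂, rfl⟩)), had hc' _ h₂ _ h₁⟩
  · exact ⟨step_des τ hc hv (hSu _ h₁) (hSu _ h₂) hη hη1 hL
      (fun δ => Or.inl (Or.inl (Set.mem_iUnion.2 ⟨δ, Set.mem_image2_of_mem h₁ h₂⟩)))
      (fun i => Or.inr (Set.mem_iUnion.2 ⟨i, s₁, h₁, rfl⟩)), had hc _ h₁ _ h₂⟩

end Crest.Agent.R121
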