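import Crest.Agent.R121.Energy
import Crest.Agent.R121.Spectral
import Crest.Agent.R124.VN

/-! Row 121: Kraus maps reach the central supremum. -/

set_option autoImplicit false

open scoped ComplexOrder InnerProductSpace ComplexConjugate

namespace Crest.Agent.R121

open Crest.Agent.R095 (Tr lt)
open Crest.Agent.R124

variable {A : Type*} [CStarAlgebra A] [PartialOrder A] [StarOrderedRing A]
variable {K : Type*} [NormedAddCommGroup K] [InnerProductSpace ℂ K] [CompleteSpace K]
variable {ι : A →⋆ₐ[ℂ] (K →L[ℂ] K)}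

/-- The real part of a sum of vector functionals. -/
noncomputable def supPhi (ι : A →⋆ₐ[ℂ] (K →L[ℂ] K)) {J : Type*} [Fintype J] (ξ : J → K) :
    A →ₗ[ℝ] ℝ where
  toFun y := (vs ι ξ y).re
  map_add' x y := by simp [vs, Finset.sum_add_distrib]
  map_smul' c x := by
    rw [← Complex.coe_smul]
    simp [vs, Finset.mul_sum, -Complex.coe_smul]

lemma supPhi_apply {J : Type*} [Fintype J] (ξ : J → K) (y : A) :
    supPhi ι ξ y = (vs ι ξ y).re := rfl

lemma supPhi_mono {J : Type*} [Fintype J] (ξ : J → K) {x y : A} (h : x ≤ y) :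
    supPhi ι ξ x ≤ supPhi ι ξ y := by
  rw [← sub_nonneg] at h ⊢
  obtain ⟨d, hd⟩ := CStarAlgebra.nonneg_iff_eq_star_mul_self.mp h
  rw [← map_sub, hd, supPhi_apply, vs_star_mul]
  exact Finset.sum_nonneg fun _ _ => by positivity

lemma supPhi_le {J : Type*} [Fintype J] (ξ : J → K) (y : A) :
    supPhi ι ξ y ≤ (∑ j, ‖ξ j‖ ^ 2) * ‖y‖ :=
  (Complex.re_le_norm _).trans (norm_vs_le ξ y)

omit [PartialOrder A] [StarOrderedRing A] in
lemma sup_mul_eq (hι : IsVN ι) {S : Set A} {U a : A} (hU : SLim ι S U)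
    (h : ∀ u ∈ S, U * (star u * u) = u → a * u = u) : a * U = U := by
  refine hι.inj ?_
  ext k
  refine eq_of_norm_sub_le_zero (le_of_forall_pos_le_add fun ε hε => ?_)
  obtain ⟨u, hu, h1, h2⟩ := hU {k} (ε / (‖ι a‖ + 1)) (by positivity)
  have h3 := (h2 k (Finset.mem_singleton_self k)).1
  have h4 : ι (a * U) k - ι U k = ι a (ι U k - ι u k) - (ι U k - ι u k) := by
    rw [map_sub, ← vn_mul_apply, ← vn_mul_apply, h u hu h1]
    abel
  rw [lt_div_iff₀ (by positivity)] at h3
  rw [h4]
  refine (norm_sub_le _ _).trans ?_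
  have := (ι a).le_opNorm (ι U k - ι u k)
  linarith

/-- `IsVN.exists_maximal` for the set `S` of projections `e` with `z e = e` such that for every
`ε > 0` there is a finite family `m` with `q * m i = m i`, `∑ star (m i) * m i ≤ e` and
`re vs ξ e ≤ re vs ξ (∑ star (m i) * m i) + ε`. (`SLim`-closed: a ⋆-strong limit of projections is
self-adjoint, hence a projection; `U * u = u` gives `u ≤ U`.) If `z - e ≠ 0` for the maximal `e`,
then `q * a * (z - e) ≠ 0` for some `a` (`hz` with adjoints), `Baer.exists_piso` gives `w ≠ 0` with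
`q w = w = w (z - e)` and `e + w⋆ w ∈ S`. -/
theorem exists_cover_family (hι : IsVN ι) {z q : A} (hzp : IsStarProjection z)
    (hq : IsStarProjection q) (hz : ∀ g : A, (∀ a, g * a * q = 0) → g * z = 0) {J : Type*}
    [Fintype J] (ξ : J → K) {ε : ℝ} (hε : 0 < ε) :
    ∃ (n : ℕ) (m : Fin n → A), (∀ i, q * m i = m i) ∧ ∑ i, star (m i) * m i ≤ z ∧
      (vs ι ξ z).re ≤ (vs ι ξ (∑ i, star (m i) * m i)).re + ε := by
  classical
  let S : Set A := {e | IsStarProjection e ∧ z * e = e ∧ ∀ ε : ℝ, 0 < ε →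
    ∃ (n : ℕ) (m : Fin n → A), (∀ i, q * m i = m i) ∧ ∑ i, star (m i) * m i ≤ e ∧
      supPhi ι ξ e ≤ supPhi ι ξ (∑ i, star (m i) * m i) + ε}
  obtain ⟨e, ⟨he, hze, he'⟩, hmax⟩ := hι.exists_maximal S
    ⟨IsStarProjection.zero A, mul_zero z, fun ε hε => ⟨0, Fin.elim0, fun i => i.elim0, by simp,
      by simpa using hε.le⟩⟩ (fun u hu => piso_of_isStarProjection hu.1) (fun U _ hU => by
      have hu : ∀ u ∈ S, U * (star u * u) = u → U * u = u := fun u hu h => by
        rwa [hu.1.isSelfAdjoint.star_eq, hu.1.isIdempotentElem.eq] at h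
      have hsa : IsSelfAdjoint U := by
        refine hι.inj ?_
        ext k
        refine eq_of_norm_sub_le_zero (le_of_forall_pos_le_add fun ε hε => ?_)
        obtain ⟨u, hu, -, h2⟩ := hU {k} (ε / 2) (by positivity)
        obtain ⟨h3, h4⟩ := h2 k (Finset.mem_singleton_self k)
        rw [hu.1.isSelfAdjoint.star_eq] at h4
        have := norm_sub_le_norm_sub_add_norm_sub (ι (star U) k) (ι u k) (ι U k)
        rw [norm_sub_rev (ι u k)] at this
        linarith
      have hUp : IsStarProjection U := ⟨sup_mul_eq hι hU hu, hsa⟩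
      refine ⟨hUp, sup_mul_eq hι hU fun u hu _ => hu.2.1, fun ε hε => ?_⟩
      have hN : 0 ≤ ∑ j, ‖ξ j‖ := Finset.sum_nonneg fun _ _ => norm_nonneg _
      obtain ⟨u, huS, h1, h2⟩ := hU (Finset.univ.image ξ) (ε / 2 / (∑ j, ‖ξ j‖ + 1)) (by positivity)
      obtain ⟨n, m, h3, h4, h5⟩ := huS.2.2 (ε / 2) (by positivity)
      refine ⟨n, m, h3, h4.trans ((huS.1.le_iff_mul_eq_right hUp).2 (hu u huS h1)), ?_⟩
      have h6 : supPhi ι ξ (U - u) ≤ (∑ j, ‖ξ j‖) * (ε / 2 / (∑ j, ‖ξ j‖ + 1)) := by
        rw [supPhi_apply, vs, Complex.re_sum, Finset.sum_mul]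
        refine Finset.sum_le_sum fun j _ => (Complex.re_le_norm _).trans
          ((norm_inner_le_norm _ _).trans (mul_le_mul_of_nonneg_left ?_ (norm_nonneg _)))
        rw [map_sub, sub_apply]
        exact (h2 _ (Finset.mem_image_of_mem ξ (Finset.mem_univ j))).1.le
      have h7 : (∑ j, ‖ξ j‖) * (ε / 2 / (∑ j, ‖ξ j‖ + 1)) ≤ ε / 2 := by
        rw [← mul_div_assoc, div_le_iff₀ (by positivity)]
        nlinarith
      rw [map_sub] at h6
      linarith)
  suffices h : e = z by
    subst h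
    exact he' ε hε
  by_contra hne
  have hez : e * z = e := by
    simpa [he.isSelfAdjoint.star_eq, hzp.isSelfAdjoint.star_eq] using congrArg star hze
  have h1 : ∃ a, (z - e) * a * q ≠ 0 := by
    by_contra h
    push Not at h
    have := hz _ h
    rw [sub_mul, hzp.isIdempotentElem.eq, hez, sub_eq_zero] at this
    exact hne this.symm
  obtain ⟨a, ha⟩ := h1
  have hx : q * star a * (z - e) ≠ 0 := fun h => ha (by
    simpa [he.isSelfAdjoint.star_eq, hzp.isSelfAdjoint.star_eq, hq.isSelfAdjoint.star_eq,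
      mul_assoc] using congrArg star h)
  obtain ⟨v, hv0, hv, hv1, hv2⟩ := hι.baer.exists_piso hx
  have h2 : q * v = v := by
    have := hv1 (1 - q) (by rw [← mul_assoc, ← mul_assoc, hq.one_sub_mul_self, zero_mul, zero_mul])
    rw [sub_mul, one_mul, sub_eq_zero] at this
    exact this.symm
  have h3 : v * e = 0 := hv2 e (by
    rw [mul_assoc, sub_mul, hze, he.isIdempotentElem.eq, sub_self, mul_zero])
  have h4 : v * z = v := by
    have := hv2 (1 - z) (by
      rw [mul_assoc, sub_mul, hzp.mul_one_sub_self, mul_sub e, mul_one, hez, sub_self, sub_self,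
        mul_zero])
    rw [mul_sub, mul_one, sub_eq_zero] at this
    exact this.symm
  have h5 : e * (star v * v) = 0 := by
    have := congrArg star h3
    rw [star_mul, he.isSelfAdjoint.star_eq, star_zero] at this
    rw [← mul_assoc, this, zero_mul]
  have h6 : z * (star v * v) = star v * v := by
    have := congrArg star h4
    rw [star_mul, hzp.isSelfAdjoint.star_eq] at this
    rw [← mul_assoc, this]
  have h7 := hmax (star v * v) (piso_of_isStarProjection hv.proj)
    (by rw [he.isSelfAdjoint.star_eq, h5]) (by rw [hv.proj.isSelfAdjoint.star_eq, h5])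
    ⟨he.add hv.proj h5, by rw [mul_add, hze, h6], fun ε hε => by
      obtain ⟨n, m, a1, a2, a3⟩ := he' ε hε
      refine ⟨n + 1, Fin.cons v m, fun i => ?_, ?_, ?_⟩
      · refine Fin.cases ?_ (fun i => ?_) i
        · exact h2
        · exact a1 i
      · simp only [Fin.sum_univ_succ, Fin.cons_zero, Fin.cons_succ]
        rw [add_comm e]
        exact add_le_add_right a2 _
      · simp only [Fin.sum_univ_succ, Fin.cons_zero, Fin.cons_succ, map_add]
        linarith⟩
  exact hv0 ((CStarRing.star_mul_self_eq_zero_iff _).1 h7)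

omit [PartialOrder A] [StarOrderedRing A] in
lemma sup_central (hA : Baer A) {n : ℕ} {p : Fin n → A} (hp : Atoms p) :
    ∃ z : Fin n → A, (∀ i, IsStarProjection (z i)) ∧ (∀ i, Cen (z i)) ∧ ∑ i, z i = 1 ∧
      (∀ i j, i < j → z i * p j = 0) ∧ ∀ i g, (∀ a, g * a * p i = 0) → g * z i = 0 := by
  let P : ℕ → A := fun k => ∑ j : Fin n, if k ≤ j then p j else 0
  have hP : ∀ (k : ℕ) (j : Fin n), k ≤ j → P k * p j = p j := by
    intro k j hj
    simp only [P, Finset.sum_mul]
    rw [Finset.sum_eq_single j (fun b _ hb => by split_ifs <;> simp [hp.orth b j hb]) (by simp),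
      if_pos hj, hp.mul_self]
  choose D hD1 hD2 hD3 hD4 using fun k => hA.central_cover (P k)
  have hDp : ∀ (k : ℕ) (j : Fin n), k ≤ j → D k * p j = p j := fun k j hj => by
    rw [← hP k j hj, ← mul_assoc, hD3]
  have hDP : ∀ k, D k * P (k + 1) = P (k + 1) := fun k => by
    simp only [P, Finset.mul_sum]
    refine Finset.sum_congr rfl fun j _ => ?_
    split_ifs with h
    · exact hDp k j (by omega)
    · exact mul_zero _
  have hc : ∀ k a, (1 - D k) * a = a * (1 - D k) := fun k a => by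
    rw [sub_mul, mul_sub, one_mul, mul_one, hD2]
  have hDD : ∀ k, D k * D (k + 1) = D (k + 1) := fun k => by
    have := hD4 (k + 1) (1 - D k) fun a => by
      rw [hc, mul_assoc, sub_mul, one_mul, hDP, sub_self, mul_zero]
    rw [sub_mul, one_mul, sub_eq_zero] at this
    exact this.symm
  refine ⟨fun i => D i - D (i + 1), fun i => (hD1 _).sub_of_mul_eq_right (hD1 _) (hDD i),
    fun i a => by rw [sub_mul, mul_sub, hD2, hD2], ?_, fun i j hij => ?_, fun i g hg => ?_⟩
  · rw [Fin.sum_univ_eq_sum_range (fun i => D i - D (i + 1)) n, Finset.sum_range_sub']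
    have h0 : D 0 = 1 := by simpa [P, hp.sum] using hD3 0
    have h1 : D n = 0 := by
      have := hD4 n 1 fun a => by simp [P, fun j : Fin n => not_le.2 j.2]
      rwa [one_mul] at this
    rw [h0, h1, sub_zero]
  · rw [sub_mul, hDp i j hij.le, hDp (i + 1) j hij, sub_self]
  · have h1 : P i = p i + P (i + 1) := by
      have : p i = ∑ j : Fin n, if j = i then p j else 0 := by simp
      rw [this]
      simp only [P, ← Finset.sum_add_distrib]
      refine Finset.sum_congr rfl fun j _ => ?_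
      by_cases h2 : j = i
      · simp [h2]
      · have h3 : (j : ℕ) ≠ i := fun h => h2 (Fin.ext h)
        rw [if_neg h2, zero_add]
        exact if_congr (by omega) rfl rfl
    have h2 := hD4 i (g * (1 - D (i + 1))) fun a => by
      rw [mul_assoc g, hc, h1, ← mul_assoc, mul_assoc (g * a), mul_add, sub_mul _ _ (P _), one_mul,
        hD3, sub_self, add_zero, hc, ← mul_assoc, hg, zero_mul]
    rwa [mul_assoc, sub_mul, one_mul, hD2, hDD] at h2

/-- `exists_spectral`: `h ≈ h' = ∑ t i • p i`, `t` monotone. Let `c i` be the central cover of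
`p i` (`Baer.central_cover`) and `z i = c i * ∏_{j > i} (1 - c j)`: orthogonal central projections
with sum `1` and `p j * z i = 0` for `j > i`, so `h' ≤ ζ = ∑ t i • z i`. Take families `m i` from
`exists_cover_family` for `(z i, p i)`, `e i = ∑ star m * m ≤ z i`, complete by
`m₀ = √(1 - ∑ e i)`. Then `Q.ch h' = ∑ t i • e i + m₀ h' m₀`. -/
theorem exists_ch_ge (hι : IsVN ι) {J J' : Type*} [Fintype J] [Fintype J'] (ξ : J → K)
    (ξ' : J' → K) (hcen : ∀ z : A, IsStarProjection z → Cen z → vs ι ξ z = vs ι ξ' z) {h : A}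
    (hh : IsSelfAdjoint h) {ε : ℝ} (hε : 0 < ε) :
    ∃ Q : Kr A, (vs ι ξ h).re ≤ (vs ι ξ' (Q.ch h)).re + ε := by
  classical
  set N := ∑ j, ‖ξ j‖ ^ 2 with hN
  set N' := ∑ j, ‖ξ' j‖ ^ 2 with hN'
  have hN0 : 0 ≤ N := Finset.sum_nonneg fun _ _ => by positivity
  have hN0' : 0 ≤ N' := Finset.sum_nonneg fun _ _ => by positivity
  set δ := ε / 2 / (N + N' + 1) with hδ
  have hδ0 : 0 < δ := by positivity
  have hδ1 : N * δ + N' * δ ≤ ε / 2 := by
    rw [← add_mul, hδ, ← mul_div_assoc, div_le_iff₀ (by positivity)]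
    nlinarith
  obtain ⟨n, p, t, hp, ht, htM, hh'⟩ := exists_spectral hι.baer hh hδ0
  set M := ‖h‖ + δ with hM
  have hM0 : 0 < M := by positivity
  set η := ε / 2 / (2 * M * (n + 1)) with hη
  have hη0 : 0 < η := by positivity
  have hη1 : n * (2 * M * η) ≤ ε / 2 := by
    rw [hη, ← mul_div_assoc, ← mul_div_assoc, div_le_iff₀ (by positivity)]
    nlinarith
  obtain ⟨z, hz1, hz2, hz3, hz4, hz5⟩ := sup_central hι.baer hp
  choose k m hm1 hm2 hm3 using fun i =>
    exists_cover_family hι (hz1 i) (hp.proj i) (hz5 i) ξ' hη0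
  set h' := ∑ i, t i • p i with hh'def
  let e : Fin n → A := fun i => ∑ j, star (m i j) * m i j
  have he : 0 ≤ 1 - ∑ i, e i := by
    rw [sub_nonneg, ← hz3]
    exact Finset.sum_le_sum fun i _ => hm2 i
  set m₀ := CFC.sqrt (1 - ∑ i, e i) with hm₀
  have hm₀2 : star m₀ * m₀ = 1 - ∑ i, e i := by
    rw [(IsSelfAdjoint.of_nonneg (CFC.sqrt_nonneg _) : IsSelfAdjoint m₀).star_eq,
      CFC.sqrt_mul_sqrt_self _ he]
  let Q : Kr A :=
    { I := Option (Σ i, Fin (k i))
      m := fun o => o.elim m₀ fun x => m x.1 x.2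
      sum := by
        rw [Fintype.sum_option, Fintype.sum_sigma]
        simp only [Option.elim_none, Option.elim_some]
        rw [hm₀2]
        exact sub_add_cancel _ _ }
  refine ⟨Q, ?_⟩
  have a1 : supPhi ι ξ h ≤ supPhi ι ξ h' + N * δ := by
    have := (supPhi_le (ι := ι) ξ (h - h')).trans (mul_le_mul_of_nonneg_left hh' hN0)
    rw [map_sub] at this
    linarith
  have a2 : h' ≤ ∑ i, t i • z i := by
    have e1 : h' = ∑ i, ∑ j, t j • (z i * p j) := by
      rw [Finset.sum_comm]
      simp only [← Finset.smul_sum, ← Finset.sum_mul, hz3, one_mul, hh'def]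
    have e2 : ∑ i, t i • z i = ∑ i, ∑ j, t i • (z i * p j) := by
      simp only [← Finset.smul_sum, ← Finset.mul_sum, hp.sum, mul_one]
    rw [e1, e2]
    refine Finset.sum_le_sum fun i _ => Finset.sum_le_sum fun j _ => ?_
    rcases lt_or_ge i j with hij | hij
    · rw [hz4 i j hij, smul_zero, smul_zero]
    · exact smul_le_smul_of_nonneg_right (ht hij) ((hz1 i).mul (hp.proj j) (hz2 i _)).nonneg
  have a3 : supPhi ι ξ (∑ i, t i • z i) = ∑ i, t i * supPhi ι ξ' (z i) := by
    simp only [map_sum, map_smul, smul_eq_mul, supPhi_apply, hcen _ (hz1 _) (hz2 _)]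
  have a4 : Q.ch h' = star m₀ * h' * m₀ + ∑ i, t i • e i := by
    rw [Kr.ch]
    change ∑ o : Option (Σ i, Fin (k i)), _ = _
    rw [Fintype.sum_option, Fintype.sum_sigma]
    congr 1
    refine Finset.sum_congr rfl fun i _ => ?_
    rw [Finset.smul_sum]
    refine Finset.sum_congr rfl fun j _ => ?_
    change star (m i j) * h' * m i j = _
    have : h' * m i j = t i • m i j := by
      conv_lhs => rw [← hm1 i j, ← mul_assoc, hh'def, Finset.sum_mul,
        Finset.sum_eq_single i (fun b _ hb => by rw [smul_mul_assoc, hp.orth b i hb, smul_zero])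
          (by simp), smul_mul_assoc, hp.mul_self, smul_mul_assoc, hm1]
    rw [mul_assoc, this, mul_smul_comm]
  have a5 : -M • (1 - ∑ i, e i) ≤ star m₀ * h' * m₀ := by
    have h1 : -M • (1 : A) ≤ h' := by
      rw [← hp.sum, Finset.smul_sum]
      exact Finset.sum_le_sum fun i _ =>
        smul_le_smul_of_nonneg_right (abs_le.1 (htM i)).1 (hp.proj i).nonneg
    have := star_left_conjugate_le_conjugate h1 m₀
    rwa [mul_smul_comm, mul_one, smul_mul_assoc, hm₀2] at this
  have a6 : supPhi ι ξ' (Q.ch h') ≤ supPhi ι ξ' (Q.ch h) + N' * δ := by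
    have e1 : Q.ch h' - Q.ch h = Q.ch (h' - h) := by
      simp only [Kr.ch, mul_sub, sub_mul, Finset.sum_sub_distrib]
    have := (supPhi_le (ι := ι) ξ' (Q.ch (h' - h))).trans (mul_le_mul_of_nonneg_left
      ((Q.norm_ch_le _).trans ((norm_sub_rev _ _).trans_le hh')) hN0')
    rw [← e1, map_sub] at this
    linarith
  have a7 : ∑ i, t i * supPhi ι ξ' (z i) ≤ supPhi ι ξ' (Q.ch h') + n * (2 * M * η) := by
    have b1 := supPhi_mono (ι := ι) ξ' a5
    rw [← hz3, ← Finset.sum_sub_distrib] at b1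
    simp only [map_smul, map_sum, map_sub, smul_eq_mul, Finset.mul_sum] at b1
    rw [a4, map_add]
    simp only [map_smul, map_sum (supPhi ι ξ') (fun i => t i • e i), smul_eq_mul]
    have b2 : ∑ i, t i * supPhi ι ξ' (z i) ≤ ∑ i, (-M * (supPhi ι ξ' (z i) - supPhi ι ξ' (e i)) +
        t i * supPhi ι ξ' (e i) + 2 * M * η) := by
      refine Finset.sum_le_sum fun i _ => ?_
      have c1 : supPhi ι ξ' (e i) ≤ supPhi ι ξ' (z i) := supPhi_mono ξ' (hm2 i)
      have c2 : supPhi ι ξ' (z i) ≤ supPhi ι ξ' (e i) + η := hm3 i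
      have c3 := (abs_le.1 (htM i)).2
      nlinarith
    simp only [Finset.sum_add_distrib, Finset.sum_const, Finset.card_univ, Fintype.card_fin,
      nsmul_eq_mul] at b2
    linarith
  have a8 := supPhi_mono (ι := ι) ξ a2
  change supPhi ι ξ h ≤ supPhi ι ξ' (Q.ch h) + ε
  linarith

end Crest.Agent.R121
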